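import Vale.Agent.P269.Defs

/-! Calculus of formal series in even and odd variables. -/

noncomputable section

namespace Vale.Agent.P269.Ser

variable {I K : Type} {par : I → Bool} [CommRing K]

section alg
variable {R : Type} [CommRing R] [Algebra R K]

theorem smulR_ap (c : R) (f : Ser par K) (l : List I) : (c • f) l = c • f l := rfl

theorem smulR_eq (c : R) (f : Ser par K) : c • f = (algebraMap R K c) • f :=
  ext' fun l => by rw [smulR_ap, smul_ap, Algebra.smul_def]

instance : Algebra R (Ser par K) :=
  Algebra.ofModule
    (fun c f g => ext' fun l => by rw [smulR_eq, smul_mul', smulR_ap, Algebra.smul_def])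
    (fun c f g => ext' fun l => by rw [smulR_eq c g, mul_smul', smulR_ap, Algebra.smul_def])

instance : IsScalarTower R K (Ser par K) :=
  ⟨fun c d f => ext' fun l => smul_assoc c d (f l)⟩

@[simp] theorem der_smulR (x : I) (c : R) (f : Ser par K) : der x (c • f) = c • der x f := rfl

@[simp] theorem tw_smulR (b : Bool) (c : R) (f : Ser par K) : tw b (c • f) = c • tw b f := by
  rw [smulR_eq, tw_smul, ← smulR_eq]

theorem sg_map (b : Bool) : algebraMap R K (sg b) = sg b := by
  cases b <;> simp [sg]

theorem sgR_smul (b : Bool) (f : Ser par K) : (sg b : R) • f = (sg b : K) • f := by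
  rw [smulR_eq, sg_map]

end alg

@[simp] theorem sg_false : (sg false : K) = 1 := rfl
@[simp] theorem sg_true : (sg true : K) = -1 := rfl
@[simp] theorem sg_mul_self (b : Bool) : (sg b : K) * sg b = 1 := by cases b <;> simp

theorem zero_ap (l : List I) : (0 : Ser par K) l = 0 := rfl
theorem neg_ap (f : Ser par K) (l : List I) : (-f) l = -f l := rfl
theorem sub_ap (f g : Ser par K) (l : List I) : (f - g) l = f l - g l := rfl
theorem sum_ap {α : Type} (s : Finset α) (f : α → Ser par K) (l : List I) :
    (∑ i ∈ s, f i) l = ∑ i ∈ s, f i l := by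
  classical
  induction s using Finset.induction_on with
  | empty => rfl
  | insert a s h ih => rw [Finset.sum_insert h, Finset.sum_insert h, add_ap, ih]

attribute [simp] der_add tw_add tw_mul der_cst tw_cst

@[simp] theorem der_zero (x : I) : der x (0 : Ser par K) = 0 := rfl
@[simp] theorem der_one (x : I) : der x (1 : Ser par K) = 0 := rfl
@[simp] theorem der_neg (x : I) (f : Ser par K) : der x (-f) = -der x f := rfl
@[simp] theorem der_sub (x : I) (f g : Ser par K) : der x (f - g) = der x f - der x g := rfl
@[simp] theorem der_sum {α : Type} (x : I) (s : Finset α) (f : α → Ser par K) :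
    der x (∑ i ∈ s, f i) = ∑ i ∈ s, der x (f i) :=
  ext' fun l => by rw [sum_ap]; exact sum_ap s f (x :: l)

@[simp] theorem tw_false (f : Ser par K) : tw false f = f := ext' fun l => by simp [tw]
@[simp] theorem tw_zero (b : Bool) : tw b (0 : Ser par K) = 0 := ext' fun _ => mul_zero _
@[simp] theorem tw_one (b : Bool) : tw b (1 : Ser par K) = 1 := tw_cst b 1
@[simp] theorem tw_neg (b : Bool) (f : Ser par K) : tw b (-f) = -tw b f :=
  ext' fun _ => mul_neg _ _
@[simp] theorem tw_sub (b : Bool) (f g : Ser par K) : tw b (f - g) = tw b f - tw b g :=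
  ext' fun _ => mul_sub _ _ _
@[simp] theorem tw_sum {α : Type} (b : Bool) (s : Finset α) (f : α → Ser par K) :
    tw b (∑ i ∈ s, f i) = ∑ i ∈ s, tw b (f i) :=
  ext' fun l => by simp only [tw, sum_ap, Finset.mul_sum]

theorem eq_zero_of_der {f : Ser par K} (h0 : f [] = 0) (h : ∀ x, der x f = 0) : f = 0 :=
  ext' fun l => by
    cases l with
    | nil => exact h0
    | cons x l => exact congrFun (h x) l

theorem parl_append (l l' : List I) : parl par (l ++ l') = xor (parl par l) (parl par l') := by
  induction l with
  | nil => simp [parl]
  | cons x l ih => simp [parl, ih]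

/-! ### Parity -/

theorem Par.tw_eq {b : Bool} {f : Ser par K} (h : Par b f) (c : Bool) :
    tw c f = (sg (c && b) : K) • f :=
  ext' fun l => by
    by_cases h0 : f l = 0
    · simp [tw, smul_ap, h0]
    · simp [tw, smul_ap, h l h0]

theorem Par.tw_even {f : Ser par K} (h : Par false f) (c : Bool) : tw c f = f := by
  simpa using h.tw_eq c

theorem par_zero (b : Bool) : Par b (0 : Ser par K) := fun _ h => (h rfl).elim

theorem Par.add {b : Bool} {f g : Ser par K} (hf : Par b f) (hg : Par b g) : Par b (f + g) :=
  fun l h => by
    by_cases h0 : f l = 0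
    · exact hg l fun h1 => h (by rw [add_ap, h0, h1, add_zero])
    · exact hf l h0

theorem Par.smul {R : Type} [CommRing R] [Algebra R K] {b : Bool} {f : Ser par K} (c : R)
    (hf : Par b f) : Par b (c • f) :=
  fun l h => hf l fun h1 => h (by rw [smulR_ap, h1, smul_zero])

theorem Par.smul' {R : Type} [CommRing R] [Algebra R K] {b : Bool} {f : Ser par K} (c : R)
    (hf : c ≠ 0 → Par b f) : Par b (c • f) := by
  by_cases h : c = 0
  · rw [h, zero_smul]; exact par_zero b
  · exact (hf h).smul c

theorem Par.neg {b : Bool} {f : Ser par K} (hf : Par b f) : Par b (-f) :=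
  fun l h => hf l fun h1 => h (by rw [neg_ap, h1, neg_zero])

theorem Par.sub {b : Bool} {f g : Ser par K} (hf : Par b f) (hg : Par b g) : Par b (f - g) := by
  rw [sub_eq_add_neg]; exact hf.add hg.neg

theorem par_sum {α : Type} {b : Bool} {s : Finset α} {f : α → Ser par K}
    (h : ∀ i ∈ s, Par b (f i)) : Par b (∑ i ∈ s, f i) :=
  Finset.sum_induction f (Par b) (fun _ _ => Par.add) (par_zero b) h

theorem Par.der {b : Bool} {f : Ser par K} (hf : Par b f) (x : I) :
    Par (xor b (par x)) (der x f) := fun l h => by
  have := hf (x :: l) h
  simp only [parl] at this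
  rw [← this]
  cases par x <;> simp

theorem Par.tw {b : Bool} {f : Ser par K} (hf : Par b f) (c : Bool) : Par b (tw c f) := by
  rw [hf.tw_eq]; exact hf.smul _

theorem Par.cast {a b : Bool} {f : Ser par K} (hf : Par a f) (h : a = b) : Par b f := h ▸ hf

theorem par_mul' (l : List I) : ∀ (a b : Bool) (f g : Ser par K), Par a f → Par b g →
    (f * g) l ≠ 0 → parl par l = xor a b := by
  induction l with
  | nil =>
    intro a b f g hf hg h
    rw [mul_nil] at h
    have h1 := hf [] (left_ne_zero_of_mul h)
    have h2 := hg [] (right_ne_zero_of_mul h)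
    rw [← h1, ← h2]; rfl
  | cons x l ih =>
    intro a b f g hf hg h
    rw [mul_cons] at h
    by_cases h0 : (f * der x g) l = 0
    · rw [h0, zero_add] at h
      have := ih _ _ _ _ (hf.der x) (hg.tw _) h
      simp only [parl, this]
      cases a <;> cases b <;> cases par x <;> rfl
    · have := ih _ _ _ _ hf (hg.der x) h0
      simp only [parl, this]
      cases a <;> cases b <;> cases par x <;> rfl

theorem Par.mul {a b : Bool} {f g : Ser par K} (hf : Par a f) (hg : Par b g) :
    Par (xor a b) (f * g) := fun l => par_mul' l a b f g hf hg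

theorem par_one : Par false (1 : Ser par K) := fun l h => by
  cases l with
  | nil => rfl
  | cons x l => exact (h rfl).elim

theorem par_var [DecidableEq I] (x : I) : Par (par x) (var x : Ser par K) := fun l h => by
  by_cases h0 : l = [x]
  · simp [h0, parl]
  · simp [var, h0] at h

theorem Par.nil_eq {f : Ser par K} (hf : Par true f) : f [] = 0 := by
  by_contra h
  exact absurd (hf [] h) (by simp [parl])

theorem comm' (l : List I) : ∀ (b : Bool) (f g : Ser par K), Par b f →
    (f * g) l = (tw b g * f) l := by
  induction l with
  | nil => intro b f g _; simp [mul_nil, tw, parl, mul_comm]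
  | cons x l ih =>
    intro b f g hf
    rw [mul_cons, mul_cons, ih b f _ hf, ih _ _ _ (hf.der x), der_tw, tw_tw, hf.tw_eq,
      smul_mul', mul_smul', add_comm]
    congr 1
    · cases b <;> cases par x <;> rfl
    · cases b <;> cases par x <;> simp

theorem Par.comm {b : Bool} {f : Ser par K} (hf : Par b f) (g : Ser par K) :
    f * g = Ser.tw b g * f := ext' fun l => comm' l b f g hf

theorem Par.comm_even {f : Ser par K} (hf : Par false f) (g : Ser par K) : f * g = g * f := by
  simpa using hf.comm g

theorem Par.comm_sg {a b : Bool} {f g : Ser par K} (hf : Par a f) (hg : Par b g) :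
    f * g = (sg (a && b) : K) • (g * f) := by
  rw [hf.comm, hg.tw_eq, smul_mul_assoc]

/-! ### Symmetry -/

theorem Symm.der {f : Ser par K} (hf : Symm f) (x : I) : Symm (der x f) :=
  fun l l' a b => hf (x :: l) l' a b

theorem Symm.swap {f : Ser par K} (hf : Symm f) (x y : I) :
    Ser.der y (Ser.der x f) = (sg (par x && par y) : K) • Ser.der x (Ser.der y f) :=
  ext' fun l => hf [] l x y

theorem symm_zero : Symm (0 : Ser par K) := fun _ _ _ _ => (mul_zero _).symm

theorem Symm.add {f g : Ser par K} (hf : Symm f) (hg : Symm g) : Symm (f + g) :=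
  fun l l' x y => by rw [add_ap, add_ap, hf, hg, mul_add]

theorem Symm.smul {R : Type} [CommRing R] [Algebra R K] {f : Ser par K} (c : R) (hf : Symm f) :
    Symm (c • f) :=
  fun l l' x y => by rw [smulR_ap, smulR_ap, hf, mul_smul_comm]

theorem Symm.neg {f : Ser par K} (hf : Symm f) : Symm (-f) :=
  fun l l' x y => by rw [neg_ap, neg_ap, hf, mul_neg]

theorem Symm.sub {f g : Ser par K} (hf : Symm f) (hg : Symm g) : Symm (f - g) := by
  rw [sub_eq_add_neg]; exact hf.add hg.neg

theorem symm_sum {α : Type} {s : Finset α} {f : α → Ser par K}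
    (h : ∀ i ∈ s, Symm (f i)) : Symm (∑ i ∈ s, f i) :=
  Finset.sum_induction f Symm (fun _ _ => Symm.add) symm_zero h

theorem Symm.tw {f : Ser par K} (hf : Symm f) (b : Bool) : Symm (tw b f) := fun l l' x y => by
  have : parl par (l ++ x :: y :: l') = parl par (l ++ y :: x :: l') := by
    simp only [parl_append, parl]
    cases par x <;> cases par y <;> simp
  simp only [Ser.tw, this]
  rw [hf, mul_left_comm]

theorem symm_mul' (l' : List I) (x y : I) (l : List I) : ∀ f g : Ser par K, Symm f → Symm g →
    (f * g) (l ++ x :: y :: l') = sg (par x && par y) * (f * g) (l ++ y :: x :: l') := by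
  induction l with
  | nil =>
    intro f g hf hg
    simp only [List.nil_append, mul_cons, hf.swap x y, hg.swap x y, der_tw, tw_tw, smul_mul',
      mul_smul', Bool.xor_comm (par y), Bool.and_comm (par y)]
    cases par x <;> cases par y <;> simp <;> ring
  | cons w l ih =>
    intro f g hf hg
    simp only [List.cons_append, mul_cons]
    rw [ih _ _ hf (hg.der w), ih _ _ (hf.der w) (hg.tw _), mul_add]

theorem Symm.mul {f g : Ser par K} (hf : Symm f) (hg : Symm g) : Symm (f * g) :=
  fun l l' x y => symm_mul' l' x y l f g hf hg

theorem symm_one : Symm (1 : Ser par K) := fun l l' x y => by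
  cases l <;> exact (mul_zero _).symm

theorem symm_var [DecidableEq I] (w : I) : Symm (var w : Ser par K) := fun l l' x y => by
  have h : ∀ a b : I, l ++ a :: b :: l' ≠ [w] := fun a b h => by
    have := congrArg List.length h
    simp at this
    omega
  simp [var, h]

theorem Symm.front {f : Ser par K} (hf : Symm f) (x : I) (l' : List I) (l : List I) :
    ∃ b, f (l ++ x :: l') = sg b * f (x :: (l ++ l')) := by
  induction l using List.reverseRecOn generalizing l' with
  | nil => exact ⟨false, by simp⟩
  | append_singleton l y ih =>
    obtain ⟨b, hb⟩ := ih (y :: l')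
    refine ⟨xor (par y && par x) b, ?_⟩
    simp only [List.append_assoc, List.singleton_append]
    rw [hf, hb, sg_xor, mul_assoc]

/-! ### Variables and the series `∑ c_y t^y` -/

section var
variable [DecidableEq I]

theorem der_var (x y : I) : der x (var y : Ser par K) = if x = y then 1 else 0 :=
  ext' fun l => by
    by_cases h : x = y
    · subst h
      cases l <;> simp [der, var] <;> rfl
    · simp [der, var, h, zero_ap]

theorem var_nil (y : I) : (var y : Ser par K) [] = 0 := by simp [var]

theorem mul_var_not_mem (x : I) (l : List I) : ∀ (f : Ser par K) (c : K), x ∉ l →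
    (f * c • var x : Ser par K) l = 0 := by
  induction l with
  | nil => intro f c _; simp [mul_nil, smul_ap, var_nil]
  | cons y l ih =>
    intro f c h
    have h1 : y ≠ x := fun e => h (by simp [e])
    rw [mul_cons, der_smul, der_var, if_neg h1, smul_zero, mul_zero, tw_smul,
      (par_var x).tw_eq, smul_smul, ih _ _ fun e => h (by simp [e])]
    simp [zero_ap]

theorem mul_var_cons (x : I) (l : List I) (f : Ser par K) (h : x ∉ l) :
    (f * var x : Ser par K) (x :: l) = f l := by
  rw [mul_cons, der_var, if_pos rfl, mul_one, (par_var x).tw_eq, mul_var_not_mem x l _ _ h,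
    add_zero]

end var

theorem sig_nil (c : I → Ser par K) : sig c [] = 0 := rfl

theorem der_sig (x : I) (c : I → Ser par K) :
    der x (sig c) = c x + sig fun y => (sg (par x && par y) : K) • der x (c y) := rfl

theorem sig_cons (x : I) (c : I → Ser par K) (l : List I) :
    sig c (x :: l) = c x l + sig (fun y => (sg (par x && par y) : K) • der x (c y)) l := rfl

theorem sig_add' (l : List I) : ∀ c d : I → Ser par K,
    sig (fun y => c y + d y) l = sig c l + sig d l := by
  induction l with
  | nil => intro c d; simp [sig_nil]
  | cons x l ih => intro c d; simp only [sig_cons, der_add, smul_add, ih, add_ap]; ring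

theorem sig_add (c d : I → Ser par K) : sig (fun y => c y + d y) = sig c + sig d :=
  ext' fun l => sig_add' l c d

theorem sig_smul' (a : K) (l : List I) : ∀ c : I → Ser par K,
    sig (fun y => a • c y) l = a * sig c l := by
  induction l with
  | nil => intro c; simp [sig_nil]
  | cons x l ih =>
    intro c
    simp only [sig_cons, der_smul, smul_comm _ a, ih, smul_ap]; ring

theorem sig_smul {R : Type} [CommRing R] [Algebra R K] (a : R) (c : I → Ser par K) :
    sig (fun y => a • c y) = a • sig c :=
  ext' fun l => by simp only [smulR_eq a]; exact sig_smul' _ l c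

@[simp] theorem sig_zero : sig (fun _ => (0 : Ser par K)) = 0 := by
  simpa using sig_smul (0 : K) (fun _ => (0 : Ser par K))

theorem sig_neg (c : I → Ser par K) : sig (fun y => -c y) = -sig c := by
  simpa using sig_smul (-1 : K) c

theorem sig_sub (c d : I → Ser par K) : sig (fun y => c y - d y) = sig c - sig d := by
  simp only [sub_eq_add_neg, sig_add, sig_neg]

theorem sig_sum {α : Type} (s : Finset α) (c : α → I → Ser par K) :
    sig (fun y => ∑ i ∈ s, c i y) = ∑ i ∈ s, sig (c i) := by
  classical
  induction s using Finset.induction_on with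
  | empty => simp
  | insert a s h ih => simp only [Finset.sum_insert h, sig_add, ih]

theorem tw_sig' (b : Bool) (l : List I) : ∀ c : I → Ser par K,
    tw b (sig c) l = sig (fun y => (sg (b && par y) : K) • tw b (c y)) l := by
  induction l with
  | nil => intro c; simp [tw, sig_nil]
  | cons x l ih =>
    intro c
    have h : tw b (sig c) (x :: l) = der x (tw b (sig c)) l := rfl
    rw [h, der_tw, der_sig, tw_add, sig_cons, smul_ap, add_ap, ih, mul_add, ← sig_smul', smul_ap]
    congr 2
    funext y
    simp only [der_smul, der_tw, tw_smul, smul_smul]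
    congr 1
    ring

theorem tw_sig (b : Bool) (c : I → Ser par K) :
    tw b (sig c) = sig fun y => (sg (b && par y) : K) • tw b (c y) :=
  ext' fun l => tw_sig' b l c

theorem mul_sig' (l : List I) : ∀ (f : Ser par K) (c : I → Ser par K),
    (f * sig c) l = sig (fun y => f * c y) l := by
  induction l with
  | nil => intro f c; simp [mul_nil, sig_nil]
  | cons x l ih =>
    intro f c
    rw [mul_cons, der_sig, mul_add, add_ap, tw_sig, ih, ih, sig_cons, add_assoc, ← sig_add']
    simp only [der_mul, smul_add, mul_smul_comm]

theorem mul_sig (f : Ser par K) (c : I → Ser par K) : f * sig c = sig fun y => f * c y :=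
  ext' fun l => mul_sig' l f c

theorem sig_mul' (l : List I) : ∀ (g : Ser par K) (c : I → Ser par K),
    (sig c * g) l = sig (fun y => c y * tw (par y) g) l := by
  induction l with
  | nil => intro f c; simp [mul_nil, sig_nil]
  | cons x l ih =>
    intro g c
    rw [mul_cons, der_sig, add_mul, add_ap, ih, ih, sig_cons, add_left_comm, ← sig_add']
    congr 2
    funext y
    simp only [der_mul, smul_add, smul_mul_assoc, der_tw, mul_smul_comm, smul_smul, tw_tw,
      Bool.and_comm (par y), sg_mul_self, one_smul, Bool.xor_comm (par y)]

theorem sig_mul (g : Ser par K) (c : I → Ser par K) :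
    sig c * g = sig fun y => c y * tw (par y) g := ext' fun l => sig_mul' l g c

theorem par_sig' (l : List I) : ∀ (b : Bool) (c : I → Ser par K),
    (∀ y, Par (xor b (par y)) (c y)) → sig c l ≠ 0 → parl par l = b := by
  induction l with
  | nil => intro b c _ h; exact (h rfl).elim
  | cons x l ih =>
    intro b c hc h
    rw [sig_cons] at h
    by_cases h0 : c x l = 0
    · rw [h0, zero_add] at h
      have := ih (xor b (par x)) _ (fun y => (((hc y).der x).smul _).cast (by
        cases b <;> cases par x <;> cases par y <;> rfl)) h
      simp only [parl, this]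
      cases b <;> cases par x <;> rfl
    · simp only [parl, hc x l h0]
      cases b <;> cases par x <;> rfl

theorem par_sig {b : Bool} {c : I → Ser par K} (hc : ∀ y, Par (xor b (par y)) (c y)) :
    Par b (sig c) := fun l => par_sig' l b c hc

theorem symm_sig' (l' : List I) (x y : I) (l : List I) : ∀ c : I → Ser par K, (∀ w, Symm (c w)) →
    sig c (l ++ x :: y :: l') = sg (par x && par y) * sig c (l ++ y :: x :: l') := by
  induction l with
  | nil =>
    intro c hc
    simp only [List.nil_append, sig_cons, der_smul, smul_ap, mul_add]
    rw [← sig_smul']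
    have e : (fun w => (sg (par y && par w) : K) • (sg (par x && par w) : K) • der y (der x (c w)))
        = fun w => (sg (par x && par y) : K) • (sg (par x && par w) : K) •
          (sg (par y && par w) : K) • der x (der y (c w)) := by
      funext w
      rw [(hc w).swap x y]
      simp only [smul_smul]
      congr 1
      ring
    rw [e, Bool.and_comm (par y), ← mul_assoc, sg_mul_self, one_mul]
    simp only [der]
    ring
  | cons w l ih =>
    intro c hc
    simp only [List.cons_append, sig_cons]
    rw [hc w, ih _ fun v => ((hc v).der w).smul _, mul_add]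

theorem symm_sig {c : I → Ser par K} (hc : ∀ w, Symm (c w)) : Symm (sig c) :=
  fun l l' x y => symm_sig' l' x y l c hc

/-! ### Vanishing of coefficients of products -/

theorem mul_eq_zero_left (l : List I) : ∀ f g : Ser par K, (∀ l', l'.Sublist l → f l' = 0) →
    (f * g) l = 0 := by
  induction l with
  | nil => intro f g h; rw [mul_nil, h [] (List.Sublist.refl _), zero_mul]
  | cons x l ih =>
    intro f g h
    rw [mul_cons, ih f _ fun l' h' => h l' (h'.cons x),
      ih (der x f) _ fun l' h' => h (x :: l') (h'.cons_cons x), add_zero]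

theorem mul_top (l : List I) : ∀ f g : Ser par K,
    (∀ l', l'.length < l.length → f l' = 0) → (f * g) l = f l * g [] := by
  induction l with
  | nil => intro f g _; rfl
  | cons x l ih =>
    intro f g h
    rw [mul_cons, mul_eq_zero_left l f _ fun l' h' => h l' (Nat.lt_succ_of_le h'.length_le),
      ih (der x f) _ fun l' h' => h (x :: l') (Nat.succ_lt_succ h'), zero_add]
    simp [tw, parl, der]

/-- The constant term. -/
def ev0 : Ser par K →+* K where
  toFun f := f []
  map_one' := rfl
  map_mul' _ _ := rfl
  map_zero' := rfl
  map_add' _ _ := rfl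

end Vale.Agent.P269.Ser
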