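import Vale.Agent.P269.Frob

/-! Consequences of the genus 0 topological recursion relation on the big phase space. -/

noncomputable section

namespace Vale.Agent.P269.Tgt

open Finset Ser Matrix

variable {X : Tgt} {K : Type} [CommRing K] [Algebra ℂ K]

/-- The properties of the potentials that are used in genus 0. -/
structure G0 (F : ℕ → X.S K) : Prop where
  ok : X.Ok
  symm : ∀ g, Symm (F g)
  even : ∀ g, Par false (F g)
  str : ∀ g, z F 0 g = 0
  trr : TRR0 (F 0)

/-- `f` is annihilated by the vector fields `T(v)`. -/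
def Flat (F f : X.S K) : Prop :=
  ∀ m a, der (m + 1, a) f = ∑ c, der (0, c) f * Γ F 0 m c a

theorem Flat.add {F f g : X.S K} (hf : Flat F f) (hg : Flat F g) : Flat F (f + g) :=
  fun m a => by simp only [der_add, hf m a, hg m a, add_mul, sum_add_distrib]

theorem Flat.smul {F f : X.S K} (hf : Flat F f) (c : ℂ) : Flat F (c • f) :=
  fun m a => by simp only [der_smulR, hf m a, smul_mul_assoc, smul_sum]

theorem flat_zero (F : X.S K) : Flat F 0 := fun m a => by simp

theorem flat_sum {α : Type} {F : X.S K} {s : Finset α} {f : α → X.S K}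
    (h : ∀ i ∈ s, Flat F (f i)) : Flat F (∑ i ∈ s, f i) :=
  Finset.sum_induction f (Flat F) (fun _ _ => Flat.add) (flat_zero F) h

theorem jac_flat {F : X.S K} {G : X.ι → X.S K} (h : ∀ c, Flat F (G c)) (m : ℕ) :
    jac (m + 1) G = jac 0 G * Γ F 0 m := by
  ext c a : 2
  exact h c m a

/-- The matrices of second derivatives, with integer indices. -/
def Γz (F : X.S K) (n m : ℤ) : Mat X K := of fun c a => ∑ b, X.η⁻¹ c b • dz m a (dz n b F)

theorem Γz_nat (F : X.S K) (n m : ℕ) : Γz F n m = Γ F n m := by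
  ext c a : 2
  simp only [Γz, of_apply, dz_nat, Γ_apply]

theorem Γz_left (F : X.S K) {n : ℤ} (h : n < 0) (m : ℤ) : Γz F n m = 0 := by
  ext c a : 2
  simp [Γz, dz_neg h]

theorem Γz_right (F : X.S K) (n : ℤ) {m : ℤ} (h : m < 0) : Γz F n m = 0 := by
  ext c a : 2
  simp [Γz, dz_neg h]

theorem Ok.contr (H : X.Ok) {F : X.S K} (hs : Symm F) (he : Par false F) (m : ℕ) (a : X.ι)
    {p : Bool} {g : X.ι → X.S K} (hg : ∀ c, Par (xor p (X.par c)) (g c)) :
    ∑ b, ∑ c, X.η⁻¹ b c • (der (0, b) (der (m, a) F) * g c) =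
      ∑ c, g c * tw p (Γ F 0 m c a) := by
  rw [sum_comm]
  refine sum_congr rfl fun c _ => ?_
  rw [(H.em_Γ he 0 m c a).tw_eq, Γ_apply, mul_smul_comm, mul_sum, smul_sum]
  refine sum_congr rfl fun b _ => ?_
  by_cases h : X.η⁻¹ b c = 0
  · rw [H.inv_sym c b, h]; simp
  · rw [((he.der (m, a)).der (0, b)).comm_sg (hg c), hs.swap (m, a) (0, b), H.inv_sym c b]
    simp only [← sgR_smul (R := ℂ), mul_smul_comm, smul_smul, H.inv_par h]
    congr 1
    cases p <;> cases X.par a <;> cases X.par c <;> simp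

namespace G0

variable {F : ℕ → X.S K} (H : G0 F)
include H

theorem em (n m : ℕ) : EM (Γ (F 0) n m) := H.ok.em_Γ (H.even 0) n m

theorem flat (x y : ℕ × X.ι) : Flat (F 0) (der y (der x (F 0))) := fun m a => by
  have hs := H.symm 0
  rw [(hs.der x).swap y, hs.swap x, der_smul, H.trr, H.ok.contr hs (H.even 0) m a
    (p := xor (X.par x.2) (X.par y.2)) fun c => ((((H.even 0).der (0, c)).der x).der y).cast (by
      cases X.par c <;> cases X.par x.2 <;> cases X.par y.2 <;> rfl), smul_sum, smul_sum]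
  refine sum_congr rfl fun c _ => ?_
  rw [(hs.der x).swap y, hs.swap x, (H.em 0 m c a).tw_eq]
  simp only [der_smul, mul_smul_comm, smul_mul_assoc, smul_smul]
  congr 1
  cases X.par c <;> cases X.par x.2 <;> cases X.par y.2 <;> cases X.par a <;> simp

theorem flat_dz (s t : ℤ) (a b : X.ι) : Flat (F 0) (dz t b (dz s a (F 0))) := by
  unfold dz
  split_ifs
  · exact H.flat _ _
  all_goals exact flat_zero _

theorem flat_pp (n : ℕ) (c : X.ι) (y : ℕ × X.ι) : Flat (F 0) (der y (pp (F 0) n c)) := by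
  simp only [pp, der_sum, der_smulR]
  exact flat_sum fun _ _ => (H.flat _ _).smul _

theorem flat_lp : Flat (F 0) (lp (F 0)) :=
  flat_sum fun _ _ => flat_sum fun _ _ => (H.flat _ _).smul _

theorem T1 (n m : ℕ) (y : ℕ × X.ι) : (Γ (F 0) n (m + 1)).map (der y) =
    (Γ (F 0) n 0).map (der y) * (Γ (F 0) 0 m).map (tw (X.par y.2)) := by
  ext c a : 2
  have hs := symm_pp (H.symm 0) n c
  simp only [Matrix.mul_apply, map_apply]
  rw [Γ, jac_apply, hs.swap, H.flat_pp, smul_sum]
  refine sum_congr rfl fun e _ => ?_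
  rw [(H.em 0 m e a).tw_eq, Γ, Γ, jac_apply _ (pp (F 0) n), hs.swap (0, e) y]
  simp only [mul_smul_comm, smul_mul_assoc, smul_smul]
  congr 1
  cases X.par e <;> cases X.par y.2 <;> cases X.par a <;> simp

theorem T2 (n m : ℕ) (y : ℕ × X.ι) : (Γ (F 0) (n + 1) m).map (der y) =
    Γ (F 0) n 0 * (Γ (F 0) 0 m).map (der y) := by
  ext c a : 2
  simp only [Matrix.mul_apply, map_apply, Γ_apply, der_sum, der_smulR, H.trr n, smul_sum, sum_mul,
    mul_sum, smul_mul_assoc, mul_smul_comm]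
  rw [sum_comm]
  refine sum_congr rfl fun e _ => ?_
  rw [sum_comm]
  exact sum_congr rfl fun _ _ => sum_congr rfl fun _ _ => smul_comm _ _ _

theorem vT1 {δ : X.S K → X.S K} (h : VT δ) (n m : ℕ) :
    (Γ (F 0) n (m + 1)).map δ = (Γ (F 0) n 0).map δ * Γ (F 0) 0 m := by
  simpa using h.mat_key (A := 1) (Y := Γ (F 0) n (m + 1)) (B := 1) (A' := 1)
    (Y' := Γ (F 0) n 0) (B' := Γ (F 0) 0 m) fun y => by
      simp only [map_tw_one, mul_one, one_mul, H.T1]

theorem vT2 {δ : X.S K → X.S K} (h : VT δ) (n m : ℕ) :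
    (Γ (F 0) (n + 1) m).map δ = Γ (F 0) n 0 * (Γ (F 0) 0 m).map δ := by
  simpa using h.mat_key (A := 1) (Y := Γ (F 0) (n + 1) m) (B := 1) (A' := Γ (F 0) n 0)
    (Y' := Γ (F 0) 0 m) (B' := 1) fun y => by simp only [map_tw_one, mul_one, one_mul, H.T2]

theorem LL0_Γz (n m : ℤ) : (Γz (F 0) n m).map (LL 0) =
    -Γz (F 0) (n - 1) m - Γz (F 0) n (m - 1) - if n = 0 ∧ m = 0 then 1 else 0 := by
  ext c a : 2
  have e : (if n = 0 ∧ m = 0 then 1 else 0 : Mat X K) c a =
      ∑ b, X.η⁻¹ c b • dz m a (if n = 0 then tau X.η b else 0 : X.S K) := by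
    by_cases hn : n = 0
    · by_cases hm : m = 0
      · simp only [hn, hm, and_self, if_true, dz_tau, smul_smul, ← sum_smul, ← Matrix.mul_apply,
          H.ok.inv_mul]
        rw [← cm_apply, _root_.map_one]
      · simp [hn, hm, dz_tau]
    · simp [hn]
  simp only [Matrix.sub_apply, e, Matrix.neg_apply, Γz, map_apply, of_apply, LL_sum, LL_smulC,
    H.ok.LL0_dz (symm_dz (H.symm 0) _ _), H.ok.LL0_dz_F H.symm H.str, dz_sub, dz_neg', smul_sub,
    smul_neg, sum_sub_distrib, sum_neg_distrib, true_and]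
  abel

theorem F1 (n m : ℕ) : Γ (F 0) n (m + 1) + Γ (F 0) (n + 1) m = Γ (F 0) n 0 * Γ (F 0) 0 m := by
  have e1 := H.LL0_Γz (n + 1 : ℕ) (m + 1 : ℕ)
  have e2 := H.LL0_Γz (0 : ℕ) (m + 1 : ℕ)
  rw [if_neg (by omega), Γz_nat, H.vT2 (H.ok.vt_LL 0)] at e1
  rw [if_neg (by omega), Γz_nat, Γz_left _ (by omega)] at e2
  simp only [Nat.cast_add_one, add_sub_cancel_right, Γz_nat] at e1 e2
  simp only [← Nat.cast_add_one, Γz_nat] at e1
  rw [e2] at e1
  rw [← neg_inj, neg_add, ← sub_eq_add_neg, ← sub_zero (_ - _), ← e1]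
  simp

theorem wd : WD (F 0) where
  ok := H.ok
  symm := H.symm 0
  even := H.even 0
  wdvv x y := by
    ext c a : 2
    have e : ∀ x y : ℕ × X.ι, der x (der y (Γ (F 0) 0 1 c a)) =
        ∑ e, (der y (Γ (F 0) 0 0 c e) * der x (tw (X.par y.2) (Γ (F 0) 0 0 e a)) +
          der x (der y (Γ (F 0) 0 0 c e)) * tw (X.par x.2) (tw (X.par y.2) (Γ (F 0) 0 0 e a))) := by
      intro x y
      have := congrArg (der x) (congrFun (congrFun (H.T1 0 0 y) c) a)
      simpa only [Matrix.mul_apply, map_apply, der_sum, der_mul] using this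
    have e1 := (symm_Γ (H.symm 0) 0 1 c a).swap y x
    rw [e, e, smul_sum] at e1
    simp only [smul_add, sum_add_distrib, (symm_Γ (H.symm 0) 0 0 c _).swap y x, tw_tw,
      smul_mul_assoc, Bool.xor_comm (X.par y.2), add_left_inj] at e1
    have e2 := congrArg (fun u => (sg (X.par y.2 && X.par x.2) : K) • u) e1
    simp only [smul_sum, smul_smul, sg_mul_self, one_smul] at e2
    simp only [Matrix.mul_apply, map_apply, ← e2]
    refine sum_congr rfl fun e _ => ?_
    rw [der_tw, mul_smul_comm, smul_smul, sg_mul_self, one_smul]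

end G0

end Vale.Agent.P269.Tgt
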