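import Vale.Agent.P269.Orig

/-! The relation of the small quantum cohomology ring and the genus 1 constraints. -/

noncomputable section

namespace Vale.Agent.P269.CI

open Finset Ser Matrix PowerSeries Tgt

variable {Y : CI} {F : ℕ → Y.tgt.S ℂ⟦X⟧}

theorem U0_prim (hr : 2 ≤ Y.r) (hD : Dim Y.r F) (hP : Y.PrimEven (F 0)) (a : Y.tgt.ι) (b : Y.P) :
    U0 F a (Sum.inr b) = 0 := by
  rcases a with a | a
  · exact U0_right hP (by simp)
  · refine PowerSeries.ext fun d => ?_
    by_contra h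
    have h1 := U0_deg hD h
    have h2 := Y.hp_le a
    have h3 := Y.hp_le b
    simp only [Sum.elim_inr] at h1
    have h4 : Y.r * d = 1 := by omega
    have := Int.eq_one_of_mul_eq_one_right (by omega) h4
    omega

theorem mat_ext' (hr : 0 < Y.r) (hD : Dim Y.r F) (hP : Y.PrimEven (F 0))
    {B : Matrix Y.tgt.ι Y.tgt.ι ℂ⟦X⟧} (h1 : ∀ k, (B * U0 F ^ k) *ᵥ Pi.single Y.tgt.one 1 = 0)
    (h2 : ∀ a b, B a (Sum.inr b) = 0) : B = 0 := by
  let N : Submodule ℂ⟦X⟧ (Y.tgt.ι → ℂ⟦X⟧) :=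
    { carrier := {x | ∀ k, (B * U0 F ^ k) *ᵥ x = 0}
      add_mem' := fun hx hy k => by rw [mulVec_add, hx, hy, add_zero]
      zero_mem' := fun _ => mulVec_zero _
      smul_mem' := fun u x hx k => by rw [mulVec_smul, hx, smul_zero] }
  refine Matrix.ext fun a b => ?_
  rcases b with b | b
  · have := cyc hr hD hP N h1 (fun x hx k => by
      rw [mulVec_mulVec, mul_assoc, ← pow_succ]; exact hx _) b 0
    rw [pow_zero, mul_one, mulVec_single_one] at this
    exact congrFun this a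
  · exact h2 a b

theorem pow_right (hP : Y.PrimEven (F 0)) (k : ℕ) (a : Y.P) (i : Fin (Y.D + 1)) :
    (U0 F ^ k) (Sum.inr a) (Sum.inl i) = 0 := by
  induction k generalizing i with
  | zero => simp
  | succ k ih =>
    rw [pow_succ]
    refine sum_eq_zero fun c _ => ?_
    rcases c with c | c
    · exact mul_eq_zero_of_left (ih c) _
    · exact mul_eq_zero_of_right _ (U0_right hP (by simp))

theorem one_jet (H : G1 F) (hr : 2 ≤ Y.r) (hr' : Y.r + 1 ≤ Y.D) (hD : Dim Y.r F)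
    (hP : Y.PrimEven (F 0)) (hR : Y.Rel (F 0))
    (h : ∀ k : ℕ, 1 ≤ k → Y.r ∣ k → k + Y.r + 1 ≤ Y.D → z F (k + 1) 1 [] = 0)
    (i : Fin (Y.D + 1)) : z F 2 1 [(0, Sum.inl i)] = 0 := by
  obtain ⟨m, hm⟩ : ∃ m, Y.D + 1 - Y.r.toNat = m + 2 := ⟨Y.D - 1 - Y.r.toNat, by omega⟩
  obtain ⟨n, hn⟩ : ∃ n, Y.D + 1 = n + 2 := ⟨Y.D - 1, by omega⟩
  rw [Rel, ← show U0 F = Y.qc (F 0) from Matrix.ext (U0_qc H), hm,
    show U0 F ^ (Y.D + 1) = U0 F ^ (n + 2) from congrArg _ hn, ← smul_assoc] at hR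
  have e1 := lam_zero H (pr := fun b => b.isRight) (fun B h1 h2 =>
    mat_ext' (by omega) hD hP h1 fun a b => h2 a _ rfl) (by
      rintro a (b | b) hb
      · simp at hb
      · exact U0_prim hr hD hP a b) hR (smul_ne_zero (mul_ne_zero (pow_ne_zero _ (by
    exact_mod_cast (show Y.r ≠ 0 by omega))) (prod_ne_zero_iff.mpr fun j _ => pow_ne_zero _ (by
      exact_mod_cast (Y.e_pos j).ne'))) X_ne_zero) (by omega)
  have e2 : ∀ k, ∑ a, z F 2 1 [(0, a)] * (U0 F ^ k) a Y.tgt.one = 0 := by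
    intro k
    by_cases hk : m + 1 ≤ k
    · obtain ⟨j, rfl⟩ := Nat.exists_eq_add_of_le hk
      exact e1 j
    · refine smul_cancel (c := ((k + 1 : ℕ) : ℂ) / 2) (div_ne_zero (Nat.cast_ne_zero.mpr
        (by omega)) two_ne_zero) ?_
      rw [Nat.cast_add_one, ← z_nil' H]
      refine PowerSeries.ext fun d => ?_
      by_contra h0
      have h1 := congrArg Prod.fst (Y.ok.hm_z hD (k + 1) 1 d [] h0)
      simp only [List.map_nil, List.sum_nil, Prod.fst_zero, Prod.smul_mk, Prod.mk_add_mk,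
        nsmul_eq_mul] at h1
      push_cast at h1
      rcases Nat.eq_zero_or_pos k with rfl | hk
      · rw [H.l1] at h0
        exact h0 rfl
      · rw [h k hk ⟨d, by linarith⟩ (by omega)] at h0
        exact h0 rfl
  have e3 : (of fun _ b => if b.isRight then 0 else z F 2 1 [(0, b)] :
      Matrix Y.tgt.ι Y.tgt.ι ℂ⟦X⟧) = 0 :=
    mat_ext' (by omega) hD hP (fun k => funext fun a => by
      rw [mulVec_single_one]
      refine Eq.trans (sum_congr rfl fun b _ => ?_) (e2 k)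
      rcases b with b | b
      · rfl
      · exact (zero_mul _).trans (mul_eq_zero_of_right _ (pow_right hP k b 0)).symm)
      fun _ _ => rfl
  exact congrFun (congrFun e3 Y.tgt.one) (Sum.inl i)

theorem hom_z {X : Tgt} {G : Type} [AddCommGroup G] {w : X.ι → G} {F : ℕ → X.S (PowerSeries ℂ)}
    (h1 : ∀ a b, X.η⁻¹ a b ≠ 0 → w a + w b = 0) (h2 : ∀ a b, X.R b a ≠ 0 → w b = w a)
    (h3 : w X.one = 0) (hF : ∀ g ≤ 1, Hom (fun x : ℕ × X.ι => w x.2) 0 0 (F g)) (n : ℕ) :
    Hom (fun x : ℕ × X.ι => w x.2) 0 0 (z F n 1) := by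
  have e1 : ∀ (i : ℕ) a b, (X.R ^ i) b a ≠ 0 → w b = w a := by
    intro i
    induction i with
    | zero =>
      intro a b h
      by_cases e : b = a
      · rw [e]
      · simp [one_apply_ne e] at h
    | succ i ih =>
      intro a b h
      rw [pow_succ', Matrix.mul_apply] at h
      obtain ⟨c, -, hc⟩ := exists_ne_zero_of_sum_ne_zero h
      rw [h2 c b (left_ne_zero_of_mul hc), ih a c (right_ne_zero_of_mul hc)]
  have e2 : ∀ {c : G} {f : X.S (PowerSeries ℂ)}, Hom (fun x : ℕ × X.ι => w x.2) 0 c f →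
      ∀ j a, Hom (fun x : ℕ × X.ι => w x.2) 0 (c - w a) (dz j a f) := fun hf j a => by
    unfold dz
    split_ifs
    · exact hf.der _
    · exact hom_zero _
  have e3 : ∀ j a, Hom (fun x : ℕ × X.ι => w x.2) 0 (0 - w a) (Lz n j a (F 1)) := fun j a =>
    hom_sum fun i _ => hom_sum fun b _ => Hom.smul _ fun h => (e2 (hF 1 le_rfl) _ b).cast (by
      rw [M_apply] at h
      rw [e1 i a b (right_ne_zero_of_mul h)])
  rw [z_eq, if_neg one_ne_zero, add_zero]
  refine Hom.add (Hom.add (Hom.sub (hom_sig fun y => e3 _ _) ((e3 _ _).cast (by simp [h3])))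
    (Hom.smul _ fun _ => hom_sum fun i _ => hom_sum fun s _ => hom_sum fun a _ =>
      hom_sum fun b _ => Hom.smul _ fun h => ?_)) ?_
  · have e4 : w a + w b = 0 := by
      obtain ⟨c, -, hc⟩ := exists_ne_zero_of_sum_ne_zero (right_ne_zero_of_mul h)
      rw [e1 i c b (right_ne_zero_of_mul hc),
        h1 a c (left_ne_zero_of_mul (left_ne_zero_of_mul hc))]
    refine Hom.add ?_ (hom_sum fun u hu => ?_)
    · rw [if_neg one_ne_zero]
      exact (e2 (e2 (hF 0 zero_le_one) _ a) _ b).cast (by rw [sub_sub, e4, sub_zero])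
    · have := mem_antidiagonal.mp hu
      exact ((e2 (hF _ (by omega)) _ a).mul (e2 (hF _ (by omega)) _ b)).cast (by
        rw [zero_sub, zero_sub, ← neg_add, e4, neg_zero])
  · split_ifs
    · exact Hom.smul _ fun _ => hom_one
    · exact hom_zero _

theorem sum_right (l : List (ℕ × Y.tgt.ι)) :
    (l.map fun x => if x.2.isRight then (1 : ZMod 2) else 0).sum =
      (l.countP fun x => x.2.isRight : ℕ) := by
  induction l with
  | nil => simp
  | cons x l ih =>
    rw [List.map_cons, List.sum_cons, ih, List.countP_cons]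
    split_ifs <;> simp [add_comm]

theorem primEven_z (h0 : Y.PrimEven (F 0)) (h1 : Y.PrimEven (F 1)) (n : ℕ) :
    Y.PrimEven (z F n 1) := by
  have := hom_z (X := Y.tgt) (w := fun a => if a.isRight then (1 : ZMod 2) else 0) (F := F)
    (fun a b h => by rw [inv_right h]; split_ifs <;> decide) (by
      rintro (a | a) (b | b) h
      · rfl
      all_goals exact (h rfl).elim) rfl (fun g hg d l h => by
      rw [sum_right, smul_zero, add_zero, ZMod.natCast_eq_zero_iff_even, ← Nat.not_odd_iff_even]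
      intro ho
      interval_cases g
      · exact h (by rw [h0 l ho, map_zero])
      · exact h (by rw [h1 l ho, map_zero])) n
  intro l hl
  refine PowerSeries.ext fun d => ?_
  by_contra h
  have e := this d l h
  rw [sum_right, smul_zero, add_zero, ZMod.natCast_eq_zero_iff_even, ← Nat.not_odd_iff_even] at e
  exact e hl

theorem prim_jet (hD : Dim Y.r F) (h0 : Y.PrimEven (F 0)) (h1 : Y.PrimEven (F 1))
    (l : List Y.P) (h : z F 2 1 (l.map fun a => (0, Sum.inr a)) ≠ 0) :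
    ∃ k : ℕ, l.length = 2 * k ∧ Y.r ∣ k * (Y.D - 2) + 1 := by
  obtain ⟨k, hk⟩ : Even l.length := by
    rw [← Nat.not_odd_iff_even]
    intro ho
    exact h (primEven_z h0 h1 2 _ (by simpa [List.countP_map, Function.comp_def] using ho))
  obtain ⟨d, hd⟩ : ∃ d, coeff d (z F 2 1 (l.map fun a => (0, Sum.inr a))) ≠ 0 := by
    by_contra h2
    exact h (PowerSeries.ext fun d => by simpa using not_exists.mp h2 d)
  have e := Y.ok.hm_z hD 2 1 d _ hd
  have e1 : ∀ l : List Y.P, ((l.map fun a => (0, Sum.inr a)).map Y.tgt.wt).sum.1 +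
      ((l.map fun a => (0, Sum.inr a)).map Y.tgt.wt).sum.2 = l.length * (Y.D - 2 : ℤ) := by
    intro l
    induction l with
    | nil => simp
    | cons a l ih =>
      have := Y.hp_le a
      simp only [List.map_cons, List.sum_cons, Prod.fst_add, Prod.snd_add, wt, Sum.elim_inr,
        List.length_cons] at ih ⊢
      push_cast [this]
      linear_combination ih
  have e2 := e1 l
  rw [e, hk] at e2
  simp only [Prod.smul_mk, Prod.mk_add_mk, nsmul_eq_mul] at e2
  push_cast at e2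
  exact ⟨k, by omega, d, by linarith⟩

theorem vir_one' (H : G1 F) (hr : 2 ≤ Y.r) (hr' : Y.r + 1 ≤ Y.D) (hD : Dim Y.r F)
    (h0 : Y.PrimEven (F 0)) (h1 : Y.PrimEven (F 1)) (hR : Y.Rel (F 0))
    (h : ∀ k : ℕ, 1 ≤ k → Y.r ∣ k → k + Y.r + 1 ≤ Y.D → z F (k + 1) 1 [] = 0)
    (h' : ∀ (k : ℕ) (l : List Y.P), l.length = 2 * k → Y.r ∣ k * (Y.D - 2) + 1 →
      z F 2 1 (l.map fun a => (0, Sum.inr a)) = 0) (n : ℕ) : z F n 1 = 0 :=
  vir_one H (by omega) hD h0 (one_jet H hr hr' hD h0 hR h) (fun l => by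
    by_contra h2
    obtain ⟨k, hk, hk'⟩ := prim_jet hD h0 h1 l h2
    exact h2 (h' k l hk hk')) n

theorem vir_one'' (H : G1 F) (hr : 2 ≤ Y.r) (hr' : Y.r + 1 ≤ Y.D) (h2 : Y.D ≤ 2 * Y.r)
    (hg : ¬IsCoprime Y.r (Y.D - 2)) (hD : Dim Y.r F) (h0 : Y.PrimEven (F 0))
    (h1 : Y.PrimEven (F 1)) (hR : Y.Rel (F 0)) (n : ℕ) : z F n 1 = 0 :=
  vir_one' H hr hr' hD h0 h1 hR (fun k hk h3 h4 => by
    have := Int.le_of_dvd (by omega) h3
    omega) (fun k _ _ ⟨d, hd⟩ => (hg ⟨d, -k, by linear_combination -hd⟩).elim) n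

end Vale.Agent.P269.CI
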