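import Vale.Agent.P269.Stmt
import Vale.Agent.P269.RelB

/-!
The definitions of the statements agree with the ones used in the proofs.
-/

noncomputable section

namespace Vale.Agent.P269.GW

open Finset Matrix
open scoped PowerSeries

variable {T : Tgt}

/-- The same series, in the ring of series. -/
def S (f : A T) : T.S ℂ⟦X⟧ := f

theorem odd_eq (l : List (ℕ × T.ι)) : odd l = Ser.parl (fun x : ℕ × T.ι => T.par x.2) l := by
  induction l with
  | nil => rfl
  | cons x l ih => rw [Ser.parl, ← ih]; rfl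

theorem tw_eq (b : Bool) (f : A T) : S (tw b f) = Ser.tw b (S f) :=
  Ser.ext' fun l => by simp only [S, tw, Ser.tw, odd_eq]; rfl

theorem der_eq (x : ℕ × T.ι) (f : A T) : S (der x f) = Ser.der x (S f) := rfl

theorem mul_ap (l : List (ℕ × T.ι)) : ∀ f g : A T, mul f g l = (S f * S g) l := by
  induction l with
  | nil => intro f g; rfl
  | cons x l ih =>
    intro f g
    rw [Ser.mul_cons, ← der_eq, ← der_eq, ← tw_eq, ← ih, ← ih]
    rfl

theorem var_eq (x : ℕ × T.ι) : S (var x) = Ser.var x := rfl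

theorem dz_eq (j : ℤ) (a : T.ι) (f : A T) : S (dz j a f) = Tgt.dz j a (S f) :=
  Ser.ext' fun l => by
    unfold Tgt.dz
    simp only [S, dz]
    split_ifs <;> rfl

theorem dz_ap (j : ℤ) (a : T.ι) (f : A T) (l) : dz j a f l = Tgt.dz j a (S f) l :=
  congrFun (dz_eq j a f) l

theorem Lx_eq (n : ℕ) (x : ℕ × T.ι) (f : A T) : S (Lx n x f) = Tgt.Lx n x (S f) :=
  Ser.ext' fun l => by
    simp only [Tgt.Lx, Ser.sum_ap, Ser.smulR_ap, ← dz_ap]
    rfl

theorem Lx_ap (n : ℕ) (x : ℕ × T.ι) (f : A T) (l) : Lx n x f l = Tgt.Lx n x (S f) l :=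
  congrFun (Lx_eq n x f) l

theorem sig_fin (l : List (ℕ × T.ι)) : ∀ (c : ℕ × T.ι → T.S ℂ⟦X⟧) (s : Finset (ℕ × T.ι)),
    (∀ x ∈ l, x ∈ s) → ∑ x ∈ s, (c x * Ser.var x : T.S ℂ⟦X⟧) l = Ser.sig c l := by
  induction l with
  | nil => intro c s _; simp only [Ser.mul_nil, Ser.var_nil, mul_zero, sum_const_zero, Ser.sig_nil]
  | cons y l ih =>
    intro c s hs
    rw [Ser.sig_cons, ← ih _ s fun x hx => hs x (List.mem_cons_of_mem _ hx)]
    simp only [Ser.mul_cons, sum_add_distrib]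
    congr 1
    · rw [sum_eq_single y (fun x _ hx => by
        rw [Ser.der_var, if_neg (Ne.symm hx), mul_zero]; rfl)
        (fun h => (h (hs y List.mem_cons_self)).elim), Ser.der_var, if_pos rfl, mul_one]
    · refine sum_congr rfl fun x _ => ?_
      rw [(Ser.par_var x).tw_eq, Ser.mul_smul', Ser.smul_mul']

theorem sig_eq (c : ℕ × T.ι → T.S ℂ⟦X⟧) (l : List (ℕ × T.ι)) :
    ∑ᶠ x, (c x * Ser.var x : T.S ℂ⟦X⟧) l = Ser.sig c l := by
  rw [← sig_fin l c l.toFinset fun x hx => List.mem_toFinset.mpr hx]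
  refine finsum_eq_sum_of_support_subset _ fun x hx => ?_
  by_contra h
  refine hx ?_
  have := Ser.mul_var_not_mem x l (c x) 1 (by simpa using h)
  simpa using this

theorem dd_ap (F : ℕ → A T) (g : ℕ) (s : ℤ) (a : T.ι) (j : ℤ) (b : T.ι) (l) :
    dd F g s a j b l = ((if g = 0 then 0 else Tgt.dz j b (Tgt.dz s a (S (F (g - 1))))) +
      ∑ h ∈ antidiagonal g, Tgt.dz s a (S (F h.1)) * Tgt.dz j b (S (F h.2))) l := by
  simp only [dd, Ser.add_ap, Ser.sum_ap, mul_ap, dz_eq, dz_ap]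
  congr 1
  split_ifs <;> rfl

theorem z_ap (F : ℕ → A T) (n g : ℕ) (l) : z F n g l = Tgt.z (fun g => S (F g)) n g l := by
  unfold Tgt.z z
  simp only [Ser.add_ap, Ser.sub_ap, Ser.smulR_ap, Ser.sum_ap, mul_ap, var_eq, Lx_eq, sig_eq,
    dd_ap, Lx_ap]
  congr 1
  · congr 1
    split_ifs
    · simp only [Ser.smulR_ap, Ser.sum_ap, Matrix.mul_apply, transpose_apply, sum_smul, Rp]
    · rfl
  · by_cases h : g = 1 ∧ n = 1
    · rw [if_pos h]
      cases l with
      | nil => rw [if_pos ⟨h.1, h.2, rfl⟩]; rfl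
      | cons x l => rw [if_neg (by simp)]; exact (smul_zero T.ρ : T.ρ • (0 : ℂ⟦X⟧) = 0).symm
    · rw [if_neg h, if_neg fun h' => h ⟨h'.1, h'.2.1⟩]
      rfl

theorem vir_iff {F : ℕ → A T} {n g : ℕ} : Vir F n g ↔ Tgt.z (fun g => S (F g)) n g = 0 :=
  ⟨fun h => Ser.ext' fun l => (z_ap F n g l).symm.trans (h l), fun h l => by rw [z_ap, h]; rfl⟩

theorem Symm.br {f : A T} (h : Symm f) : Ser.Symm (S f) := h

theorem Dil.br {f : A T} (h : Dil f) (l) :
    S f ((1, T.one) :: l) = ((l.length : ℂ⟦X⟧) - 2) * S f l := by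
  have := h l
  rw [Algebra.smul_def, map_sub, map_natCast, map_ofNat] at this
  exact this

theorem TRR0.br {f : A T} (h : TRR0 f) : Tgt.TRR0 (S f) := fun m a x y => Ser.ext' fun l => by
  simp only [Ser.sum_ap, Ser.smulR_ap, ← der_eq, ← mul_ap]
  exact h m a x y l

theorem TRR1.br {f g : A T} (h : TRR1 f g) : Tgt.TRR1 (S f) (S g) := fun m a => Ser.ext' fun l => by
  simp only [Ser.sum_ap, Ser.smulR_ap, Ser.add_ap, ← der_eq, ← mul_ap]
  exact h m a l

theorem cor_eq (vs : List (T.ι → A T)) : ∀ f : A T,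
    S (cor f vs) = Tgt.cor (S f) (vs.map fun v a => S (v a)) := by
  induction vs with
  | nil => intro f; rfl
  | cons v vs ih =>
    intro f
    refine Ser.ext' fun l => ?_
    simp only [List.map_cons, Tgt.cor, Ser.sum_ap, ← der_eq, ← ih, ← mul_ap]
    rfl

theorem cor_ap (vs : List (T.ι → A T)) (f : A T) (l) :
    cor f vs l = Tgt.cor (S f) (vs.map fun v a => S (v a)) l := congrFun (cor_eq vs f) l

theorem con_eq (G : A T) (vs : List (T.ι → A T)) :
    (fun a => S (con G vs a)) = Tgt.con (S G) (vs.map fun v a => S (v a)) :=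
  funext fun a => Ser.ext' fun l => by
    simp only [Tgt.con, Ser.sum_ap, Ser.smulR_ap, ← der_eq, ← cor_ap]
    rfl

theorem lp_eq (G : A T) : S (lp G) = Tgt.lp (S G) := Ser.ext' fun l => by
  simp only [Tgt.lp, Ser.sum_ap, Ser.smulR_ap]
  rfl

theorem getz_ap (G₀ G₁ : A T) (v₁ v₂ v₃ v₄ : T.ι → A T) (l) : getz G₀ G₁ v₁ v₂ v₃ v₄ l =
    Tgt.getz (S G₀) (S G₁) (fun a => S (v₁ a)) (fun a => S (v₂ a)) (fun a => S (v₃ a))
      (fun a => S (v₄ a)) l := by
  unfold getz Tgt.getz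
  simp only [Ser.add_ap, Ser.sub_ap, Ser.smulR_ap, Ser.sum_ap, mul_ap, cor_eq, cor_ap, List.map_cons,
    List.map_nil, con_eq, lp_eq, der_eq]
  simp only [Algebra.smul_def, map_ofNat]
  rfl

theorem Getzler.br {f g : A T} (h : Getzler f g) : Tgt.Getzler (S f) (S g) := fun v hv =>
  Ser.ext' fun l => by
    rw [Ser.sum_ap]
    refine Eq.trans (sum_congr rfl fun σ _ => ?_)
      (h v (fun i a l hl => (odd_eq l).trans (hv i a l hl)) l)
    exact (getz_ap (res f) (res g) (v (σ 0)) (v (σ 1)) (v (σ 2)) (v (σ 3)) l).symm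

theorem Dim.br {r : ℤ} {F : ℕ → A T} (h : Dim r F) : Tgt.Dim r fun g => S (F g) := h

variable {Y : CI}

theorem PrimEven.br {f : A Y.tgt} (h : PrimEven Y f) : Y.PrimEven (S f) := h

theorem Rel.br {f : A Y.tgt} (h : Rel Y f) : Y.Rel (S f) := funext fun a => h a

theorem Base.g0 {F : ℕ → A Y.tgt} (H : Base Y F) : Tgt.G0 fun g => S (F g) :=
  ⟨Y.ok, fun g => (H.symm g).br, fun g => (H.dim.br.hm g).even, fun g => vir_iff.mp (H.str g),
    H.trr0.br⟩

theorem Base.g1 {F : ℕ → A Y.tgt} (H : Base Y F) (t1 : TRR1 (F 0) (F 1))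
    (hg : Getzler (F 0) (F 1)) : Tgt.G1 fun g => S (F g) :=
  ⟨H.g0, H.dil.br, vir_iff.mp (H.l0 0), vir_iff.mp (H.l0 1), t1.br, hg.br⟩

end Vale.Agent.P269.GW
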