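import Vale.Agent.P269.Deg

/-! The cohomological data of a complete intersection have the required properties. -/

noncomputable section

namespace Vale.Agent.P269.CI

open Finset Ser Matrix PowerSeries Tgt

variable (Y : CI)

theorem par_inl (i : Fin (Y.D + 1)) : Y.tgt.par (Sum.inl i) = false := by
  change decide (Odd (i.1 + i.1)) = false
  rw [decide_eq_false_iff_not, Nat.not_odd_iff_even]
  exact ⟨_, rfl⟩

theorem par_inr (a : Y.P) : Y.tgt.par (Sum.inr a) = decide (Odd Y.D) := by
  have := Y.hp_le a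
  simp only [Tgt.par, Sum.elim_inr]
  congr 2
  omega

theorem deg_ne : (∏ j, (Y.e j : ℂ)) ≠ 0 :=
  prod_ne_zero_iff.mpr fun j _ => by exact_mod_cast (Y.e_pos j).ne'

theorem ok : Y.tgt.Ok where
  det := by
    have h : (of fun i j : Fin (Y.D + 1) => if i.1 + j.1 = Y.D then ∏ j, (Y.e j : ℂ) else 0) *
        (of fun i j : Fin (Y.D + 1) => if i.1 + j.1 = Y.D then (∏ j, (Y.e j : ℂ))⁻¹ else 0) =
        1 := by
      ext i k
      rw [Matrix.mul_apply, sum_eq_single (Fin.rev i) (fun j _ hj => by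
        rw [of_apply, if_neg, zero_mul]
        intro h
        exact hj (Fin.ext (by rw [Fin.val_rev]; omega))) (by simp)]
      have := i.2
      simp only [of_apply, Fin.val_rev, one_apply, Fin.ext_iff]
      rw [if_pos (by omega)]
      split_ifs with h1 h2 h2
      · exact mul_inv_cancel₀ Y.deg_ne
      · omega
      · omega
      · exact mul_zero _
    have e := det_fromBlocks_zero₂₁ (of fun i j : Fin (Y.D + 1) =>
      if i.1 + j.1 = Y.D then ∏ j, (Y.e j : ℂ) else 0) 0 Y.ηP
    have u := (Matrix.isUnit_det_of_right_inverse h).mul (Ne.isUnit Y.det_ne)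
    rw [← e] at u
    exact u
  deg := by
    rintro (a | a) (b | b) h
    · have : a.1 + b.1 = Y.D := by
        by_contra h0
        exact h (if_neg h0)
      exact ⟨this, this⟩
    · exact (h rfl).elim
    · exact (h rfl).elim
    · have := Y.deg a b h
      exact ⟨this, by change Y.D - Y.hp a + (Y.D - Y.hp b) = Y.D; omega⟩
  sym := by
    rintro (a | a) (b | b)
    · rw [par_inl, sg_false, one_mul]
      simp [add_comm]
    · exact (mul_zero _).symm
    · exact (mul_zero _).symm
    · rw [par_inr]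
      change Y.ηP a b = _ * Y.ηP b a
      rw [Y.sym a b]
      congr 1
      by_cases h : Odd Y.D
      · simp [h, h.neg_one_pow]
      · simp [h, (Nat.not_odd_iff_even.mp h).neg_one_pow]
  Rdeg := by
    rintro (a | a) (b | b) h
    · have : b.1 = a.1 + 1 := by
        by_contra h0
        exact h (if_neg h0)
      exact ⟨this, this⟩
    all_goals exact (h rfl).elim
  Radj := by
    change (fromBlocks (of fun j i : Fin (Y.D + 1) => if j.1 = i.1 + 1 then (Y.r : ℂ) else 0)
      0 0 (0 : Matrix Y.P Y.P ℂ))ᵀ * fromBlocks (of fun i j : Fin (Y.D + 1) =>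
        if i.1 + j.1 = Y.D then ∏ j, (Y.e j : ℂ) else 0) 0 0 Y.ηP =
      fromBlocks (of fun i j : Fin (Y.D + 1) =>
        if i.1 + j.1 = Y.D then ∏ j, (Y.e j : ℂ) else 0) 0 0 Y.ηP *
      fromBlocks (of fun j i : Fin (Y.D + 1) => if j.1 = i.1 + 1 then (Y.r : ℂ) else 0)
      0 0 (0 : Matrix Y.P Y.P ℂ)
    simp only [fromBlocks_transpose, fromBlocks_multiply, transpose_zero, Matrix.mul_zero,
      Matrix.zero_mul, add_zero]
    congr 1
    ext i k
    simp only [Matrix.mul_apply, transpose_apply, of_apply, ite_mul, mul_ite, zero_mul, mul_zero]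
    by_cases h : i.1 + k.1 + 1 = Y.D
    · rw [sum_eq_single ⟨i + 1, by omega⟩ (fun j _ hj => by
        have : ¬j.1 = i + 1 := fun e => hj (Fin.ext e)
        simp [this]) (by simp), sum_eq_single ⟨k + 1, by omega⟩ (fun j _ hj => by
        have : ¬j.1 = k + 1 := fun e => hj (Fin.ext e)
        simp [this]) (by simp)]
      simp only [if_true]
      rw [if_pos (by omega), if_pos (by omega), mul_comm]
    · rw [sum_eq_zero fun j _ => by split_ifs <;> first | rfl | omega,
        sum_eq_zero fun j _ => by split_ifs <;> first | rfl | omega]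
  one_p := rfl
  one_q := rfl

theorem two_le (hD : 2 ≤ Y.D) : ∀ a, a ≠ Y.tgt.one → 2 ≤ Y.tgt.p a + Y.tgt.q a := by
  rintro (a | a) h
  · have : a.1 ≠ 0 := fun e => h (congrArg Sum.inl (Fin.ext e))
    change 2 ≤ a.1 + a.1
    omega
  · have := Y.hp_le a
    change 2 ≤ Y.hp a + (Y.D - Y.hp a)
    omega

theorem finite_many (hD : 2 ≤ Y.D) (F : ℕ → Y.tgt.S ℂ⟦X⟧) (hs : ∀ g, Symm (F g))
    (hd : Dim Y.r F) (h0 : ∀ g, z F 0 g = 0) (g d : ℕ)
    (h : ∀ (n : ℕ) l, n ≤ Y.r * d - (Y.D - 3) * g + 1 → coeff d (z F n (g + 1) l) = 0) (n : ℕ) :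
    ∀ l, coeff d (z F n (g + 1) l) = 0 := by
  induction n with
  | zero => intro l; rw [h0]; exact map_zero _
  | succ n ih =>
    intro l
    by_cases hn : Y.r * d - (Y.D - 3) * g < n
    · exact Y.ok.step hs hd h0 (Y.two_le hD) n g d hn ih l
    · exact h _ l (by push_cast; omega)

theorem nef (hD : 3 ≤ Y.D) (hr : Y.r ≤ 0) (F : ℕ → Y.tgt.S ℂ⟦X⟧) (hs : ∀ g, Symm (F g))
    (hd : Dim Y.r F) (h0 : ∀ g, z F 0 g = 0) (h1 : ∀ g, z F 1 g = 0) (n g : ℕ) :
    z F n (g + 1) = 0 := by
  refine ext' fun l => PowerSeries.ext fun d => ?_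
  rw [Y.finite_many (by omega) F hs hd h0 g d (fun n l hn => ?_) n l, zero_ap, map_zero]
  have a1 : Y.r * d ≤ 0 := mul_nonpos_of_nonpos_of_nonneg hr (Int.natCast_nonneg d)
  have a2 : (0 : ℤ) ≤ (Y.D - 3) * g := mul_nonneg (by omega) (Int.natCast_nonneg g)
  obtain rfl | rfl : n = 0 ∨ n = 1 := by omega
  · rw [h0]; exact map_zero _
  · rw [h1]; exact map_zero _

end Vale.Agent.P269.CI
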