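import Vale.Agent.P269.Basic

/-! The coefficients of the Virasoro operators. -/

noncomputable section

namespace Vale.Agent.P269.Tgt

open Finset Ser Matrix Polynomial

theorem br_zero (i : ℕ) (x : ℂ) : br 0 i x = if i = 0 then 1 else 0 := by
  simp [br, coeff_one]

theorem br_succ_zero (n : ℕ) (x : ℂ) : br (n + 1) 0 x = (x + n) * br n 0 x := by
  simp only [br, prod_range_succ, mul_add, coeff_add, coeff_mul_X_zero, coeff_mul_C]
  ring

theorem br_succ_succ (n i : ℕ) (x : ℂ) :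
    br (n + 1) (i + 1) x = (x + n) * br n (i + 1) x + br n i x := by
  simp only [br, prod_range_succ, mul_add, coeff_add, coeff_mul_X, coeff_mul_C]
  ring

theorem br_prod' (n : ℕ) (x : ℂ) : ∏ j ∈ range (n + 1), (X + C (x + j) : ℂ[X]) =
    (∏ j ∈ range n, (X + C (x + 1 + j))) * (X + C x) := by
  rw [prod_range_succ']
  simp only [Nat.cast_add, Nat.cast_one, Nat.cast_zero, add_zero]
  congr 1
  exact prod_congr rfl fun j _ => by rw [add_assoc, add_comm 1]

theorem br_succ_zero' (n : ℕ) (x : ℂ) : br (n + 1) 0 x = x * br n 0 (x + 1) := by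
  simp only [br, br_prod', mul_add, coeff_add, coeff_mul_X_zero, coeff_mul_C]
  ring

theorem br_succ_succ' (n i : ℕ) (x : ℂ) :
    br (n + 1) (i + 1) x = x * br n (i + 1) (x + 1) + br n i (x + 1) := by
  simp only [br, br_prod', mul_add, coeff_add, coeff_mul_X, coeff_mul_C]
  ring

theorem br_gt (n : ℕ) : ∀ (i : ℕ) (x : ℂ), n < i → br n i x = 0 := by
  induction n with
  | zero => intro i x h; rw [br_zero, if_neg h.ne']
  | succ n ih =>
    intro i x h
    obtain ⟨i, rfl⟩ : ∃ j, i = j + 1 := ⟨i - 1, by omega⟩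
    rw [br_succ_succ, ih _ _ (by omega), ih _ _ (by omega)]
    simp

theorem br_self (n : ℕ) (x : ℂ) : br n n x = 1 := by
  induction n with
  | zero => simp [br_zero]
  | succ n ih => rw [br_succ_succ, br_gt n _ _ (by omega), ih]; simp

theorem br_diff (n i : ℕ) (x : ℂ) :
    br (n + 1) i (x + 1) - br (n + 1) i x = (n + 1) * br n i (x + 1) := by
  cases i with
  | zero => rw [br_succ_zero, br_succ_zero']; ring
  | succ i => rw [br_succ_succ, br_succ_succ' n i x]; ring

theorem br_refl (n : ℕ) : ∀ (i : ℕ) (x : ℂ), br n i x = (-1) ^ (n + i) * br n i (1 - n - x) := by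
  induction n with
  | zero => intro i x; rw [br_zero, br_zero]; split_ifs with h <;> simp [h]
  | succ n ih =>
    intro i x
    have e : (1 - (n + 1 : ℕ) - x : ℂ) + 1 = 1 - n - x := by push_cast; ring
    cases i with
    | zero => rw [br_succ_zero, br_succ_zero', ih 0 x, e]; push_cast; ring
    | succ i => rw [br_succ_succ, br_succ_succ', ih (i + 1) x, ih i x, e]; push_cast; ring

/-- The properties of the cohomological data that are used. -/
structure Ok (X : Tgt) : Prop where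
  det : IsUnit X.η.det
  deg : ∀ a b, X.η a b ≠ 0 → X.p a + X.p b = X.D ∧ X.q a + X.q b = X.D
  sym : ∀ a b, X.η a b = sg (X.par a) * X.η b a
  Rdeg : ∀ a b, X.R b a ≠ 0 → X.p b = X.p a + 1 ∧ X.q b = X.q a + 1
  Radj : X.Rᵀ * X.η = X.η * X.R
  one_p : X.p X.one = 0
  one_q : X.q X.one = 0

variable {X : Tgt}

theorem sg_par (a : X.ι) : (-1 : ℂ) ^ (X.p a + X.q a) = sg (X.par a) := by
  by_cases h : Odd (X.p a + X.q a)
  · simp [par, h, h.neg_one_pow]
  · simp [par, h, (Nat.not_odd_iff_even.mp h).neg_one_pow]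

theorem par_eq_of {a b : X.ι} (h : (X.p a + X.q a) % 2 = (X.p b + X.q b) % 2) :
    X.par a = X.par b := by
  simp only [par, Nat.odd_iff, h]

namespace Ok

variable (H : X.Ok)
include H

theorem par_one : X.par X.one = false := by simp [par, H.one_p, H.one_q]

theorem eta_par {a b : X.ι} (h : X.η a b ≠ 0) : X.par a = X.par b :=
  par_eq_of (by have := H.deg a b h; omega)

theorem inv_mul : X.η⁻¹ * X.η = 1 := nonsing_inv_mul _ H.det
theorem mul_inv : X.η * X.η⁻¹ = 1 := mul_nonsing_inv _ H.det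

theorem inv_deg_aux (w : X.ι → ℕ) (hw : ∀ a b, X.η a b ≠ 0 → w a + w b = X.D) {a b : X.ι}
    (h : X.η⁻¹ a b ≠ 0) : w a + w b = X.D := by
  have e : diagonal (fun a => (w a : ℂ)) * X.η + X.η * diagonal (fun a => (w a : ℂ)) =
      (X.D : ℂ) • X.η := by
    ext a b
    simp only [Matrix.add_apply, diagonal_mul, mul_diagonal, Matrix.smul_apply, smul_eq_mul]
    by_cases h0 : X.η a b = 0
    · simp [h0]
    · rw [← hw a b h0]; push_cast; ring
  have e2 : X.η⁻¹ * diagonal (fun a => (w a : ℂ)) + diagonal (fun a => (w a : ℂ)) * X.η⁻¹ =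
      (X.D : ℂ) • X.η⁻¹ := by
    have := congrArg (fun M => X.η⁻¹ * M * X.η⁻¹) e
    simp only [mul_add, add_mul, Matrix.mul_smul, Matrix.smul_mul, H.inv_mul, Matrix.one_mul,
      ← Matrix.mul_assoc] at this
    rwa [Matrix.mul_assoc _ X.η, H.mul_inv, Matrix.mul_one] at this
  have e3 := congrFun (congrFun e2 a) b
  simp only [Matrix.add_apply, diagonal_mul, mul_diagonal, Matrix.smul_apply, smul_eq_mul] at e3
  have e4 : ((w a + w b : ℕ) : ℂ) = X.D := by
    apply mul_right_cancel₀ h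
    push_cast
    linear_combination e3
  exact_mod_cast e4

theorem inv_deg {a b : X.ι} (h : X.η⁻¹ a b ≠ 0) :
    X.p a + X.p b = X.D ∧ X.q a + X.q b = X.D :=
  ⟨H.inv_deg_aux X.p (fun a b h => (H.deg a b h).1) h,
    H.inv_deg_aux X.q (fun a b h => (H.deg a b h).2) h⟩

theorem inv_par {a b : X.ι} (h : X.η⁻¹ a b ≠ 0) : X.par a = X.par b :=
  par_eq_of (by have := H.inv_deg h; omega)

theorem inv_sym (a b : X.ι) : X.η⁻¹ a b = sg (X.par a) * X.η⁻¹ b a := by
  have e : (of fun a b => sg (X.par b) * X.η⁻¹ b a) * X.η = 1 := by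
    have h1 : X.η⁻¹ᵀ * X.ηᵀ = 1 := by rw [← transpose_mul, H.mul_inv, transpose_one]
    rw [← h1]
    ext a c
    simp only [Matrix.mul_apply, of_apply, transpose_apply]
    refine sum_congr rfl fun b _ => ?_
    rw [H.sym b c, mul_mul_mul_comm, sg_mul_self, one_mul]
  have e2 := Matrix.inv_eq_left_inv e
  have e3 : X.η⁻¹ a b = sg (X.par b) * X.η⁻¹ b a := by
    conv_lhs => rw [e2]
    rfl
  by_cases h : X.η⁻¹ a b = 0
  · have : X.η⁻¹ b a = 0 := by
      rw [h] at e3
      have := congrArg (fun t => sg (X.par b) * t) e3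
      simpa [← mul_assoc] using this.symm
    rw [h, this, mul_zero]
  · rw [H.inv_par h]; exact e3

theorem pow_deg (i : ℕ) : ∀ a b, (X.R ^ i) b a ≠ 0 → X.p b = X.p a + i ∧ X.q b = X.q a + i := by
  induction i with
  | zero =>
    intro a b h
    by_cases e : b = a
    · simp [e]
    · simp [one_apply_ne e] at h
  | succ i ih =>
    intro a b h
    rw [pow_succ', Matrix.mul_apply] at h
    obtain ⟨c, -, hc⟩ := exists_ne_zero_of_sum_ne_zero h
    have h1 := H.Rdeg c b (left_ne_zero_of_mul hc)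
    have h2 := ih a c (right_ne_zero_of_mul hc)
    omega

theorem pow_adj (i : ℕ) : (X.R ^ i)ᵀ * X.η = X.η * X.R ^ i := by
  induction i with
  | zero => simp
  | succ i ih =>
    rw [pow_succ, transpose_mul, Matrix.mul_assoc, ih, ← Matrix.mul_assoc, H.Radj,
      Matrix.mul_assoc, ← pow_succ', pow_succ]

theorem mu_eta {a b : X.ι} (h : X.η a b ≠ 0) : X.μ a = -X.μ b := by
  have : (X.p a + X.p b : ℂ) = X.D := by exact_mod_cast (H.deg a b h).1
  simp only [μ]
  linear_combination this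

theorem mu_pow {i : ℕ} {a b : X.ι} (h : (X.R ^ i) b a ≠ 0) : X.μ b = X.μ a + i := by
  have : (X.p b : ℂ) = X.p a + i := by exact_mod_cast (H.pow_deg i a b h).1
  simp only [μ]
  linear_combination this

end Ok

variable (X) in
/-- The matrix of the part `z^j ↦ z^{j+n-1-i}` of the operator `l_{n-1}`. -/
def M (n i : ℕ) (j : ℤ) : Matrix X.ι X.ι ℂ :=
  X.R ^ i * diagonal fun a => br n i (X.μ a + j + 1 / 2)

theorem M_apply (n i : ℕ) (j : ℤ) (b a : X.ι) :
    X.M n i j b a = br n i (X.μ a + j + 1 / 2) * (X.R ^ i) b a := by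
  rw [M, mul_diagonal, mul_comm]

theorem M_gt {n i : ℕ} (h : n < i) (j : ℤ) : X.M n i j = 0 := by
  ext b a
  rw [M_apply, br_gt n i _ h, zero_mul, Matrix.zero_apply]

theorem M_self (n : ℕ) (j : ℤ) : X.M n n j = X.R ^ n := by
  ext b a
  rw [M_apply, br_self, one_mul]

theorem M_diff (n i : ℕ) (j : ℤ) :
    X.M (n + 1) i j - X.M (n + 1) i (j - 1) = ((n : ℂ) + 1) • X.M n i j := by
  ext b a
  have := br_diff n i (X.μ a + (j - 1 : ℤ) + 1 / 2)
  have e : X.μ a + (j - 1 : ℤ) + 1 / 2 + 1 = X.μ a + j + 1 / 2 := by push_cast; ring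
  rw [e] at this
  simp only [Matrix.sub_apply, Matrix.smul_apply, M_apply, smul_eq_mul]
  linear_combination (X.R ^ i) b a * this

theorem κ_eq (n i s : ℕ) (a b : X.ι) :
    κ n i s a b = (-1) ^ (s + 1) * (X.M n i (-s - 1) * X.η⁻¹ᵀ) b a := by
  rw [κ, Matrix.mul_apply]
  congr 1
  refine sum_congr rfl fun c _ => ?_
  rw [M_apply, transpose_apply]
  have e : X.μ c + (-s - 1 : ℤ) + 1 / 2 = X.μ c - s - 1 / 2 := by push_cast; ring
  rw [e]
  ring

theorem κ_gt {n i : ℕ} (h : n < i) (s : ℕ) (a b : X.ι) : κ n i s a b = 0 := by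
  simp [κ_eq, M_gt h]

theorem κ_diff (n i s : ℕ) (a b : X.ι) :
    κ (n + 1) i (s + 1) a b + κ (n + 1) i s a b = ((n : ℂ) + 1) * κ n i s a b := by
  have h0 := congrArg (· * X.η⁻¹ᵀ) (M_diff (X := X) n i (-s - 1))
  simp only [Matrix.sub_mul, Matrix.smul_mul] at h0
  have := congrFun (congrFun h0 b) a
  simp only [Matrix.sub_apply, Matrix.smul_apply, smul_eq_mul] at this
  have e : (-((s + 1 : ℕ) : ℤ) - 1) = -s - 1 - 1 := by push_cast; ring
  simp only [κ_eq, e]
  linear_combination (-1) ^ (s + 1) * this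

namespace Ok

variable (H : X.Ok)
include H

theorem M_deg {n i : ℕ} {j : ℤ} {a b : X.ι} (h : X.M n i j b a ≠ 0) :
    X.p b = X.p a + i ∧ X.q b = X.q a + i := by
  rw [M_apply] at h
  exact H.pow_deg i a b (right_ne_zero_of_mul h)

theorem M_par {n i : ℕ} {j : ℤ} {a b : X.ι} (h : X.M n i j b a ≠ 0) : X.par b = X.par a :=
  par_eq_of (by have := H.M_deg h; omega)

theorem M_adj (n i : ℕ) (j : ℤ) :
    (X.M n i j)ᵀ * X.η = ((-1 : ℂ) ^ (n + i)) • (X.η * X.M n i (i - j - n)) := by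
  rw [M, M, transpose_mul, diagonal_transpose, Matrix.mul_assoc, H.pow_adj, ← Matrix.mul_assoc X.η]
  ext a b
  rw [diagonal_mul, Matrix.smul_apply, mul_diagonal, smul_eq_mul]
  by_cases h : (X.η * X.R ^ i) a b = 0
  · simp [h]
  · rw [Matrix.mul_apply] at h
    obtain ⟨c, -, hc⟩ := exists_ne_zero_of_sum_ne_zero h
    have h1 := H.mu_eta (left_ne_zero_of_mul hc)
    have h2 := H.mu_pow (right_ne_zero_of_mul hc)
    rw [br_refl]
    have e : 1 - n - (X.μ a + j + 1 / 2) = X.μ b + (i - j - n : ℤ) + 1 / 2 := by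
      rw [h1, h2]; push_cast; ring
    rw [e]
    ring

theorem inv_M_adj (n i : ℕ) (j : ℤ) :
    X.η⁻¹ * (X.M n i j)ᵀ = ((-1 : ℂ) ^ (n + i)) • (X.M n i (i - j - n) * X.η⁻¹) := by
  have := congrArg (fun N => X.η⁻¹ * N * X.η⁻¹) (H.M_adj n i j)
  simp only [Matrix.mul_smul, Matrix.smul_mul, ← Matrix.mul_assoc, H.inv_mul,
    Matrix.one_mul] at this
  rwa [Matrix.mul_assoc _ X.η, H.mul_inv, Matrix.mul_one] at this

theorem κ_deg {n i s : ℕ} {a b : X.ι} (h : κ n i s a b ≠ 0) :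
    X.p a + X.p b = X.D + i ∧ X.q a + X.q b = X.D + i := by
  rw [κ_eq, Matrix.mul_apply] at h
  obtain ⟨c, -, hc⟩ := exists_ne_zero_of_sum_ne_zero (right_ne_zero_of_mul h)
  have h1 := H.M_deg (left_ne_zero_of_mul hc)
  have h2 := H.inv_deg (right_ne_zero_of_mul hc)
  omega

theorem κ_par {n i s : ℕ} {a b : X.ι} (h : κ n i s a b ≠ 0) : X.par a = X.par b :=
  par_eq_of (by have := H.κ_deg h; omega)

theorem κ_sym {n i s t : ℕ} (h : i + s + t + 2 = n) (a b : X.ι) :
    κ n i s a b = sg (X.par b) * κ n i t b a := by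
  have e1 := congrFun (congrFun (H.inv_M_adj n i (-s - 1)) a) b
  have e : (i - (-s - 1) - n : ℤ) = -t - 1 := by omega
  rw [e] at e1
  have e2 : (X.M n i (-s - 1) * X.η⁻¹ᵀ) b a = (X.η⁻¹ * (X.M n i (-s - 1))ᵀ) a b := by
    rw [← transpose_apply (X.η⁻¹ * _), transpose_mul, transpose_transpose]
  have e3 : (X.M n i (-t - 1) * X.η⁻¹) a b = sg (X.par b) * (X.M n i (-t - 1) * X.η⁻¹ᵀ) a b := by
    simp only [Matrix.mul_apply, transpose_apply, mul_sum]
    refine sum_congr rfl fun c _ => ?_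
    rw [H.inv_sym b c]
    linear_combination (-(X.M n i (-t - 1) a c * X.η⁻¹ c b)) * sg_mul_self (K := ℂ) (X.par b)
  rw [κ_eq, κ_eq, e2, e1, Matrix.smul_apply, e3, ← h, smul_eq_mul]
  have : (-1 : ℂ) ^ (i + s + t + 2 + i) = (-1) ^ (s + t) := by
    rw [show i + s + t + 2 + i = s + t + 2 * (i + 1) by ring, pow_add, pow_mul]; simp
  rw [this]
  have : (-1 : ℂ) ^ (s + 1) * (-1) ^ (s + t) = (-1) ^ (t + 1) := by
    rw [← pow_add, show s + 1 + (s + t) = t + 1 + 2 * s by ring, pow_add, pow_mul]; simp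
  linear_combination sg (X.par b) * (X.M (i + s + t + 2) i (-t - 1) * X.η⁻¹ᵀ) a b * this

end Ok

end Vale.Agent.P269.Tgt
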