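import Mathlib

/-!
The cohomological data of a target, the coefficients of the Virasoro operators of
Eguchi-Hori-Xiong and Katz in the form of Getzler, and the data of a smooth complete intersection.
-/

noncomputable section

namespace Vale.Agent.P269

open Finset Matrix

/-- The cohomology of a smooth projective variety of dimension `D`, in a basis `φ_a`, `a : ι`, with
`φ_a` of Hodge type `(p a, q a)`: `η a b = ∫ φ_a φ_b`, `c₁ ∪ φ_a = ∑_b R b a φ_b`, `φ_one = 1`. -/
structure Tgt where
  /-- The index set of the basis. -/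
  ι : Type
  [fin : Fintype ι]
  [dec : DecidableEq ι]
  /-- The complex dimension. -/
  D : ℕ
  /-- The Hodge degree `p`. -/
  p : ι → ℕ
  /-- The Hodge degree `q`. -/
  q : ι → ℕ
  /-- The Poincare pairing. -/
  η : Matrix ι ι ℂ
  /-- The cup product with the first Chern class. -/
  R : Matrix ι ι ℂ
  /-- The index of the unit class. -/
  one : ι

attribute [instance] Tgt.fin Tgt.dec

namespace Tgt

variable (X : Tgt)

/-- The cohomological parity of `φ_a`. -/
def par (a : X.ι) : Bool := decide (Odd (X.p a + X.q a))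

/-- The grading `μ`. -/
def μ (a : X.ι) : ℂ := X.p a - X.D / 2

/-- The scalar term `χ / 16 - str(μ²) / 4`. -/
def ρ : ℂ := (∑ a, (-1) ^ (X.p a + X.q a)) / 16 - (∑ a, (-1) ^ (X.p a + X.q a) * X.μ a ^ 2) / 4

/-- `[x]^k_i` for `n = k + 1`: the coefficient of `s^i` in `(s + x) (s + x + 1) ⋯ (s + x + k)`. -/
def br (n i : ℕ) (x : ℂ) : ℂ :=
  (∏ j ∈ range n, (Polynomial.X + Polynomial.C (x + j))).coeff i

variable {X}

/-- The coefficient of `(ħ / 2) ∂_{a,s} ∂_{b,k-s-i-1}` in `L_k`, `n = k + 1`. -/
def κ (n i s : ℕ) (a b : X.ι) : ℂ :=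
  (-1) ^ (s + 1) * ∑ c, X.η⁻¹ a c * br n i (X.μ c - s - 1 / 2) * (X.R ^ i) b c

end Tgt

/-- The data of a smooth complete intersection of multidegree `e` in `ℙ^{D + c}`: the primitive
cohomology has the basis `P`, with Hodge types `(hp a, D - hp a)` and intersection matrix `ηP`. -/
structure CI where
  /-- The dimension. -/
  D : ℕ
  /-- The codimension. -/
  c : ℕ
  /-- The degrees of the equations. -/
  e : Fin c → ℕ
  e_pos : ∀ j, 0 < e j
  /-- The index set of a basis of the primitive cohomology. -/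
  P : Type
  [fin : Fintype P]
  [dec : DecidableEq P]
  /-- The Hodge degree. -/
  hp : P → ℕ
  hp_le : ∀ a, hp a ≤ D
  /-- The intersection matrix. -/
  ηP : Matrix P P ℂ
  det_ne : ηP.det ≠ 0
  sym : ∀ a b, ηP a b = (-1) ^ D * ηP b a
  deg : ∀ a b, ηP a b ≠ 0 → hp a + hp b = D

attribute [instance] CI.fin CI.dec

namespace CI

variable (Y : CI)

/-- The index: `c₁ = r h`, with `h` the hyperplane class. -/
def r : ℤ := Y.D + Y.c + 1 - ∑ j, (Y.e j : ℤ)

/-- The cohomology, with the basis `1, h, …, h^D` followed by the primitive classes. -/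
@[reducible] def tgt : Tgt where
  ι := Fin (Y.D + 1) ⊕ Y.P
  D := Y.D
  p := Sum.elim (fun i => i) Y.hp
  q := Sum.elim (fun i => i) fun a => Y.D - Y.hp a
  η := fromBlocks (of fun i j => if i.1 + j.1 = Y.D then ∏ j, (Y.e j : ℂ) else 0) 0 0 Y.ηP
  R := fromBlocks (of fun j i => if j.1 = i.1 + 1 then (Y.r : ℂ) else 0) 0 0 0
  one := Sum.inl 0

end CI

end Vale.Agent.P269
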