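import Vale.Agent.P269.Ser
import Vale.Agent.P269.Data

/-!
The cohomological data of a target, the Virasoro expressions of Eguchi-Hori-Xiong and Katz in the
form of Getzler, the universal equations of genus 0 and 1, and the data of a smooth complete
intersection. Everything here is a definition.
-/

noncomputable section

namespace Vale.Agent.P269

open Finset Ser Matrix

namespace Tgt

variable (X : Tgt) {K : Type} [CommRing K] [Algebra ℂ K]

/-- Series in the variables `t^a_m`, indexed by `(m, a)`. -/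
abbrev S (K : Type) : Type := Ser (fun x : ℕ × X.ι => X.par x.2) K

variable {X}

/-- The derivative `∂_{a,j}`, which is zero for `j < 0`. -/
def dz (j : ℤ) (a : X.ι) (f : X.S K) : X.S K := if 0 ≤ j then der (j.toNat, a) f else 0

/-- The coefficient of `t^a_m` in the first order part of `L_k`, `n = k + 1`. -/
def Lx (n : ℕ) (x : ℕ × X.ι) (f : X.S K) : X.S K :=
  ∑ i ∈ range (n + 1), ∑ b, (br n i (X.μ x.2 + x.1 + 1 / 2) * (X.R ^ i) b x.2) •
    dz (x.1 + n - 1 - i) b f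

/-- The coefficient `z_{k,g}` of `ħ^{g-1}` in `Z⁻¹ L_k Z`, where `n = k + 1` and
`Z = exp (∑ ħ^{g-1} F g)`. -/
def z (F : ℕ → X.S K) (n g : ℕ) : X.S K :=
  sig (fun x => Lx n x (F g)) - Lx n (1, X.one) (F g) +
  (1 / 2 : ℂ) • ∑ i ∈ range (n + 1), ∑ s ∈ range n, ∑ a, ∑ b, κ n i s a b •
    ((if g = 0 then 0 else dz (n - 2 - i - s) b (dz s a (F (g - 1)))) +
      ∑ h ∈ antidiagonal g, dz s a (F h.1) * dz (n - 2 - i - s) b (F h.2)) +
  (if g = 0 then (1 / 2 : ℂ) • ∑ a, ∑ b, ((X.R ^ n)ᵀ * X.η) a b • (var (0, b) * var (0, a))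
    else 0) +
  (if g = 1 ∧ n = 1 then X.ρ • (1 : X.S K) else 0)

/-- The genus 0 topological recursion relation. -/
def TRR0 (F₀ : X.S K) : Prop :=
  ∀ (m : ℕ) (a : X.ι) (x y : ℕ × X.ι), der y (der x (der (m + 1, a) F₀)) =
    ∑ b, ∑ c, X.η⁻¹ b c • (der (0, b) (der (m, a) F₀) * der y (der x (der (0, c) F₀)))

/-- The genus 1 topological recursion relation. -/
def TRR1 (F₀ F₁ : X.S K) : Prop :=
  ∀ (m : ℕ) (a : X.ι), der (m + 1, a) F₁ =
    ∑ b, ∑ c, X.η⁻¹ b c • (der (0, b) (der (m, a) F₀) * der (0, c) F₁ +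
      (1 / 24 : ℂ) • der (0, c) (der (0, b) (der (m, a) F₀)))

/-- The restriction to the small phase space `t^a_m = 0`, `m > 0`. -/
def res (f : X.S K) : X.S K := fun l => if ∀ x ∈ l, x.1 = 0 then f l else 0

/-- The correlation function `⟨⟨v₁ ⋯ vₙ⟩⟩` of `f`, for vector fields `v = ∑ φ_a v^a`. -/
def cor : X.S K → List (X.ι → X.S K) → X.S K
  | f, [] => f
  | f, v :: vs => ∑ a, cor (der (0, a) f) vs * v a

/-- The vector field `∑ φ^b ⟨⟨φ_b v₁ ⋯ vₙ⟩⟩`; for two vector fields, their quantum product. -/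
def con (G : X.S K) (vs : List (X.ι → X.S K)) (a : X.ι) : X.S K :=
  ∑ b, X.η⁻¹ a b • cor (der (0, b) G) vs

/-- The function `∑ ⟨⟨φ_b φ^b⟩⟩`. -/
def lp (G : X.S K) : X.S K := ∑ b, ∑ c, X.η⁻¹ b c • der (0, c) (der (0, b) G)

/-- The summand of the genus 1 equation of Getzler. -/
def getz (G₀ G₁ : X.S K) (v₁ v₂ v₃ v₄ : X.ι → X.S K) : X.S K :=
  (3 : ℂ) • cor G₁ [con G₀ [v₁, v₂], con G₀ [v₃, v₄]] -
  (4 : ℂ) • cor G₁ [con G₀ [con G₀ [v₁, v₂], v₃], v₄] -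
  cor G₁ [con G₀ [con G₀ [v₁, v₂], v₃, v₄]] +
  (2 : ℂ) • cor G₁ [con G₀ [con G₀ [v₁, v₂, v₃], v₄]] +
  (1 / 6 : ℂ) • cor (lp G₀) [con G₀ [v₁, v₂, v₃], v₄] +
  (1 / 24 : ℂ) • cor (lp G₀) [con G₀ [v₁, v₂, v₃, v₄]] -
  (1 / 4 : ℂ) • ∑ a, ∑ b, ∑ c, ∑ d, (X.η⁻¹ a b * X.η⁻¹ c d) •
    (cor (der (0, c) (der (0, a) G₀)) [v₁, v₂] * cor (der (0, b) (der (0, d) G₀)) [v₃, v₄])

/-- The genus 1 equation of Getzler on the small phase space, for all even vector fields. -/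
def Getzler (F₀ F₁ : X.S K) : Prop :=
  ∀ v : Fin 4 → X.ι → X.S K, (∀ i a, Par (X.par a) (v i a)) →
    ∑ σ : Equiv.Perm (Fin 4), getz (res F₀) (res F₁) (v (σ 0)) (v (σ 1)) (v (σ 2)) (v (σ 3)) = 0

/-- The dimension constraint, for both Hodge degrees, if `c₁` has degree `r d` on the curve class
`d`. -/
def Dim (r : ℤ) (F : ℕ → X.S (PowerSeries ℂ)) : Prop :=
  ∀ g d l, PowerSeries.coeff d (F g l) ≠ 0 →
    (l.map fun x => (X.p x.2 + x.1 - 1 : ℤ)).sum = (X.D - 3) * (1 - g) + r * d ∧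
    (l.map fun x => (X.q x.2 + x.1 - 1 : ℤ)).sum = (X.D - 3) * (1 - g) + r * d

end Tgt

namespace CI

variable (Y : CI)

/-- Invariants with an odd number of primitive insertions vanish. -/
def PrimEven (f : Y.tgt.S (PowerSeries ℂ)) : Prop :=
  ∀ l, Odd (l.countP fun x => x.2.isRight) → f l = 0

/-- The matrix of the small quantum product with `c₁` at the origin. -/
def qc (F₀ : Y.tgt.S (PowerSeries ℂ)) : Matrix Y.tgt.ι Y.tgt.ι (PowerSeries ℂ) :=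
  of fun a b => ∑ c, ∑ d, (Y.tgt.η⁻¹ a c * Y.tgt.R d Y.tgt.one) • F₀ [(0, c), (0, b), (0, d)]

/-- The relation `h^{D+1} = (∏ e_j^{e_j}) Q h^{D+1-r}` of the small quantum cohomology ring, for
`c₁ = r h`. -/
def Rel (F₀ : Y.tgt.S (PowerSeries ℂ)) : Prop :=
  (Y.qc F₀ ^ (Y.D + 1)).col Y.tgt.one =
    ((Y.r : ℂ) ^ Y.r.toNat * ∏ j, (Y.e j : ℂ) ^ Y.e j) • (PowerSeries.X : PowerSeries ℂ) •
      (Y.qc F₀ ^ (Y.D + 1 - Y.r.toNat)).col Y.tgt.one

end CI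

end Vale.Agent.P269
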