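import Vale.Agent.P269.Str

/-! Homogeneity of the expressions `z_{k,g}`, and the constraints of negative degree. -/

noncomputable section

namespace Vale.Agent.P269

open Finset Ser Matrix PowerSeries

namespace Ser

variable {I G : Type} {par : I → Bool} [AddCommGroup G] {ω : I → G} {r : G}

/-- `f` is homogeneous of degree `c`. -/
def Hom (ω : I → G) (r c : G) (f : Ser par ℂ⟦X⟧) : Prop :=
  ∀ d l, coeff d (f l) ≠ 0 → (l.map ω).sum = c + d • r

theorem hom_zero (c : G) : Hom ω r c (0 : Ser par ℂ⟦X⟧) := fun _ _ h => (h (map_zero _)).elim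

theorem Hom.cast {c c' : G} {f : Ser par ℂ⟦X⟧} (h : Hom ω r c f) (e : c = c') : Hom ω r c' f :=
  e ▸ h

theorem Hom.add {c : G} {f g : Ser par ℂ⟦X⟧} (hf : Hom ω r c f) (hg : Hom ω r c g) :
    Hom ω r c (f + g) := fun d l h => by
  by_cases h0 : coeff d (f l) = 0
  · exact hg d l fun h1 => h (by rw [add_ap, map_add, h0, h1, add_zero])
  · exact hf d l h0

theorem Hom.smul {c : G} {f : Ser par ℂ⟦X⟧} (a : ℂ) (hf : a ≠ 0 → Hom ω r c f) :
    Hom ω r c (a • f) := fun d l h => by
  rw [smulR_ap, map_smul, smul_eq_mul] at h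
  exact hf (left_ne_zero_of_mul h) d l (right_ne_zero_of_mul h)

theorem Hom.sg {c : G} {f : Ser par ℂ⟦X⟧} (hf : Hom ω r c f) (b : Bool) :
    Hom ω r c ((sg b : ℂ⟦X⟧) • f) := by
  rw [← sgR_smul (R := ℂ)]; exact Hom.smul _ fun _ => hf

theorem Hom.neg {c : G} {f : Ser par ℂ⟦X⟧} (hf : Hom ω r c f) : Hom ω r c (-f) := by
  rw [← neg_one_smul ℂ]; exact Hom.smul _ fun _ => hf

theorem Hom.sub {c : G} {f g : Ser par ℂ⟦X⟧} (hf : Hom ω r c f) (hg : Hom ω r c g) :
    Hom ω r c (f - g) := by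
  rw [sub_eq_add_neg]; exact hf.add hg.neg

theorem hom_sum {α : Type} {c : G} {s : Finset α} {f : α → Ser par ℂ⟦X⟧}
    (h : ∀ i ∈ s, Hom ω r c (f i)) : Hom ω r c (∑ i ∈ s, f i) :=
  Finset.sum_induction f (Hom ω r c) (fun _ _ => Hom.add) (hom_zero c) h

theorem Hom.der {c : G} {f : Ser par ℂ⟦X⟧} (hf : Hom ω r c f) (x : I) :
    Hom ω r (c - ω x) (der x f) := fun d l h => by
  have := hf d (x :: l) h
  rw [List.map_cons, List.sum_cons] at this
  rw [sub_add_eq_add_sub, ← this, add_sub_cancel_left]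

theorem Hom.tw {c : G} {f : Ser par ℂ⟦X⟧} (hf : Hom ω r c f) (b : Bool) :
    Hom ω r c (tw b f) := fun d l h => (hf.sg (b && parl par l)) d l h

theorem hom_mul' (l : List I) : ∀ (c c' : G) (f g : Ser par ℂ⟦X⟧), Hom ω r c f → Hom ω r c' g →
    ∀ d, coeff d ((f * g) l) ≠ 0 → (l.map ω).sum = c + c' + d • r := by
  induction l with
  | nil =>
    intro c c' f g hf hg d h
    rw [mul_nil, coeff_mul] at h
    obtain ⟨p, hp, h⟩ := exists_ne_zero_of_sum_ne_zero h
    have h1 := hf _ _ (left_ne_zero_of_mul h)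
    have h2 := hg _ _ (right_ne_zero_of_mul h)
    rw [← mem_antidiagonal.mp hp, add_smul, add_add_add_comm, ← h1, ← h2]
    simp
  | cons x l ih =>
    intro c c' f g hf hg d h
    rw [mul_cons, map_add] at h
    rw [List.map_cons, List.sum_cons]
    by_cases h0 : coeff d ((f * der x g) l) = 0
    · rw [h0, zero_add] at h
      rw [ih _ _ _ _ (hf.der x) (hg.tw _) d h]
      abel
    · rw [ih _ _ _ _ hf (hg.der x) d h0]
      abel

theorem Hom.mul {c c' : G} {f g : Ser par ℂ⟦X⟧} (hf : Hom ω r c f) (hg : Hom ω r c' g) :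
    Hom ω r (c + c') (f * g) := fun d l => hom_mul' l c c' f g hf hg d

theorem hom_one : Hom ω r 0 (1 : Ser par ℂ⟦X⟧) := fun d l h => by
  cases l with
  | nil =>
    have : d = 0 := by
      by_contra h0
      exact h (by rw [show (1 : Ser par ℂ⟦X⟧) [] = 1 from rfl, coeff_one, if_neg h0])
    simp [this]
  | cons x l => exact (h (map_zero _)).elim

theorem hom_var [DecidableEq I] (x : I) : Hom ω r (ω x) (var x : Ser par ℂ⟦X⟧) := fun d l h => by
  by_cases h1 : l = [x]
  · have : d = 0 := by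
      by_contra h0
      exact h (by simp [var, h1, coeff_one, h0])
    simp [this, h1]
  · simp [var, h1] at h

theorem hom_sig' (l : List I) : ∀ (c : G) (u : I → Ser par ℂ⟦X⟧),
    (∀ y, Hom ω r (c - ω y) (u y)) → ∀ d, coeff d (sig u l) ≠ 0 → (l.map ω).sum = c + d • r := by
  induction l with
  | nil => intro c u _ d h; exact (h (map_zero _)).elim
  | cons x l ih =>
    intro c u hu d h
    rw [sig_cons, map_add] at h
    rw [List.map_cons, List.sum_cons]
    by_cases h0 : coeff d (u x l) = 0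
    · rw [h0, zero_add] at h
      rw [ih (c - ω x) _ (fun y => (((hu y).der x).sg _).cast (by abel)) d h]
      abel
    · rw [hu x d l h0]
      abel

theorem hom_sig {c : G} {u : I → Ser par ℂ⟦X⟧} (hu : ∀ y, Hom ω r (c - ω y) (u y)) :
    Hom ω r c (sig u) := fun d l => hom_sig' l c u hu d

theorem coeff_sig_zero (d : ℕ) (l : List I) : ∀ u : I → Ser par ℂ⟦X⟧,
    (∀ l₁ y l₂, l = l₁ ++ y :: l₂ → coeff d (u y (l₁ ++ l₂)) = 0) → coeff d (sig u l) = 0 := by
  induction l with
  | nil => intro u _; exact map_zero _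
  | cons x l ih =>
    intro u hu
    rw [sig_cons, map_add, show coeff d (u x l) = 0 from hu [] x l rfl, zero_add]
    refine ih _ fun l₁ y l₂ h => ?_
    rw [← sgR_smul (R := ℂ), smulR_ap, map_smul,
      show coeff d (der x (u y) (l₁ ++ l₂)) = 0 from hu (x :: l₁) y l₂ (by simp [h]), smul_zero]

end Ser

namespace Tgt

variable {X : Tgt}

/-- The two degrees of an insertion. -/
def wt (X : Tgt) (x : ℕ × X.ι) : ℤ × ℤ := (X.p x.2 + x.1 - 1, X.q x.2 + x.1 - 1)

theorem wt_sum (l : List (ℕ × X.ι)) : (l.map X.wt).sum =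
    ((l.map fun x => (X.p x.2 + x.1 - 1 : ℤ)).sum, (l.map fun x => (X.q x.2 + x.1 - 1 : ℤ)).sum) := by
  induction l with
  | nil => rfl
  | cons x l ih => simp only [List.map_cons, List.sum_cons, ih, wt, Prod.mk_add_mk]

/-- Homogeneity for both degrees. -/
abbrev Hm (r c : ℤ) (f : X.S (PowerSeries ℂ)) : Prop := Hom X.wt (r, r) (c, c) f

theorem Dim.hm {r : ℤ} {F : ℕ → X.S (PowerSeries ℂ)} (h : Dim r F) (g : ℕ) :
    Hm r ((X.D - 3) * (1 - g)) (F g) := fun d l h0 => by
  rw [wt_sum, (h g d l h0).1, (h g d l h0).2]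
  simp [mul_comm]

theorem parl_eq (l : List (ℕ × X.ι)) : parl (fun x : ℕ × X.ι => X.par x.2) l =
    decide (Odd ((l.map X.wt).sum.1 + (l.map X.wt).sum.2)) := by
  induction l with
  | nil => simp [parl]
  | cons x l ih =>
    rw [parl, ih]
    simp only [par, List.map_cons, List.sum_cons, wt, Prod.fst_add, Prod.snd_add,
      Nat.odd_iff, Int.odd_iff]
    generalize (List.map X.wt l).sum = u
    by_cases h1 : (X.p x.2 + X.q x.2) % 2 = 1 <;> by_cases h2 : (u.1 + u.2) % 2 = 1 <;>
      simp [h1, h2] <;> omega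

theorem Hm.even {r c : ℤ} {f : X.S (PowerSeries ℂ)} (h : Hm r c f) : Par false f := fun l h0 => by
  obtain ⟨d, hd⟩ : ∃ d, coeff d (f l) ≠ 0 := by
    by_contra h1
    exact h0 (PowerSeries.ext fun d => by simpa using not_exists.mp h1 d)
  rw [parl_eq, h d l hd]
  simp only [Prod.smul_mk, Prod.mk_add_mk, Int.odd_iff, decide_eq_false_iff_not]
  omega

theorem hom_dz {r c : ℤ × ℤ} {f : X.S (PowerSeries ℂ)} (hf : Hom X.wt r c f) (j : ℤ) (a : X.ι) :
    Hom X.wt r (c - (X.p a + j - 1, X.q a + j - 1)) (dz j a f) := by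
  unfold dz
  split_ifs with h
  · exact (hf.der _).cast (by simp [wt, Int.toNat_of_nonneg h])
  · exact hom_zero _

namespace Ok

variable (H : X.Ok)
include H

theorem hom_Lz {r c : ℤ × ℤ} {f : X.S (PowerSeries ℂ)} (hf : Hom X.wt r c f) (n : ℕ) (j : ℤ)
    (a : X.ι) :
    Hom X.wt r (c - ((n : ℤ) - 1, (n : ℤ) - 1) - (X.p a + j - 1, X.q a + j - 1)) (Lz n j a f) :=
  hom_sum fun i _ => hom_sum fun b _ => Hom.smul _ fun h => (hom_dz hf _ _).cast (by
    have := H.M_deg h
    ext <;> simp <;> omega)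

theorem hm_z {r : ℤ} {F : ℕ → X.S (PowerSeries ℂ)} (hD : Dim r F) (n g : ℕ) :
    Hm r ((X.D - 3) * (1 - g) - (n - 1)) (z F n g) := by
  rw [z_eq]
  refine Hom.add (Hom.add (Hom.add (Hom.sub (hom_sig fun y => H.hom_Lz (hD.hm g) _ _ _)
    ((H.hom_Lz (hD.hm g) _ _ _).cast ?_)) (Hom.smul _ fun _ => hom_sum fun i _ =>
      hom_sum fun s _ => hom_sum fun a _ => hom_sum fun b _ => Hom.smul _ fun h =>
        Hom.add ?_ (hom_sum fun u hu => ?_))) ?_) ?_
  · simp [H.one_p, H.one_q]
  · split_ifs with hg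
    · exact hom_zero _
    · refine (hom_dz (hom_dz (hD.hm _) _ _) _ _).cast ?_
      obtain ⟨g, rfl⟩ := Nat.exists_eq_succ_of_ne_zero hg
      have h1 : (X.p a + X.p b : ℤ) = X.D + i := by exact_mod_cast (H.κ_deg h).1
      have h2 : (X.q a + X.q b : ℤ) = X.D + i := by exact_mod_cast (H.κ_deg h).2
      ext
      · simp; linear_combination -h1
      · simp; linear_combination -h2
  · refine ((hom_dz (hD.hm _) _ _).mul (hom_dz (hD.hm _) _ _)).cast ?_
    have h0 : (g : ℤ) = u.1 + u.2 := by exact_mod_cast (mem_antidiagonal.mp hu).symm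
    have h1 : (X.p a + X.p b : ℤ) = X.D + i := by exact_mod_cast (H.κ_deg h).1
    have h2 : (X.q a + X.q b : ℤ) = X.D + i := by exact_mod_cast (H.κ_deg h).2
    ext
    · simp [h0]; linear_combination -h1
    · simp [h0]; linear_combination -h2
  · split_ifs with hg
    · refine Hom.smul _ fun _ => hom_sum fun a _ => hom_sum fun b _ => Hom.smul _ fun h =>
        ((hom_var _).mul (hom_var _)).cast ?_
      rw [H.pow_adj, Matrix.mul_apply] at h
      obtain ⟨c, -, hc⟩ := exists_ne_zero_of_sum_ne_zero h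
      have h1 := H.deg _ _ (left_ne_zero_of_mul hc)
      have h2 := H.pow_deg _ _ _ (right_ne_zero_of_mul hc)
      ext <;> simp [wt, hg] <;> omega
    · exact hom_zero _
  · split_ifs with hg
    · exact Hom.smul _ fun _ => hom_one.cast (by ext <;> simp [hg.1, hg.2])
    · exact hom_zero _

/-- A constraint of negative degree follows from the previous one. -/
theorem step {r : ℤ} {F : ℕ → X.S (PowerSeries ℂ)} (hF : ∀ g, Symm (F g)) (hD : Dim r F)
    (h0 : ∀ g, z F 0 g = 0) (h1 : ∀ a, a ≠ X.one → 2 ≤ X.p a + X.q a) (n g d : ℕ)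
    (hn : r * d - (X.D - 3) * g < n) (hz : ∀ l, coeff d (z F n (g + 1) l) = 0)
    (l : List (ℕ × X.ι)) : coeff d (z F (n + 1) (g + 1) l) = 0 := by
  induction hN : l.length using Nat.strong_induction_on generalizing l with
  | _ N ih =>
  by_contra hne
  have hw := H.hm_z hD (n + 1) (g + 1) d l hne
  have hm : (0, X.one) ∈ l := by
    by_contra hm
    have : ∀ l : List (ℕ × X.ι), (0, X.one) ∉ l →
        0 ≤ (l.map X.wt).sum.1 + (l.map X.wt).sum.2 := by
      intro l hl
      induction l with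
      | nil => simp
      | cons x l ih =>
        have h2 := ih fun h => hl (List.mem_cons_of_mem _ h)
        have h3 : 2 ≤ X.p x.2 + X.q x.2 + 2 * x.1 := by
          by_cases h4 : x.2 = X.one
          · have : x.1 ≠ 0 := fun h5 => hl (by rw [← h4, ← h5]; exact List.mem_cons_self)
            omega
          · have := h1 _ h4
            omega
        simp only [List.map_cons, List.sum_cons, wt, Prod.fst_add, Prod.snd_add]
        omega
    have := this l hm
    rw [hw] at this
    simp only [Prod.smul_mk, Prod.mk_add_mk, nsmul_eq_mul] at this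
    push_cast at this
    nlinarith
  obtain ⟨l₁, l₂, rfl⟩ := List.append_of_mem hm
  obtain ⟨b, hb⟩ := (symm_z hF (n + 1) (g + 1)).front (0, X.one) l₂ l₁
  have e := congrFun (H.LL0_z hF (fun g => (hD.hm g).even) h0 n g) (l₁ ++ l₂)
  simp only [LL, Lz_zero, sub_self, dz_zero', sub_ap, smulR_ap] at e
  have e2 := congrArg (coeff d) e
  rw [map_sub, map_smul, hz, smul_zero, coeff_sig_zero, zero_sub, neg_eq_zero] at e2
  · apply hne
    rw [hb, ← sg_map (R := ℂ), ← Algebra.smul_def, map_smul]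
    exact smul_eq_zero_of_right _ e2
  · intro m₁ y m₂ hy
    unfold dz
    split_ifs
    · refine ih _ ?_ _ rfl
      have := congrArg List.length hy
      simp only [List.length_append, List.length_cons] at this hN ⊢
      omega
    · exact map_zero _

end Ok

end Tgt

end Vale.Agent.P269
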