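import Vale.Agent.P269.QV

/-! The quantum powers of the Euler vector field and their derivatives. -/

noncomputable section

namespace Vale.Agent.P269.Tgt

open Finset Ser Matrix

variable {X : Tgt} {K : Type} [CommRing K] [Algebra ℂ K]

variable (X K) in
/-- The matrix of the derivative of the Euler vector field. -/
def Nm : Mat X K := -cm (X.μd (X.D / 2 - 1))

theorem em_Nm : EM (Nm X K) := (em_μd _).neg

theorem cm_μd (y : ℂ) : (cm (X.μd y) : Mat X K) = (y + 1 - X.D / 2) • 1 - Nm X K := by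
  rw [Nm, sub_neg_eq_add, add_comm, ← cm_μd_add]
  congr 2
  ring

/-- The derivative of the powers of `U` in the direction `N`. -/
def Wm (Φ : X.S K) : ℕ → Mat X K
  | 0 => 0
  | k + 1 => U Φ * Wm Φ k + Nm X K * U Φ ^ k

theorem Wm_succ' (Φ : X.S K) (k : ℕ) : Wm Φ (k + 1) = Wm Φ k * U Φ + U Φ ^ k * Nm X K := by
  induction k with
  | zero => simp [Wm]
  | succ k ih =>
    conv_lhs => rw [Wm, ih]
    rw [Wm, pow_succ' _ k, add_mul, mul_assoc (Nm X K), ← pow_succ, pow_succ' _ k]
    noncomm_ring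

theorem W_eq (Φ : X.S K) (c : ℤ) (k : ℕ) : W Φ c (k + 1) =
    ((c + 3 / 2 - X.D / 2) * (k + 1) : ℂ) • U Φ ^ k - Wm Φ (k + 1) := by
  induction k with
  | zero => simp only [W, Wm, cm_μd]; simp; ring_nf
  | succ k ih =>
    rw [W, ih, Wm.eq_2 Φ (k + 1), cm_μd, mul_sub, sub_mul (_ • 1), mul_smul_comm, ← pow_succ',
      smul_mul_assoc, one_mul]
    push_cast
    module

namespace QV

variable {Φ : X.S K} {W : SW Φ}

include W in
theorem em_U : EM (U Φ) :=
  (((W.em 0 0).mul (em_μd _)).sub ((em_μd _).mul (W.em 0 0))).add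
    (em_cm fun a b h => (par_eq_of (by have := W.ok.Rdeg b a h; omega)))

include W in
theorem em_Wm (k : ℕ) : EM (Wm Φ k) := by
  induction k with
  | zero => exact em_zero
  | succ k ih => exact ((em_U (W := W)).mul ih).add (em_Nm.mul ((em_U (W := W)).pow k))

variable (W) in
/-- The Euler vector field. -/
def E : QV W := act W (em_U (W := W)) 1

variable (W) in
/-- The derivative of the Euler vector field. -/
def ν : QV W →ₗ[ℂ] QV W := act W em_Nm

variable (W) in
/-- The operator `∑ U^s ν U^t`. -/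
def w (k : ℕ) : QV W →ₗ[ℂ] QV W := act W (em_Wm (W := W) k)

theorem Ah_E : Ah W (E W) = U Φ := W.euler.symm

theorem Ah_mulVec (x y : QV W) : Ah W x *ᵥ y.val = (x * y).val := rfl

theorem ν_val (x : QV W) : Nm X K *ᵥ x.val = (ν W x).val := rfl

theorem w_val (k : ℕ) (x : QV W) : Wm Φ k *ᵥ x.val = (w W k x).val := rfl

theorem U_pow_mulVec (k : ℕ) (x : QV W) : U Φ ^ k *ᵥ x.val = (E W ^ k * x).val := by
  rw [← Ah_E (W := W), ← map_pow, Ah_mulVec]

theorem U_mulVec (x : QV W) : U Φ *ᵥ x.val = (E W * x).val := by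
  rw [← Ah_E (W := W), Ah_mulVec]

theorem ν_one : ν W 1 = 1 := ext (funext fun c => by
  rw [← ν_val, one_val, mulVec_ee, Nm, Matrix.neg_apply, cm_apply, μd, ee]
  by_cases h : c = X.one
  · rw [h, diagonal_apply_eq, Pi.single_eq_same, μ, W.ok.one_p, ← neg_smul]
    norm_num
  · rw [diagonal_apply_ne _ h, Pi.single_eq_of_ne h, zero_smul, neg_zero])

theorem w_zero (x : QV W) : w W 0 x = 0 := ext (zero_mulVec _)

theorem w_succ (k : ℕ) (x : QV W) : w W (k + 1) x = E W * w W k x + ν W (E W ^ k * x) :=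
  ext (by rw [← w_val, Wm, add_mulVec, ← mulVec_mulVec, ← mulVec_mulVec, w_val, U_mulVec,
    U_pow_mulVec, ν_val, add_val])

theorem w_succ' (k : ℕ) (x : QV W) : w W (k + 1) x = w W k (E W * x) + E W ^ k * ν W x :=
  ext (by rw [← w_val, Wm_succ', add_mulVec, ← mulVec_mulVec, ← mulVec_mulVec, U_mulVec, w_val,
    ν_val, U_pow_mulVec, add_val])

theorem nab_ν (x y : QV W) : nab x (ν W y) = ν W (nab x y) :=
  ext ((nab_act em_Nm x y).trans (by
    rw [Nm, ← neg_one_smul ℂ, x.ev.vt.mat_smul, x.ev.vt.mat_cm, smul_zero, zero_mulVec, zero_add,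
      neg_one_smul]
    rfl))

theorem map_U (x : QV W) :
    (U Φ).map (Dv x.val) = Ah W x + Nm X K * Ah W x - Ah W x * Nm X K := by
  rw [x.ev.vt.map_U, ← A, ← Ah_apply, cm_μd, cm_μd, mul_sub, sub_mul, mul_smul_comm,
    smul_mul_assoc, mul_one, one_mul]
  module

theorem nab_E_mul (x y : QV W) :
    nab x (E W * y) = x * y + ν W (x * y) - x * ν W y + E W * nab x y := by
  have e : E W * y = act W (em_U (W := W)) y := ext (U_mulVec y).symm
  refine ext ?_
  rw [e, nab_act, map_U, sub_mulVec, add_mulVec, ← mulVec_mulVec, ← mulVec_mulVec, U_mulVec,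
    Ah_mulVec, ν_val, ν_val, Ah_mulVec]
  rfl

theorem nab_E (x : QV W) : nab x (E W) = ν W x := by
  have := nab_E_mul x 1
  rw [mul_one, mul_one, ν_one, nab_one] at this
  linear_combination this

theorem C3_E (x y : QV W) : C3 (E W) x y = ν W (x * y) - x * ν W y - y * ν W x + x * y := by
  have := nab_E_mul y x
  rw [nab_mul, nab_E, mul_comm y x] at this
  linear_combination this

theorem C3_assoc (a b u x : QV W) :
    C3 (a * b) u x + C3 a b x * u = C3 a (b * u) x + a * C3 b u x := by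
  have := congrArg (nab x) (mul_assoc a b u)
  simp only [nab_mul] at this
  linear_combination this

theorem C3_one (x y : QV W) : C3 1 x y = 0 := by
  have := nab_mul y 1 x
  rw [one_mul, nab_one] at this
  linear_combination -this

theorem C3_pow (k : ℕ) (x y : QV W) : C3 (E W ^ k) x y =
    w W k (x * y) - x * w W k y - y * w W k x + x * y * w W k 1 := by
  induction k with
  | zero => simp [C3_one, w_zero]
  | succ k ih =>
    have := C3_assoc (E W) (E W ^ k) x y
    rw [← pow_succ', ih, C3_E, C3_E] at this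
    simp only [w_succ, mul_one, ← mul_assoc]
    linear_combination this

theorem C4_E (x y u : QV W) : C4 (E W) y u x = ν W (C3 y u x) + C3 y u x - C3 (ν W x) y u -
    C3 y (ν W u) x - C3 u (ν W y) x := by
  have := congrArg (nab x) (C3_E y u)
  rw [nab_C3, nab_E, C3_E, C3_E] at this
  simp only [map_add, map_sub, nab_mul, nab_ν] at this
  linear_combination this

theorem nab_pow (k : ℕ) (x : QV W) : nab x (E W ^ (k + 1)) =
    nab (E W * x) (E W ^ k) + E W ^ k * x + E W ^ k * ν W x - x * ν W (E W ^ k) := by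
  induction k with
  | zero => simp [nab_E, nab_one, ν_one]
  | succ k ih =>
    rw [pow_succ' _ (k + 1), nab_E_mul, ih]
    conv_rhs => rw [pow_succ' _ k, nab_E_mul]
    rw [show E W * x * E W ^ k = x * E W ^ (k + 1) by ring, ← pow_succ']
    ring

theorem nab_w (k : ℕ) (x : QV W) : nab x (w W (k + 1) 1) = nab (E W * x) (w W k 1) +
    x * w W k 1 + w W k x + w W k (ν W x) - x * ν W (w W k 1) := by
  induction k with
  | zero => simp [w_succ, w_zero, nab_one, ν_one]
  | succ k ih =>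
    rw [w_succ (k + 1), map_add, nab_E_mul, ih, nab_ν, mul_one, nab_pow]
    simp only [w_succ k, map_add, nab_E_mul, nab_ν, mul_one, map_sub, mul_add, ← mul_assoc,
      mul_comm x (E W)]
    ring

theorem Cm_assoc (a b x : QV W) :
    Cm (a * b) x + Ah W (C3 a b x) = Cm a x * Ah W b + Ah W a * Cm b x :=
  mat_ext (W := W) fun u => by
    rw [add_mulVec, add_mulVec, ← mulVec_mulVec, ← mulVec_mulVec, Ah_mulVec, Ah_mulVec, Cm_mulVec,
      Cm_mulVec, Cm_mulVec, Ah_mulVec, ← add_val, ← add_val, C3_12 u, C3_assoc, C3_12 u,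
      C3_12 (b * u)]

theorem Cm_E (x : QV W) :
    Cm (E W) x = Nm X K * Ah W x - Ah W x * Nm X K + Ah W (x - ν W x) :=
  mat_ext (W := W) fun u => by
    rw [add_mulVec, sub_mulVec, ← mulVec_mulVec, ← mulVec_mulVec, Ah_mulVec, Ah_mulVec, Cm_mulVec,
      ν_val, ν_val, Ah_mulVec, ← sub_val, ← add_val, C3_12 u, C3_E, mul_comm u x]
    congr 1
    ring

theorem Cm_pow (k : ℕ) (x : QV W) : Cm (E W ^ k) x =
    Wm Φ k * Ah W x - Ah W x * Wm Φ k + Ah W (x * w W k 1 - w W k x) :=
  mat_ext (W := W) fun u => by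
    rw [add_mulVec, sub_mulVec, ← mulVec_mulVec, ← mulVec_mulVec, Ah_mulVec, Ah_mulVec, Cm_mulVec,
      w_val, w_val, Ah_mulVec, ← sub_val, ← add_val, C3_12 u, C3_pow, mul_comm u x]
    congr 1
    ring

theorem Cm_comm (x y : QV W) : Cm x y = Cm y x :=
  mat_ext (W := W) fun u => by rw [Cm_mulVec, Cm_mulVec, C3_23]

theorem str_br {B : Mat X K} (hB : EM B) (x y : QV W) :
    str ((B * Ah W x - Ah W x * B) * Ah W y) = 0 := by
  rw [sub_mul, str_sub, mul_assoc (Ah W x), str_comm (em_Ah x) (hB.mul (em_Ah y)), mul_assoc,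
    mul_assoc, ← map_mul, ← map_mul, mul_comm x, sub_self]

theorem τ_E (x y : QV W) :
    c2 (lp Φ) x (E W * y) = c2 (lp Φ) (E W * x) y + c1 W (lp Φ) (x * ν W y - y * ν W x) := by
  have e : ∀ x y : QV W, c2 (lp Φ) x (E W * y) = str (Ah W (E W) * Cm x y) +
      c1 W (lp Φ) (x * ν W y - ν W (x * y)) := by
    intro x y
    have := congrArg str (Cm_assoc (E W) y x)
    rw [str_add, str_add, str_Cm, str_Ah, Cm_E, add_mul, str_add, str_br em_Nm, ← map_mul,
      str_Ah, C3_E, Cm_comm y, zero_add] at this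
    rw [eq_sub_of_add_eq this, add_comm, add_sub_assoc, ← map_sub, mul_comm y x]
    congr 2
    ring
  rw [c2_comm (symm_lp (W := W)) (E W * x), e, e, Cm_comm y, add_assoc, ← map_add, mul_comm y x]
  congr 2
  ring

theorem τ_pow (k : ℕ) : ∀ x y : QV W, c2 (lp Φ) x (E W ^ k * y) =
    c2 (lp Φ) (E W ^ k * x) y + c1 W (lp Φ) (x * w W k y - y * w W k x) := by
  induction k with
  | zero => simp [w_zero]
  | succ k ih =>
    intro x y
    rw [pow_succ', mul_assoc, τ_E, ih, add_assoc, ← map_add, w_succ k y, w_succ' k x,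
      ← mul_assoc, ← pow_succ, ← pow_succ']
    congr 2
    ring

theorem τ_one (x : QV W) : c2 (lp Φ) x (1 : QV W) = 0 := by
  have : Cm (1 : QV W) x = 0 := mat_ext (W := W) fun u => by
    rw [Cm_mulVec, C3_12, C3_one, zero_mulVec]; rfl
  rw [← str_Cm, this, str_zero]

theorem c1_t (k : ℕ) (x : QV W) : c1 W (c1 W (lp Φ) (E W ^ (k + 1))) x =
    ((k : ℂ) + 1) • c1 W (lp Φ) (E W ^ k * x) := by
  have hU : Mu Φ (U Φ) := by rw [← Ah_E (W := W)]; exact W.mu_A (E W).ev
  have := congrArg (fun B => (B *ᵥ x.val) X.one) (W.grad_str hU k)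
  simp only [smul_mulVec, ← mulVec_mulVec, U_pow_mulVec, Pi.smul_apply, grad, jac_mulVec] at this
  rw [← str_Ah, map_pow, Ah_E]
  exact this

end QV

end Vale.Agent.P269.Tgt
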