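import Vale.Agent.P269.Phi

/-! The genus 1 Virasoro expressions at the origin. -/

noncomputable section

namespace Vale.Agent.P269.Tgt

open Finset Ser Matrix

variable {X : Tgt} {K : Type} [CommRing K] [Algebra ℂ K] {F : ℕ → X.S K}

/-- The quantum product with the Euler vector field at the origin. -/
def U0 (F : ℕ → X.S K) : Matrix X.ι X.ι K := ev0.mapMatrix (U (res (F 0)))

theorem U0_apply (a b : X.ι) : U0 F a b = U (res (F 0)) a b [] := rfl

theorem Γ_nil (a b : X.ι) :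
    Γ (res (F 0)) 0 0 a b [] = ∑ c, X.η⁻¹ a c • F 0 [(0, c), (0, b)] := by
  simp only [Γ_apply, sum_ap, smulR_ap, der_res_zero, res_nil]
  rfl

theorem U0_eq (a b : X.ι) : U0 F a b =
    (X.μ b - X.μ a + 1) • Γ (res (F 0)) 0 0 a b [] + X.R a b • 1 := by
  rw [U0_apply, U_apply]
  rfl

variable (X K) in
/-- The grading at the origin. -/
def μ0 : Matrix X.ι X.ι K := diagonal fun a => X.μ a • 1

variable (X K) in
/-- The pairing at the origin. -/
def η0 : Matrix X.ι X.ι K := (algebraMap ℂ K).mapMatrix X.η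

theorem η0_apply (a b : X.ι) : (η0 X K) a b = X.η a b • 1 :=
  Algebra.algebraMap_eq_smul_one (X.η a b)

theorem ev_μ : ev0.mapMatrix (cm (X.μd 0) : Mat X K) = (μ0 X K) := by
  refine Matrix.ext fun a b => ?_
  change (cm (X.μd 0) : Mat X K) a b [] = _
  rw [cm_apply, μd, μ0]
  by_cases h : a = b
  · rw [h, diagonal_apply_eq, diagonal_apply_eq, add_zero]; rfl
  · rw [diagonal_apply_ne _ h, diagonal_apply_ne _ h, zero_smul]; rfl

omit [Algebra ℂ K] in
theorem Dv_nil (B : Mat X K) (f : X.S K) : Dv (B *ᵥ ee _ _) f [] =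
    ∑ a, f [(0, a)] * ev0.mapMatrix B a X.one := by
  simp only [Dv, sum_ap, mul_nil, mulVec_ee]
  rfl

theorem z_nil (H : G1 F) (k : ℕ) : -z F (k + 1) 1 [] =
    ∑ a, F 1 [(0, a)] * (U0 F ^ (k + 1)) a X.one +
    (1 / 4 : ℂ) • ∑ a, (sg (X.par a) : ℂ) • ((μ0 X K) * dpow (U0 F) (μ0 X K) (k + 1)) a a +
    (1 / 24 : ℂ) • ∑ a, lp (res (F 0)) [(0, a)] * dpow (U0 F) (μ0 X K) (k + 1) a X.one := by
  have e := congrFun (H.res_z_closed k) []
  rw [neg_ap, res_nil, add_ap, add_ap, smulR_ap, smulR_ap, Dv_nil, Dv_nil, map_pow, map_dpow,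
    ev_μ, Tgt.str, sum_ap] at e
  rw [e, U0, ← ev_μ, ← map_dpow, ← map_mul]
  simp only [res, List.mem_singleton, forall_eq, if_true]
  rfl

theorem z_nil' (H : G1 F) (k : ℕ) : z F (k + 1) 1 [] =
    ((k + 1) / 2 : ℂ) • ∑ a, z F 2 1 [(0, a)] * (U0 F ^ k) a X.one := by
  have e := congrFun (H.res_z_eq k) []
  rw [res_nil, smulR_ap, QV.c1_apply, ← mul_one (QV.E _ ^ k), ← QV.U_pow_mulVec, QV.one_val,
    Dv_nil, map_pow] at e
  rw [e]
  simp only [res, List.mem_singleton, forall_eq, if_true]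
  rfl

theorem U0_qc (H : G1 F) (a b : X.ι) : U0 F a b =
    ∑ c, ∑ d, (X.η⁻¹ a c * X.R d X.one) • F 0 [(0, c), (0, b), (0, d)] := by
  rw [U0_apply, H.U_res H.l0, A, map_apply, Dv_nil, sum_comm]
  refine sum_congr rfl fun d _ => ?_
  have e : U0 F d X.one = X.R d X.one • 1 := by
    rw [U0_eq, ← resM_Γ, resM_apply, H.res_Γ_one, var_nil, smul_zero, zero_add]
  rw [← U0, e, Γ_apply, sum_ap, sum_mul]
  refine sum_congr rfl fun c _ => ?_
  simp only [smulR_ap, der, res, mul_smul_comm, mul_one, smul_smul]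
  rw [if_pos (by simp), mul_comm]

theorem U0_adj (H : G1 F) : (U0 F)ᵀ * (η0 X K) = (η0 X K) * U0 F := by
  refine Matrix.ext fun a b => ?_
  have e0 : ∀ a b c, ∑ d, (X.η a d * (X.μ b - X.μ d + 1)) * X.η⁻¹ d c =
      if a = c then X.μ b + X.μ a + 1 else 0 := by
    intro a b c
    have := congrFun (congrFun H.ok.mul_inv a) c
    rw [Matrix.mul_apply, one_apply] at this
    rw [← mul_boole, ← this, mul_sum]
    refine sum_congr rfl fun d _ => ?_
    by_cases h : X.η a d = 0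
    · simp [h]
    · rw [H.ok.mu_eta h]; ring
  have e1 : ∀ a b, ∑ d, X.η a d • U0 F d b =
      (X.μ b + X.μ a + 1) • F 0 [(0, a), (0, b)] + (X.η * X.R) a b • 1 := by
    intro a b
    simp only [U0_eq, Γ_nil, smul_add, sum_add_distrib, smul_sum, smul_smul, ← sum_smul,
      ← Matrix.mul_apply, ← mul_assoc]
    rw [sum_comm]
    simp only [← sum_smul, e0, ite_smul, zero_smul, sum_ite_eq, mem_univ, if_true]
  have e2 : F 0 [(0, a), (0, b)] = (sg (X.par b) : ℂ) • F 0 [(0, b), (0, a)] := by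
    by_cases h : F 0 [(0, b), (0, a)] = 0
    · have h2 := H.symm 0 [] [] (0, a) (0, b)
      simp only [List.nil_append] at h2
      rw [h2, h]; simp
    · have h1 := H.even 0 _ h
      have h2 := H.symm 0 [] [] (0, a) (0, b)
      simp only [parl, Bool.xor_false, bne_eq_false_iff_eq, List.nil_append] at h1 h2
      rw [h2, h1, Bool.and_self, Algebra.smul_def, sg_map]
  have e3 : (X.η * X.R) a b = sg (X.par b) * (X.η * X.R) b a := by
    have := H.ok.quad_sym 1 b a
    rw [pow_one, H.ok.Radj] at this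
    rw [this, ← mul_assoc, sg_mul_self, one_mul]
  have e4 : ∀ c, X.η c b = sg (X.par b) * X.η b c := fun c => by
    rw [H.ok.sym b c, ← mul_assoc, sg_mul_self, one_mul]
  simp only [Matrix.mul_apply, transpose_apply, η0_apply, smul_mul_assoc, mul_smul_comm, mul_one,
    one_mul, e1]
  simp only [e4, mul_smul, ← smul_sum, e1, e2]
  rw [← Matrix.mul_apply, e3]
  module

theorem μ0_adj (H : G1 F) : ((μ0 X K))ᵀ * (η0 X K) = -((η0 X K) * (μ0 X K)) := by
  refine Matrix.ext fun a b => ?_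
  rw [μ0, diagonal_transpose, diagonal_mul, Matrix.neg_apply, mul_diagonal, η0_apply]
  by_cases h : X.η a b = 0
  · simp [h]
  · rw [H.ok.mu_eta h]; simp [mul_comm]

theorem pow_adj (H : G1 F) (k : ℕ) : (U0 F ^ k)ᵀ * (η0 X K) = (η0 X K) * U0 F ^ k := by
  induction k with
  | zero => simp
  | succ k ih =>
    rw [pow_succ, transpose_mul, mul_assoc, ih, ← mul_assoc, U0_adj H, mul_assoc, ← pow_succ',
      pow_succ]

theorem dpow_adj (H : G1 F) (k : ℕ) :
    (dpow (U0 F) (μ0 X K) k)ᵀ * (η0 X K) = -((η0 X K) * dpow (U0 F) (μ0 X K) k) := by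
  induction k with
  | zero => simp [dpow]
  | succ k ih =>
    conv_rhs => rw [dpow_succ']
    rw [dpow, transpose_add, transpose_mul, transpose_mul, add_mul, mul_assoc, mul_assoc, U0_adj H,
      μ0_adj H, ← mul_assoc, ih, mul_neg, ← mul_assoc, pow_adj H]
    noncomm_ring

section rel

variable (H : G1 F) {pr : X.ι → Prop}
  (hx : ∀ B : Matrix X.ι X.ι K, (∀ k, (B * U0 F ^ k) *ᵥ Pi.single X.one 1 = 0) →
    (∀ a b, pr b → B a b = 0) → B = 0) (hU : ∀ a b, pr b → U0 F a b = 0) {n m : ℕ}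
  {c : K} (h : (U0 F ^ (n + 2)).col X.one = c • (U0 F ^ (m + 2)).col X.one)
include hU

theorem pow_prim (k : ℕ) (a : X.ι) {b : X.ι} (hb : pr b) : (U0 F ^ (k + 1)) a b = 0 := by
  rw [pow_succ, Matrix.mul_apply]
  exact sum_eq_zero fun c _ => mul_eq_zero_of_right _ (hU c b hb)

theorem dpow_prim (k : ℕ) (a : X.ι) {b : X.ι} (hb : pr b) :
    dpow (U0 F) (μ0 X K) (k + 2) a b = 0 := by
  rw [dpow_succ', Matrix.add_apply, μ0, mul_diagonal, pow_prim hU _ _ hb, zero_mul, add_zero,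
    Matrix.mul_apply]
  exact sum_eq_zero fun c _ => mul_eq_zero_of_right _ (hU c b hb)

include hx h

theorem pow_rel : U0 F ^ (n + 2) = c • U0 F ^ (m + 2) :=
  sub_eq_zero.mp (hx _ (fun k => by
    rw [sub_mul, smul_mul_assoc, ← pow_add, ← pow_add, add_comm _ k, add_comm _ k, pow_add,
      pow_add _ k, sub_mulVec, smul_mulVec, ← mulVec_mulVec, ← mulVec_mulVec, mulVec_single_one,
      mulVec_single_one, h, mulVec_smul, sub_self]) fun a b hb => by
    rw [Matrix.sub_apply, Matrix.smul_apply, pow_prim hU _ _ hb, pow_prim hU _ _ hb]; simp)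

include H

theorem dpow_rel : dpow (U0 F) (μ0 X K) (n + 2) = c • dpow (U0 F) (μ0 X K) (m + 2) := by
  obtain ⟨M, hM⟩ : ∃ M, M = dpow (U0 F) (μ0 X K) (n + 2) - c • dpow (U0 F) (μ0 X K) (m + 2) := ⟨_, rfl⟩
  have e0 : ∀ k, dpow (U0 F) (μ0 X K) k * U0 F =
      U0 F * dpow (U0 F) (μ0 X K) k + (μ0 X K) * U0 F ^ k - U0 F ^ k * (μ0 X K) := fun k => by
    rw [← dpow, dpow_succ', add_sub_cancel_right]
  have e1 : M * U0 F = U0 F * M := by
    rw [hM, sub_mul, mul_sub, smul_mul_assoc, e0, e0, pow_rel hx hU h]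
    simp only [mul_smul_comm, smul_mul_assoc, smul_add, smul_sub]
    abel
  have e2 : ∀ k, M * U0 F ^ k = U0 F ^ k * M := fun k => (Commute.pow_right e1 k).eq
  have e3 : Mᵀ * (η0 X K) = -((η0 X K) * M) := by
    rw [hM, transpose_sub, transpose_smul, sub_mul, smul_mul_assoc, dpow_adj H, dpow_adj H, mul_sub,
      mul_smul_comm, smul_neg]
    abel
  have e5 : ∀ a b, pr b → M a b = 0 := fun a b hb => by
    rw [hM, Matrix.sub_apply, Matrix.smul_apply, dpow_prim hU _ _ hb, dpow_prim hU _ _ hb]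
    simp
  have e6 : ∀ B : Matrix X.ι X.ι K,
      (Bᵀ * (η0 X K)) X.one X.one = ((η0 X K) * B) X.one X.one := fun B => by
    simp only [Matrix.mul_apply, transpose_apply, η0_apply]
    refine sum_congr rfl fun c _ => ?_
    rw [H.ok.sym X.one c, H.ok.par_one, sg_false, one_mul, mul_comm]
  have e7 : (of fun _ b => ((η0 X K) * M) X.one b : Matrix X.ι X.ι K) = 0 := by
    refine hx _ (fun k => funext fun a => ?_) fun a b hb => ?_
    · have e := e6 (M * U0 F ^ k)
      rw [transpose_mul, mul_assoc, e3, mul_neg, ← mul_assoc, pow_adj H, mul_assoc, ← e2,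
        Matrix.neg_apply, neg_eq_iff_add_eq_zero, ← two_smul ℂ] at e
      have := smul_cancel two_ne_zero e
      rw [← mul_assoc] at this
      rw [mulVec_single_one]
      exact this
    · exact sum_eq_zero fun c _ => mul_eq_zero_of_right _ (e5 c b hb)
  have e8 : M *ᵥ Pi.single X.one 1 = 0 := by
    have e : (η0 X K)ᵀ *ᵥ (M *ᵥ Pi.single X.one 1) = 0 := by
      rw [mulVec_mulVec, ← transpose_transpose M, ← transpose_mul, e3, mulVec_single_one]
      exact funext fun b => neg_eq_zero.mpr (congrFun (congrFun e7 b) b)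
    have e' : ((algebraMap ℂ K).mapMatrix X.η⁻¹)ᵀ * (η0 X K)ᵀ = 1 := by
      rw [← transpose_mul, η0, ← map_mul, H.ok.mul_inv, _root_.map_one, transpose_one]
    rw [← one_mulVec (M *ᵥ _), ← e', ← mulVec_mulVec, e, mulVec_zero]
  rw [← sub_eq_zero, ← hM]
  exact hx _ (fun k => by rw [e2, ← mulVec_mulVec, e8, mulVec_zero]) e5

theorem z_rel (j : ℕ) : z F (n + 2 + j) 1 [] = c * z F (m + 2 + j) 1 [] := by
  have e1 : ∀ j, U0 F ^ (n + 2 + j) = c • U0 F ^ (m + 2 + j) := fun j => by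
    rw [pow_add, pow_add _ _ j, pow_rel hx hU h, smul_mul_assoc]
  have e2 : dpow (U0 F) (μ0 X K) (n + 2 + j) = c • dpow (U0 F) (μ0 X K) (m + 2 + j) := by
    induction j with
    | zero => exact dpow_rel H hx hU h
    | succ j ih =>
      rw [← add_assoc, ← add_assoc, dpow, dpow, ih, e1, smul_add, mul_smul_comm, mul_smul_comm]
  have e3 := z_nil H (n + 1 + j)
  have e4 := z_nil H (m + 1 + j)
  rw [add_right_comm] at e3 e4
  rw [← neg_inj, ← mul_neg, e3, e4, e1, e2]
  simp only [mul_smul_comm, Matrix.smul_apply, smul_eq_mul, mul_add, mul_sum, mul_left_comm c]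

theorem lam_zero [IsDomain K] (hc : c ≠ 0) (hnm : m < n) (j : ℕ) :
    ∑ a, z F 2 1 [(0, a)] * (U0 F ^ (m + 1 + j)) a X.one = 0 := by
  obtain ⟨L, hL⟩ : ∃ L : ℕ → K,
    L = fun k => ∑ a, z F 2 1 [(0, a)] * (U0 F ^ k) a X.one := ⟨_, rfl⟩
  have e1 : ∀ j, L (n + 2 + j) = c * L (m + 2 + j) := fun j => by
    simp only [hL]
    rw [pow_add, pow_add _ _ j, pow_rel hx hU h, smul_mul_assoc, mul_sum]
    simp only [Matrix.smul_apply, smul_eq_mul, mul_left_comm c]
  have e2 : ∀ j : ℕ, ((n + 2 + j : ℕ) : ℂ) • L (n + 1 + j) =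
      ((m + 2 + j : ℕ) : ℂ) • (c * L (m + 1 + j)) := fun j => by
    have e := z_rel H hx hU h j
    rw [add_right_comm n, add_right_comm m, show n + j + 2 = n + 1 + j + 1 by ring,
      show m + j + 2 = m + 1 + j + 1 by ring, z_nil' H, z_nil' H, mul_smul_comm] at e
    simp only [hL]
    push_cast at e ⊢
    linear_combination (norm := module) (2 : ℂ) • e
  have e3 : ∀ j, L (m + 2 + j) = 0 := fun j => by
    have e := e2 (j + 1)
    rw [show n + 1 + (j + 1) = n + 2 + j by ring, show m + 1 + (j + 1) = m + 2 + j by ring, e1,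
      ← sub_eq_zero, ← sub_smul] at e
    refine (mul_eq_zero_iff_left hc).mp (smul_cancel ?_ e)
    rw [sub_ne_zero, Ne, Nat.cast_inj]
    omega
  have e4 : L (m + 1 + j) = 0 := by
    cases j with
    | zero =>
      have e := e2 0
      rw [show n + 1 + 0 = m + 2 + (n - m - 1) by omega, e3, smul_zero] at e
      exact (mul_eq_zero_iff_left hc).mp (smul_cancel (Nat.cast_ne_zero.mpr (by omega)) e.symm)
    | succ j => rw [show m + 1 + (j + 1) = m + 2 + j by ring, e3]
  simpa only [hL] using e4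

end rel

end Vale.Agent.P269.Tgt
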