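import Vale.Agent.P269.Bridge

/-!
The results in terms of the definitions of the statements.
-/

namespace Vale.Agent.P269.GW

open scoped PowerSeries

variable {Y : CI} {F : ℕ → A Y.tgt}

theorem Base.genus0 (H : Base Y F) (n : ℕ) : Vir F n 0 :=
  vir_iff.mpr (H.g0.vir_zero H.dil.br (vir_iff.mp (H.l0 0)) n)

theorem finite_many (hD : 2 ≤ Y.D) (hs : ∀ g, Symm (F g)) (hd : Dim Y.r F) (h0 : ∀ g, Vir F 0 g)
    (g d : ℕ) (hg : 1 ≤ g) (h : ∀ (n : ℕ) l, (n : ℤ) ≤ Y.r * d - (Y.D - 3) * (g - 1) + 1 →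
      PowerSeries.coeff d (z F n g l) = 0) (n : ℕ) (l) : PowerSeries.coeff d (z F n g l) = 0 := by
  obtain ⟨g, rfl⟩ := Nat.exists_eq_add_of_le' hg
  rw [z_ap]
  refine Y.finite_many hD _ (fun g => (hs g).br) hd.br (fun g => vir_iff.mp (h0 g)) g d
    (fun n l hn => ?_) n l
  rw [← z_ap]
  exact h n l (by simpa using hn)

theorem Base.low (H : Base Y F) (hD : 2 ≤ Y.D) (g d : ℕ) (h : Y.r * d ≤ (Y.D - 3) * (g - 1))
    (n : ℕ) (l) : PowerSeries.coeff d (z F n g l) = 0 := by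
  rcases Nat.eq_zero_or_pos g with rfl | hg
  · rw [H.genus0 n l, map_zero]
  refine finite_many hD H.symm H.dim H.str g d hg (fun n l hn => ?_) n l
  obtain rfl | rfl : n = 0 ∨ n = 1 := by omega
  · rw [H.str g l, map_zero]
  · rw [H.l0 g l, map_zero]

theorem Base.nef (H : Base Y F) (hD : 3 ≤ Y.D) (hr : Y.r ≤ 0) (n g : ℕ) : Vir F n g := by
  rcases g with _ | g
  · exact H.genus0 n
  · exact vir_iff.mpr (Y.nef hD hr _ (fun g => (H.symm g).br) H.dim.br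
      (fun g => vir_iff.mp (H.str g)) (fun g => vir_iff.mp (H.l0 g)) n g)

theorem Base.one (H : Base Y F) (t1 : TRR1 (F 0) (F 1)) (hg : Getzler (F 0) (F 1))
    (p0 : PrimEven Y (F 0)) (hr : 0 < Y.r) (h1 : ∀ i, z F 2 1 [(0, Sum.inl i)] = 0)
    (h2 : ∀ l : List Y.P, z F 2 1 (l.map fun a => (0, Sum.inr a)) = 0) (n : ℕ) : Vir F n 1 :=
  vir_iff.mpr (CI.vir_one (H.g1 t1 hg) hr H.dim.br p0.br (fun i => (z_ap F _ _ _).symm.trans (h1 i))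
    (fun l => (z_ap F _ _ _).symm.trans (h2 l)) n)

theorem Base.one' (H : Base Y F) (t1 : TRR1 (F 0) (F 1)) (hg : Getzler (F 0) (F 1))
    (p0 : PrimEven Y (F 0)) (p1 : PrimEven Y (F 1)) (hR : Rel Y (F 0)) (hr : 2 ≤ Y.r)
    (hr' : Y.r + 1 ≤ Y.D)
    (h : ∀ k : ℕ, 1 ≤ k → Y.r ∣ k → k + Y.r + 1 ≤ Y.D → z F (k + 1) 1 [] = 0)
    (h' : ∀ (k : ℕ) (l : List Y.P), l.length = 2 * k → Y.r ∣ k * (Y.D - 2) + 1 →
      z F 2 1 (l.map fun a => (0, Sum.inr a)) = 0) (n : ℕ) : Vir F n 1 :=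
  vir_iff.mpr (CI.vir_one' (H.g1 t1 hg) hr hr' H.dim.br p0.br p1.br hR.br
    (fun k a b c => (z_ap F _ _ _).symm.trans (h k a b c))
    (fun k l a b => (z_ap F _ _ _).symm.trans (h' k l a b)) n)

theorem Base.one'' (H : Base Y F) (t1 : TRR1 (F 0) (F 1)) (hg : Getzler (F 0) (F 1))
    (p0 : PrimEven Y (F 0)) (p1 : PrimEven Y (F 1)) (hR : Rel Y (F 0)) (hr : 2 ≤ Y.r)
    (hr' : Y.r + 1 ≤ Y.D) (h2 : Y.D ≤ 2 * Y.r) (hc : ¬IsCoprime Y.r (Y.D - 2)) (n : ℕ) :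
    Vir F n 1 :=
  vir_iff.mpr (CI.vir_one'' (H.g1 t1 hg) hr hr' h2 hc H.dim.br p0.br p1.br hR.br n)

end Vale.Agent.P269.GW
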