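import Vale.Agent.P269.Kop

/-! The genus 1 Virasoro expressions are determined by their values on the small phase space. -/

noncomputable section

namespace Vale.Agent.P269.Tgt

open Finset Ser Matrix

variable {X : Tgt} {K : Type} [CommRing K] [Algebra ℂ K]

/-- The gradient, as a matrix with equal rows. -/
def grad (m : ℕ) (f : X.S K) : Mat X K := jac m fun _ => f

/-- The second order term of the genus 1 Virasoro expression. -/
def Q (F : X.S K) (n : ℕ) : X.S K := (1 / 2 : ℂ) • T n fun s a t b => dz t b (dz s a F)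

theorem em_μd (y : ℂ) : EM (cm (X.μd y) : Mat X K) :=
  em_cm fun a b h => by
    by_cases e : a = b
    · rw [e]
    · exact (h (diagonal_apply_ne _ e)).elim

theorem Ok.em_M (H : X.Ok) (n i : ℕ) (j : ℤ) : EM (cm (X.M n i j) : Mat X K) :=
  em_cm fun _ _ h => H.M_par h

theorem cm_μd_add (y c : ℂ) : (cm (X.μd (y + c)) : Mat X K) = cm (X.μd y) + c • 1 := by
  rw [μd_add, map_add, cm_smul, _root_.map_one]

theorem W_succ (F : X.S K) (c : ℤ) (k : ℕ) :
    W F (c + 1) (k + 1) = W F c (k + 1) + ((k : ℂ) + 1) • U F ^ k := by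
  have e : (cm (X.μd ((c + 1 : ℤ) + 1 / 2)) : Mat X K) = cm (X.μd (c + 1 / 2)) + 1 := by
    rw [show (((c + 1 : ℤ) : ℂ) + 1 / 2) = c + 1 / 2 + 1 by push_cast; ring, cm_μd_add, one_smul]
  induction k with
  | zero => simp only [W, e]; simp
  | succ k ih =>
    rw [W, ih, e, W.eq_2 F c (k + 1), mul_add, mul_smul_comm, ← pow_succ', add_mul, one_mul]
    push_cast
    module

theorem VT.map_U {δ : X.S K → X.S K} (h : VT δ) (F : X.S K) : (U F).map δ =
    (Γ F 0 0).map δ * cm (X.μd (1 / 2)) - cm (X.μd (-1 / 2)) * (Γ F 0 0).map δ := by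
  simp only [U, h.mat_add, h.mat_sub, h.mat_mul, h.mat_cm, mul_zero, zero_mul, add_zero, zero_add]

theorem WD.grad_str {F : X.S K} (H : WD F) (hU : Mu F (U F)) (k : ℕ) :
    grad 0 (str (U F ^ (k + 1))) = ((k : ℂ) + 1) • (grad 0 (lp F) * U F ^ k) := by
  refine ext_EV fun v hv => funext fun c => ?_
  have h1 := hU.pow k
  have h2 := H.em_A hv
  rw [smul_mulVec, ← mulVec_mulVec, Pi.smul_apply, grad, grad, jac_mulVec, jac_mulVec,
    hv.vt.str_pow hU.em, ← H.str_A (h1.em.mulVec hv), h1.eq v hv, hv.vt.map_U, ← A, mul_sub,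
    str_sub, ← mul_assoc, ← mul_assoc, str_comm (h1.em.mul (em_μd _)) h2, ← mul_assoc,
    ← H.mu_comm h1 hv, ← str_sub, ← mul_sub,
    show (1 / 2 : ℂ) = -1 / 2 + 1 by ring, cm_μd_add]
  simp

namespace G0

variable {F : ℕ → X.S K} (H : G0 F)
include H

theorem em_Γz (n m : ℤ) : EM (Γz (F 0) n m) := by
  obtain ⟨n, rfl⟩ | ⟨n, rfl⟩ := int_cases n
  · obtain ⟨m, rfl⟩ | ⟨m, rfl⟩ := int_cases m
    · rw [Γz_nat]; exact H.em n m
    · rw [Γz_right _ _ (by omega)]; exact em_zero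
  · rw [Γz_left _ (by omega)]; exact em_zero

theorem em_Sm (j : ℤ) : EM (Sm (F 0) j) := by
  unfold Sm
  split_ifs
  · exact em_one
  · exact H.em_Γz _ _

theorem em_Hh (m : ℕ) (j : ℤ) : EM (Hh (F 0) m j) := by
  refine EM.add ?_ ((H.em_Γz _ _).smul _)
  split_ifs
  · exact em_one
  · exact em_zero

theorem map_Γz {δ : X.S K → X.S K} (h : VT δ) (j : ℤ) (s : ℕ) : (Γz (F 0) (-j) s).map δ =
    ((-1 : ℂ) ^ j) • (Hh (F 0) 0 j * (Γ (F 0) 0 0).map δ * Sm (F 0) s) := by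
  have e : (Γ (F 0) 0 s).map δ = (Γ (F 0) 0 0).map δ * Sm (F 0) s := by
    cases s with
    | zero => rw [Nat.cast_zero, Sm_zero, mul_one]
    | succ s => rw [Sm_succ, H.vT1 h]
  obtain ⟨n, rfl⟩ | ⟨n, rfl⟩ := int_cases j
  · cases n with
    | zero =>
      rw [Hh_nat, show -((0 : ℕ) : ℤ) = (0 : ℕ) by simp, Γz_nat, e]
      simp
    | succ n => rw [Hh_nat, Γz_left _ (by omega), h.mat_zero]; simp
  · rw [Hh_neg, show -(-(n : ℤ) - 1) = (n + 1 : ℕ) by push_cast; ring, Γz_nat, H.vT2 h, e,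
      show -(n : ℤ) - 1 = -(n + 1 : ℕ) by push_cast; ring, _root_.zpow_neg, zpow_natCast,
      smul_mul_assoc, smul_mul_assoc, smul_smul, inv_mul_cancel₀ (by simp), one_smul, mul_assoc]

theorem z_one (n : ℕ) : z F n 1 = Kop (F 0) n (F 1) + Q (F 0) n +
    if n = 1 then X.ρ • (1 : X.S K) else 0 := by
  have e : G2 F 1 = fun s a t b => G2 F 1 s a t b := rfl
  rw [z_eq, e]
  simp only [G2, one_ne_zero, if_false, Finset.Nat.sum_antidiagonal_succ (n := 0),
    Finset.Nat.antidiagonal_zero, sum_singleton, T_add, Nat.sub_self, zero_add, add_zero,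
    H.ok.T_comm (H.even 0) (H.even 1), Kop, Q, true_and]
  congr 1
  module

theorem flat_Q (n : ℕ) : Flat (F 0) (Q (F 0) n) :=
  (flat_sum fun _ _ => flat_sum fun _ _ => flat_sum fun _ _ => flat_sum fun _ _ =>
    (H.flat_dz _ _ _ _).smul _).smul _

theorem grad_F1 (h1 : TRR1 (F 0) (F 1)) (m : ℕ) : grad (m + 1) (F 1) =
    grad 0 (F 1) * Γ (F 0) 0 m + (1 / 24 : ℂ) • grad m (lp (F 0)) := by
  ext c a : 2
  have e := H.ok.contr (H.symm 0) (H.even 0) m a (p := false) fun c => (H.even 1).der (0, c)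
  simp only [tw_false] at e
  simp only [grad, jac_apply, Matrix.add_apply, Matrix.mul_apply, Matrix.smul_apply, h1 m a,
    smul_add, sum_add_distrib, e, lp, der_sum, der_smulR, smul_sum]
  congr 1
  refine sum_congr rfl fun b _ => sum_congr rfl fun c _ => ?_
  by_cases h : X.η⁻¹ b c = 0
  · simp [h]
  · rw [smul_comm, ((H.symm 0).der _).swap (0, c) (m, a), (H.symm 0).swap (0, b) (m, a), der_smul,
      smul_smul (sg _ : K), H.ok.inv_par h, sg_mul_self, one_smul]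

theorem grad_lp (m : ℕ) : grad (m + 1) (lp (F 0)) = grad 0 (lp (F 0)) * Γ (F 0) 0 m :=
  jac_flat (fun _ => H.flat_lp) m

theorem symm_lp : Symm (lp (F 0)) :=
  symm_sum fun _ _ => symm_sum fun _ _ => (((H.symm 0).der _).der _).smul _

variable (hz : z F 1 0 = 0)
include hz

theorem Kop_one (k : ℕ) : (Γ (F 0) k 0).map (Kop (F 0) 1) + Γ (F 0) k 0 * cm (X.μd (1 / 2)) +
    ((-1 : ℂ) ^ k) • Dc 0 (Hh (F 0) 0) (-k) = 0 := by
  have e := H.Kop_Γ hz k 0
  have e1 := Hh_nat (F 0) 0 1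
  have e0 := Hh_nat (F 0) 0 0
  rw [Λ_eq _ (N := 1) fun j hj => by
    have e2 := Hh_nat (F 0) 0 (j + 1)
    push_cast at e2
    simp [Dc, e2, Hh_nat, show j ≠ 0 by omega]] at e
  simp only [Nat.cast_one, Nat.cast_zero] at e0 e1
  simp only [range_one, sum_singleton, Function.iterate_one, Nat.cast_zero, zero_add] at e
  rw [Dc, sub_self, e0, e1] at e
  norm_num at e ⊢
  exact e

theorem Kop_U : (Γ (F 0) 0 0).map (Kop (F 0) 1) = -U (F 0) := by
  have e := H.Kop_one hz 0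
  have e1 := Hh_neg (F 0) 0 0
  have e0 := Hh_nat (F 0) 0 0
  simp only [Nat.cast_zero, neg_zero, pow_zero, one_smul, Dc, if_true, zero_add, pow_one,
    Int.cast_zero, neg_one_smul] at e e0 e1
  rw [e0, e1, show (0 - 1 / 2 : ℂ) = -1 / 2 by ring] at e
  rw [← sub_eq_zero, ← e, U]
  noncomm_ring

theorem mu_U : Mu (F 0) (U (F 0)) := by
  have := (H.wd.mu_map (H.vt_Kop 1)).neg
  rwa [H.Kop_U hz, neg_neg] at this

theorem hd : HD (F 0) := by
  funext j
  simp only [rm, Zs, Pi.add_apply]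
  have e1 := Hh_neg (F 0) 0 0
  have e0 := Hh_nat (F 0) 0 0
  simp only [Nat.cast_zero, neg_zero, if_true, zero_add, pow_one, neg_one_smul] at e0 e1
  obtain ⟨j, rfl⟩ | ⟨n, rfl⟩ := int_cases j
  · rcases j with _ | _ | j
    · simp only [Dc, Nat.cast_zero, e0, e1, Int.cast_zero, U, show (0 + 0 - 1 / 2 : ℂ) = -1 / 2 by
        ring]
      noncomm_ring
    · rw [Dc, Hh_nat]
      norm_num [e0]
    · rw [Dc, Hh_nat, Nat.cast_add_one (j + 1), add_sub_cancel_right, Hh_nat]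
      simp
  · have e := H.Kop_one hz (n + 1)
    rw [H.vT2 (H.vt_Kop 1), H.Kop_U hz, show -((n + 1 : ℕ) : ℤ) = -n - 1 by push_cast; ring] at e
    have e2 := congrArg (fun u => ((-1 : ℂ) ^ (n + 1)) • u) e
    simp only [smul_add, smul_smul, ← mul_pow, neg_mul_neg, one_mul, one_pow, one_smul,
      smul_zero] at e2
    rw [eq_neg_of_add_eq_zero_right e2, show -(n : ℤ) - 1 - 1 = -(n + 1 : ℕ) - 1 by
      push_cast; ring, Hh_neg, Hh_neg, mul_neg, smul_mul_assoc, smul_mul_assoc]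
    module

theorem jac_Kop {G : X.ι → X.S K} (hG : ∀ c, Symm (G c)) {r : ℕ → Mat X K}
    (h1 : ∀ m, jac (m + 1) G = jac 0 G * Γ (F 0) 0 m + r m)
    (h2 : ∀ m, r (m + 1) = r 0 * Γ (F 0) 0 m) (n m : ℕ) :
    jac m (fun c => Kop (F 0) n (G c)) = (jac m G).map (Kop (F 0) n) +
      (jac 0 G * (W (F 0) 0 n * Sm (F 0) m + U (F 0) ^ n * Sm (F 0) (m - 1)) +
      r 0 * (V (F 0) 0 n * Sm (F 0) m + W (F 0) (0 + 1) n * Sm (F 0) (m - 1) +
        U (F 0) ^ n * Sm (F 0) (m - 2))) := by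
  rw [H.ok.jac_Kop (H.even 0) hG, H.jet_one ((H.jet_Hh m).iter (H.hd hz) 0 n) h1 h2]

theorem map_Q {δ : X.S K → X.S K} (h : VT δ) (n : ℕ) :
    δ (Q (F 0) n) = (-1 / 2 : ℂ) • Tgt.str (V (F 0) (-1) n * (Γ (F 0) 0 0).map δ) := by
  have e1 := H.jet_two ((jet_Hh_zero (F 0)).iter (H.hd hz) (-1) n)
    (r := fun m => Sm (F 0) m) fun m => by rw [Sm_succ, Nat.cast_zero, Sm_zero, one_mul]
  simp only [Nat.cast_zero, Sm_zero, one_mul, mul_one, mul_zero, add_zero] at e1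
  rw [Λ_eq _ (N := n) fun j hj => by
    rw [H.ok.Dc_iter]
    refine sum_eq_zero fun i _ => ?_
    obtain ⟨u, hu⟩ : ∃ u : ℕ, (j : ℤ) + 2 - n + i = (u + 1 : ℕ) := ⟨j + 1 - n + i, by omega⟩
    rw [hu, Hh_nat]; simp] at e1
  have e2 : T n (fun s a t b => dz t b (dz s a (F 0))) = ∑ i ∈ range (n + 1), ∑ s ∈ range n,
      ((-1 : ℂ) ^ ((s : ℤ) + 1 - n + i)) • Tgt.str (cm (X.M n i (s + 1 - n + i)) *
        Γz (F 0) (-(s + 2 - n + i)) s) := by
    refine sum_congr rfl fun i _ => sum_congr rfl fun s _ => ?_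
    simp only [Tgt.str, smul_sum, cm_mul_apply, Γz, of_apply]
    refine sum_congr rfl fun a _ => ?_
    rw [sum_comm]
    refine sum_congr rfl fun b _ => ?_
    by_cases h0 : κ n i s a b = 0
    · have h1 := h0
      rw [H.ok.κ_eq', mul_eq_zero_iff_left (zpow_ne_zero _ (by norm_num)), Matrix.mul_apply] at h1
      simp only [h0, zero_smul, smul_smul, ← sum_smul, ← mul_sum, h1, mul_zero]
    · rw [dz_swap (H.symm 0), ← H.ok.κ_par h0, Bool.and_self, H.ok.κ_eq', Matrix.mul_apply,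
        show (-(s + 2 - n + i) : ℤ) = n - 2 - i - s by ring]
      simp only [← sgR_smul (R := ℂ), smul_smul, ← sum_smul, ← mul_sum]
      congr 1
      ring
  rw [Q, h.map_smul, e2, ← e1, show (-1 / 2 : ℂ) = 1 / 2 * -1 by ring, mul_smul, neg_one_smul]
  simp only [h.map_sum, h.map_smul, h.str, h.mat_mul, h.mat_cm, zero_mul, add_zero, H.map_Γz h,
    H.ok.Dc_iter, sum_mul, mul_sum, str_sum, ← sum_neg_distrib]
  rw [sum_comm]
  congr 1
  refine sum_congr rfl fun s _ => sum_congr rfl fun i _ => ?_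
  rw [mul_smul_comm, str_smul, smul_smul, ← zpow_add₀ (by norm_num), ← mul_assoc,
    str_comm ((H.ok.em_M _ _ _).mul ((H.em_Hh _ _).mul ((H.em 0 0).map h))) (H.em_Sm s),
    show ((s : ℤ) + 1 - n + i + (s + 2 - n + i)) = 2 * (s + 1 - n + i) + 1 by ring,
    zpow_add₀ (by norm_num), _root_.zpow_mul,
    show ((s : ℤ) + 2 - n + i + -1) = s + 1 - n + i by ring]
  simp [mul_assoc]

variable {n : ℕ} (hn : z F n 0 = 0)
include hn

theorem Kop_Γ0 (m : ℕ) : (Γ (F 0) 0 m).map (Kop (F 0) n) = -(U (F 0) ^ n * Sm (F 0) m) := by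
  have e := H.Kop_Γ hn 0 m
  simp only [Nat.cast_zero, neg_zero, pow_zero, one_smul, add_assoc] at e
  rw [H.jet_Φ ((H.jet_Hh m).iter (H.hd hz) 0 n)] at e
  exact eq_neg_of_add_eq_zero_left e

theorem Kop_Sm (m : ℕ) : (Sm (F 0) m).map (Kop (F 0) n) = -(U (F 0) ^ n * Sm (F 0) (m - 1)) := by
  cases m with
  | zero => rw [Nat.cast_zero, Sm_zero, (H.vt_Kop n).mat_one, Sm_neg _ (by norm_num)]; simp
  | succ m => rw [Sm_succ, H.Kop_Γ0 hz hn]; simp

end G0

theorem G0.flat_z {F : ℕ → X.S K} (H : G0 F) (hz : z F 1 0 = 0) (h1 : TRR1 (F 0) (F 1)) {n : ℕ}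
    (hn : z F n 0 = 0) : Flat (F 0) (z F n 1) := by
  cases n with
  | zero => rw [H.str]; exact flat_zero _
  | succ k =>
  have hK := H.vt_Kop (k + 1)
  have e1 : (grad 0 (lp (F 0))).map (Kop (F 0) (k + 1)) =
      -(grad 0 (lp (F 0)) * W (F 0) (0 + 1) (k + 1)) := by
    have e := H.jac_Kop hz (fun _ => H.symm_lp) (r := fun _ => 0)
      (fun m => by rw [add_zero]; exact H.grad_lp m) (fun _ => (zero_mul _).symm) (k + 1) 0
    have e2 : Kop (F 0) (k + 1) (lp (F 0)) = (-1 : ℂ) • Tgt.str (U (F 0) ^ (k + 1)) := by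
      rw [← H.ok.str_Γ, hK.str, H.Kop_Γ0 hz hn, str_neg, Nat.cast_zero, Sm_zero, mul_one,
        neg_one_smul]
    have e3 : jac 0 (fun _ => (-1 : ℂ) • Tgt.str (U (F 0) ^ (k + 1))) =
        -grad 0 (Tgt.str (U (F 0) ^ (k + 1))) := by
      ext c a : 2
      simp [grad, jac_apply]
    rw [e2, e3, H.wd.grad_str (H.mu_U hz), Nat.cast_zero, Sm_zero, Sm_neg _ (by norm_num)] at e
    rw [W_succ, grad, ← sub_eq_iff_eq_add.mpr e, grad]
    simp only [mul_one, mul_zero, add_zero, zero_mul, mul_add, mul_smul_comm]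
    abel
  have e2 : ∀ m : ℕ, grad m (lp (F 0)) = grad 0 (lp (F 0)) * Sm (F 0) m := by
    intro m
    cases m with
    | zero => rw [Nat.cast_zero, Sm_zero, mul_one]
    | succ m => rw [Sm_succ, H.grad_lp]
  have e3 := H.jac_Kop hz (fun _ => H.symm 1) (r := fun m => (1 / 24 : ℂ) • grad m (lp (F 0)))
    (H.grad_F1 h1) (fun m => by rw [H.grad_lp, smul_mul_assoc]) (k + 1)
  have e4 : Flat (F 0) (Kop (F 0) (k + 1) (F 1)) := by
    intro m a
    have e5 := e3 (m + 1)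
    have e6 := e3 0
    rw [show jac (m + 1) (fun _ => F 1) = grad (m + 1) (F 1) from rfl, H.grad_F1 h1, e2 m,
      hK.mat_add, hK.mat_smul, hK.mat_mul, hK.mat_mul, e1, H.Kop_Γ0 hz hn, H.Kop_Sm hz hn, Sm_succ,
      show ((m + 1 : ℕ) - 1 : ℤ) = m by push_cast; ring,
      show ((m + 1 : ℕ) - 2 : ℤ) = m - 1 by push_cast; ring] at e5
    rw [Nat.cast_zero, Sm_zero, Sm_neg _ (by norm_num), Sm_neg _ (by norm_num)] at e6
    have e7 : jac (m + 1) (fun _ => Kop (F 0) (k + 1) (F 1)) =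
        jac 0 (fun _ => Kop (F 0) (k + 1) (F 1)) * Γ (F 0) 0 m := by
      rw [e5, e6, grad]
      simp only [mul_one, mul_zero, add_zero, mul_add, add_mul, smul_mul_assoc, mul_neg, neg_mul,
        mul_assoc, smul_add, smul_neg]
      abel
    exact congrFun (congrFun e7 a) a
  rw [H.z_one]
  refine (e4.add (H.flat_Q _)).add ?_
  split_ifs
  · exact Flat.smul (fun m a => by simp) _
  · exact flat_zero _

end Vale.Agent.P269.Tgt
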