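import Vale.Agent.P269.VT

/-! Correlation functions of vector fields, and the quantum product. -/

noncomputable section

namespace Vale.Agent.P269.Tgt

open Finset Ser Matrix

variable {X : Tgt} {K : Type} [CommRing K] [Algebra ℂ K]

section cor
omit [Algebra ℂ K]

/-- The derivative along a vector field on the small phase space. -/
def Dv (v : X.ι → X.S K) (f : X.S K) : X.S K := ∑ a, der (0, a) f * v a

theorem EV.vt {v : X.ι → X.S K} (hv : EV v) : VT (Dv v) := by
  have := vt_sum univ (fun a f => dz 0 a f * v a) fun a _ => vt_dz 0 a (hv a)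
  simp only [dz_zero'] at this
  exact this

theorem cor_one (f : X.S K) (v : X.ι → X.S K) : cor f [v] = Dv v f := rfl

theorem cor_cons (f : X.S K) (v : X.ι → X.S K) (vs : List (X.ι → X.S K)) :
    cor f (v :: vs) = ∑ a, cor (der (0, a) f) vs * v a := rfl

theorem cor_smul {R : Type} [CommRing R] [Algebra R K] (c : R) (vs : List (X.ι → X.S K)) :
    ∀ f : X.S K, cor (c • f) vs = c • cor f vs := by
  induction vs with
  | nil => intro f; rfl
  | cons v vs ih => intro f; simp only [cor_cons, der_smulR, ih, smul_mul_assoc, smul_sum]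

theorem cor_add (vs : List (X.ι → X.S K)) :
    ∀ f g : X.S K, cor (f + g) vs = cor f vs + cor g vs := by
  induction vs with
  | nil => intro f g; rfl
  | cons v vs ih => intro f g; simp only [cor_cons, der_add, ih, add_mul, sum_add_distrib]

theorem cor_zero (vs : List (X.ι → X.S K)) : cor (0 : X.S K) vs = 0 := by
  simpa using cor_smul (0 : K) vs 0

theorem cor_sum {α : Type} (vs : List (X.ι → X.S K)) (s : Finset α) (f : α → X.S K) :
    cor (∑ i ∈ s, f i) vs = ∑ i ∈ s, cor (f i) vs :=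
  map_sum (AddMonoidHom.mk' (fun f => cor f vs) (cor_add vs)) f s

theorem cor_swap {f : X.S K} (hf : Symm f) {v w : X.ι → X.S K} (hv : EV v) (hw : EV w)
    (vs : List (X.ι → X.S K)) : cor f (v :: w :: vs) = cor f (w :: v :: vs) := by
  simp only [cor_cons, sum_mul]
  rw [sum_comm]
  refine sum_congr rfl fun b _ => sum_congr rfl fun a _ => ?_
  rw [hf.swap, cor_smul, mul_assoc, mul_assoc, (hv a).comm_sg (hw b), smul_mul_assoc,
    mul_smul_comm]

theorem cor_perm {l l' : List (X.ι → X.S K)} (h : l.Perm l') :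
    ∀ {f : X.S K}, Symm f → (∀ v ∈ l, EV v) → cor f l = cor f l' := by
  induction h with
  | nil => intro f _ _; rfl
  | cons v _ ih =>
    intro f hf hl
    simp only [cor_cons]
    exact sum_congr rfl fun a _ => by rw [ih (hf.der _) fun w hw => hl w (by simp [hw])]
  | swap v w l => intro f hf hl; exact cor_swap hf (hl _ (by simp)) (hl _ (by simp)) l
  | trans h1 _ ih1 ih2 =>
    intro f hf hl
    rw [ih1 hf hl, ih2 hf fun v hv => hl v (h1.mem_iff.mpr hv)]

theorem par_cor (vs : List (X.ι → X.S K)) : ∀ {p : Bool} {f : X.S K}, Par p f →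
    (∀ v ∈ vs, EV v) → Par p (cor f vs) := by
  induction vs with
  | nil => intro p f hf _; exact hf
  | cons v vs ih =>
    intro p f hf h
    exact par_sum fun a _ => ((ih (hf.der (0, a)) fun w hw => h w (by simp [hw])).mul
      (h v (by simp) a)).cast (by cases p <;> simp)

theorem D_cor {w : X.ι → X.S K} (hw : EV w) (f : X.S K) (v : X.ι → X.S K)
    (vs : List (X.ι → X.S K)) : Dv w (cor f (v :: vs)) =
      cor f ((fun a => Dv w (v a)) :: vs) + ∑ a, Dv w (cor (der (0, a) f) vs) * v a := by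
  simp only [cor_cons, hw.vt.map_sum, hw.vt.map_mul, sum_add_distrib]

/-- The matrix of the derivatives of a vector. -/
def jac (m : ℕ) (G : X.ι → X.S K) : Mat X K := of fun c a => der (m, a) (G c)

omit [CommRing K] in
theorem jac_apply (m : ℕ) (G : X.ι → X.S K) (c a : X.ι) : jac m G c a = der (m, a) (G c) := rfl

theorem EV.jac {G : X.ι → X.S K} (h : EV G) (m : ℕ) : EM (jac m G) := fun c a =>
  (h c).der (m, a)

theorem jac_mulVec (G v : X.ι → X.S K) (c : X.ι) : (jac 0 G *ᵥ v) c = Dv v (G c) := rfl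

end cor

/-- The vector `η⁻¹ ∇_n F`. -/
def pp (F : X.S K) (n : ℕ) (c : X.ι) : X.S K := ∑ b, X.η⁻¹ c b • der (n, b) F

/-- The matrices of the second derivatives. -/
def Γ (F : X.S K) (n m : ℕ) : Mat X K := jac m (pp F n)

/-- The matrix of the quantum product with `v`. -/
def A (F : X.S K) (v : X.ι → X.S K) : Mat X K := (Γ F 0 0).map (Dv v)

theorem Γ_apply (F : X.S K) (n m : ℕ) (c a : X.ι) :
    Γ F n m c a = ∑ b, X.η⁻¹ c b • der (m, a) (der (n, b) F) := by
  simp only [Γ, jac_apply, pp, der_sum, der_smulR]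

theorem symm_pp {F : X.S K} (h : Symm F) (n : ℕ) (c : X.ι) : Symm (pp F n c) :=
  symm_sum fun _ _ => (h.der _).smul _

theorem symm_Γ {F : X.S K} (h : Symm F) (n m : ℕ) (c a : X.ι) : Symm (Γ F n m c a) :=
  (symm_pp h n c).der _

theorem Ok.ev_pp (H : X.Ok) {F : X.S K} (h : Par false F) (n : ℕ) : EV (pp F n) := fun c =>
  par_sum fun b _ => Par.smul' _ fun h0 => (h.der (n, b)).cast (by simp [H.inv_par h0])

theorem Ok.em_Γ (H : X.Ok) {F : X.S K} (h : Par false F) (n m : ℕ) : EM (Γ F n m) :=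
  (H.ev_pp h n).jac m

theorem Ok.str_Γ (H : X.Ok) (F : X.S K) : str (Γ F 0 0) = lp F := by
  simp only [str, Γ_apply, lp, smul_sum, smul_smul]
  rw [sum_comm]
  exact sum_congr rfl fun b _ => sum_congr rfl fun c _ => by
    rw [H.inv_sym c b, ← mul_assoc, sg_mul_self, one_mul]

theorem con_eq (F : X.S K) (vs : List (X.ι → X.S K)) (c : X.ι) :
    con F vs c = cor (pp F 0 c) vs := by
  simp only [con, pp, cor_sum, cor_smul]

theorem A_mulVec (F : X.S K) (v w : X.ι → X.S K) : A F v *ᵥ w = con F [w, v] := by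
  funext c
  rw [con_eq]
  rfl

/-- A potential that satisfies the associativity equation. -/
structure WD (F : X.S K) : Prop where
  ok : X.Ok
  symm : Symm F
  even : Par false F
  wdvv : ∀ x y : ℕ × X.ι, (Γ F 0 0).map (der y) * ((Γ F 0 0).map (der x)).map (tw (X.par y.2)) =
    (Γ F 0 0).map (der x) * ((Γ F 0 0).map (tw (X.par x.2))).map (der y)

/-- `B` is the quantum product with a vector field. -/
structure Mu (F : X.S K) (B : Mat X K) : Prop where
  em : EM B
  eq : ∀ v, EV v → A F (B *ᵥ v) = B * A F v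

omit [Algebra ℂ K] in
theorem map_tw_one (b : Bool) : (1 : Mat X K).map (tw b) = 1 :=
  Matrix.map_one _ (tw_zero b) (tw_one b)

theorem A_add (F : X.S K) (v w : X.ι → X.S K) : A F (v + w) = A F v + A F w := by
  ext c a : 2
  simp only [A, map_apply, Dv, Pi.add_apply, mul_add, sum_add_distrib, Matrix.add_apply]

theorem A_smul (F : X.S K) (c : ℂ) (v : X.ι → X.S K) : A F (c • v) = c • A F v := by
  ext b a : 2
  simp only [A, map_apply, Dv, Pi.smul_apply, mul_smul_comm, smul_sum, Matrix.smul_apply]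

theorem Mu.add {F : X.S K} {B C : Mat X K} (hB : Mu F B) (hC : Mu F C) : Mu F (B + C) :=
  ⟨hB.em.add hC.em, fun v hv => by rw [add_mulVec, A_add, hB.eq v hv, hC.eq v hv, add_mul]⟩

theorem Mu.smul {F : X.S K} {B : Mat X K} (hB : Mu F B) (c : ℂ) : Mu F (c • B) :=
  ⟨hB.em.smul c, fun v hv => by rw [smul_mulVec, A_smul, hB.eq v hv, smul_mul_assoc]⟩

theorem Mu.neg {F : X.S K} {B : Mat X K} (hB : Mu F B) : Mu F (-B) := by
  simpa using hB.smul (-1)

theorem Mu.mul {F : X.S K} {B C : Mat X K} (hB : Mu F B) (hC : Mu F C) : Mu F (B * C) :=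
  ⟨hB.em.mul hC.em, fun v hv => by
    rw [← mulVec_mulVec, hB.eq _ (hC.em.mulVec hv), hC.eq v hv, mul_assoc]⟩

theorem mu_one (F : X.S K) : Mu F 1 := ⟨em_one, fun v _ => by rw [one_mulVec, one_mul]⟩

theorem Mu.pow {F : X.S K} {B : Mat X K} (hB : Mu F B) (n : ℕ) : Mu F (B ^ n) := by
  induction n with
  | zero => simpa using mu_one F
  | succ n ih => rw [pow_succ]; exact ih.mul hB

namespace WD

variable {F : X.S K} (W : WD F)
include W

theorem em (n m : ℕ) : EM (Γ F n m) := W.ok.em_Γ W.even n m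

theorem em_A {v : X.ι → X.S K} (hv : EV v) : EM (A F v) := (W.em 0 0).map hv.vt

theorem A_symm {v w : X.ι → X.S K} (hv : EV v) (hw : EV w) : A F v *ᵥ w = A F w *ᵥ v := by
  funext c
  rw [A_mulVec, A_mulVec, con_eq, con_eq, cor_swap (symm_pp W.symm 0 c) hw hv]

theorem comm {δ δ' : X.S K → X.S K} (h : VT δ) (h' : VT δ') :
    (Γ F 0 0).map δ * (Γ F 0 0).map δ' = (Γ F 0 0).map δ' * (Γ F 0 0).map δ := by
  have e1 : ∀ x : ℕ × X.ι, (Γ F 0 0).map δ * (Γ F 0 0).map (der x) =
      (Γ F 0 0).map (der x) * ((Γ F 0 0).map δ).map (tw (X.par x.2)) := by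
    intro x
    have := h.mat_key (A := 1) (Y := Γ F 0 0) (B := (Γ F 0 0).map (der x))
      (A' := (Γ F 0 0).map (der x)) (Y' := (Γ F 0 0).map (tw (X.par x.2))) (B' := 1) fun y => by
        rw [one_mul, map_tw_one, mul_one, W.wdvv]
    rw [one_mul, mul_one] at this
    rw [this]
    congr 1
    ext c a : 2
    exact h.map_tw (W.em 0 0 c a) _
  have := h'.mat_key (A := (Γ F 0 0).map δ) (Y := Γ F 0 0) (B := 1)
    (A' := 1) (Y' := Γ F 0 0) (B' := (Γ F 0 0).map δ) fun y => by
      rw [one_mul, map_tw_one, mul_one, e1]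
  simpa using this

theorem mu_map {δ : X.S K → X.S K} (h : VT δ) : Mu F ((Γ F 0 0).map δ) := by
  have e := (W.em 0 0).map h
  refine ⟨e, fun v hv => ext_EV fun w hw => ?_⟩
  rw [W.A_symm (e.mulVec hv) hw, mulVec_mulVec, A, W.comm hw.vt h, ← mulVec_mulVec,
    ← mulVec_mulVec, ← A, W.A_symm hw hv]

theorem mu_A {v : X.ι → X.S K} (hv : EV v) : Mu F (A F v) := W.mu_map hv.vt

theorem mu_comm {B : Mat X K} (hB : Mu F B) {v : X.ι → X.S K} (hv : EV v) :
    B * A F v = A F v * B := ext_EV fun w hw => by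
  rw [← mulVec_mulVec, ← mulVec_mulVec, W.A_symm hv (hB.em.mulVec hw), hB.eq w hw,
    ← mulVec_mulVec, W.A_symm hv hw]

theorem str_A {v : X.ι → X.S K} (hv : EV v) : str (A F v) = Dv v (lp F) := by
  rw [A, ← hv.vt.str, W.ok.str_Γ]

end WD

theorem VT.str_pow {δ : X.S K → X.S K} (h : VT δ) {U : Mat X K} (hU : EM U) (n : ℕ) :
    δ (Tgt.str (U ^ (n + 1))) = ((n : ℂ) + 1) • Tgt.str (U ^ n * U.map δ) := by
  have : ∀ n m : ℕ, Tgt.str (U ^ m * (U ^ (n + 1)).map δ) =
      ((n : ℂ) + 1) • Tgt.str (U ^ (m + n) * U.map δ) := by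
    intro n
    induction n with
    | zero => intro m; simp
    | succ n ih =>
      intro m
      rw [pow_succ' U (n + 1), h.mat_mul, mul_add, str_add, ← mul_assoc, ← pow_succ, ih,
        ← mul_assoc, str_comm ((hU.pow m).mul (hU.map h)) (hU.pow _), ← mul_assoc, ← pow_add,
        show m + 1 + n = m + (n + 1) by ring, add_comm (n + 1) m]
      push_cast
      module
  simpa [h.str] using this n 0

end Vale.Agent.P269.Tgt
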