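import Vale.Agent.P269.Res

/-! The Virasoro constraints in genus 0. -/

noncomputable section

namespace Vale.Agent.P269.Tgt

open Finset Ser Matrix

variable {X : Tgt} {K : Type} [CommRing K] [Algebra ℂ K]

/-- The contraction with the dilaton vector field. -/
def dil (c : ℕ × X.ι → X.S K) : X.S K := sig c - c (1, X.one)

section
omit [Algebra ℂ K]

theorem dil_add (c d : ℕ × X.ι → X.S K) : dil (fun x => c x + d x) = dil c + dil d := by
  simp only [dil, sig_add]; abel

theorem dil_sum {α : Type} (s : Finset α) (c : α → ℕ × X.ι → X.S K) :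
    dil (fun x => ∑ i ∈ s, c i x) = ∑ i ∈ s, dil (c i) := by
  simp only [dil, sig_sum, sum_sub_distrib]

theorem dil_mul (f : X.S K) (c : ℕ × X.ι → X.S K) : dil (fun x => f * c x) = f * dil c := by
  simp only [dil, mul_sig, mul_sub]

theorem sig_der' (l : List (ℕ × X.ι)) : ∀ f : X.S K, Symm f →
    sig (fun x => der x f) l = (l.length : K) * f l := by
  induction l with
  | nil => intro f _; simp [sig_nil]
  | cons x l ih =>
    intro f hf
    have e : (fun y : ℕ × X.ι => (sg (X.par x.2 && X.par y.2) : K) • der x (der y f)) =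
        fun y => der y (der x f) := funext fun y => (hf.swap x y).symm
    rw [sig_cons, e, ih _ (hf.der x), List.length_cons]
    push_cast
    simp only [der]
    ring

end

theorem dil_smul (a : ℂ) (c : ℕ × X.ι → X.S K) : dil (fun x => a • c x) = a • dil c := by
  simp only [dil, sig_smul, smul_sub]

namespace G0

variable {F : ℕ → X.S K} (H : G0 F)
  (hd : ∀ l, F 0 ((1, X.one) :: l) = ((l.length : K) - 2) * F 0 l)
include H hd

theorem der_one_swap (x : ℕ × X.ι) (l : List (ℕ × X.ι)) :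
    F 0 (x :: (1, X.one) :: l) = ((l.length : K) - 1) * F 0 (x :: l) := by
  have := H.symm 0 [] l x (1, X.one)
  simp only [List.nil_append, H.ok.par_one, Bool.and_false, sg_false, one_mul] at this
  rw [this, hd, List.length_cons]
  push_cast
  ring

theorem dil_dz (t : ℤ) (b : X.ι) : dil (fun x => der x (dz t b (F 0))) = dz t b (F 0) := by
  unfold dz
  split_ifs
  · refine ext' fun l => ?_
    rw [dil, sub_ap, sig_der' _ _ ((H.symm 0).der _)]
    simp only [der, H.der_one_swap hd]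
    ring
  · simp [dil]

theorem Kop_dil (n : ℕ) (G : X.S K) : Kop (F 0) n G = dil fun x => Kc (F 0) n x G := by
  simp only [Kop, Kc, T, dil_add, dil_sum, dil_smul, dil_mul, H.dil_dz hd]
  rfl

omit hd in
theorem dil_Sm (c : X.ι) : dil (fun x => Sm (F 0) x.1 c x.2) = 0 := by
  have e1 : LL 0 (pp (F 0) 0 c) = -∑ a, (1 : Mat X K) c a * var (0, a) := by
    have e := fun b => H.ok.LL0_dz_F H.symm H.str 0 0 b
    simp only [dz_zero', dz_neg (show (-1 : ℤ) < 0 by norm_num), and_self, if_true, neg_zero,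
      zero_sub] at e
    simp only [pp, LL_sum, LL_smulC, e, tau, smul_neg, sum_neg_distrib, smul_sum, smul_smul]
    rw [sum_comm]
    simp only [← sum_smul, ← Matrix.mul_apply, H.ok.inv_mul, one_apply]
    simp
  have e2 : (fun x : ℕ × X.ι => Sm (F 0) x.1 c x.2) = fun x =>
      (if x.1 = 0 then (1 : Mat X K) c x.2 else 0) + Lz 0 x.1 x.2 (pp (F 0) 0 c) := by
    funext x
    obtain ⟨m, a⟩ := x
    cases m with
    | zero => simp [Sm_zero, Lz_zero, dz_neg]
    | succ m =>
      simp only [Sm_succ, Lz_zero]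
      simp [dz_nat, Γ, jac_apply]
  rw [e2, dil_add, dil, sig_prim fun a => (1 : Mat X K) c a, if_neg one_ne_zero, sub_zero,
    ← neg_eq_iff_add_eq_zero, ← e1]
  rfl

variable (hz : z F 1 0 = 0)
include hz

theorem Kop_Γ00 (n : ℕ) : (Γ (F 0) 0 0).map (Kop (F 0) n) = -U (F 0) ^ n := by
  obtain ⟨w, hw⟩ : ∃ w : X.ι → X.S K, w = fun c => dil fun x => Sm (F 0) (x.1 - 1) c x.2 :=
    ⟨_, rfl⟩
  have ew : EV w := fun c => by
    rw [hw]
    exact (par_sig fun y => H.em_Sm _ c y.2).sub ((H.em_Sm _ c X.one).cast (by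
      simp [H.ok.par_one]))
  have e1 : ∀ G, Flat (F 0) G → LL 0 G = Dv w G := by
    intro G hG
    simp only [hw, Dv, ← dil_mul, ← dil_sum]
    have : ∀ x : ℕ × X.ι, ∑ a, der (0, a) G * Sm (F 0) (x.1 - 1) a x.2 = Lz 0 x.1 x.2 G := by
      rintro ⟨m, b⟩
      rcases m with _ | _ | m
      · simp [Lz_zero, dz_neg, Sm_neg]
      · simp [Lz_zero, dz_zero', Sm_zero, one_apply]
      · simp only [Lz_zero, Nat.cast_add_one (m + 1), add_sub_cancel_right, Sm_succ, dz_nat,
          hG m b]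
    simp only [this]
    rfl
  have e2 : ∀ G, Symm G → Flat (F 0) G → Kop (F 0) n G = Dv (U (F 0) ^ n *ᵥ w) G := by
    intro G hs hG
    have e3 : ∀ x : ℕ × X.ι, Kc (F 0) n x G = ∑ c, (grad 0 G * W (F 0) 0 n) X.one c *
        Sm (F 0) x.1 c x.2 + ∑ c, (grad 0 G * U (F 0) ^ n) X.one c * Sm (F 0) (x.1 - 1) c x.2 := by
      intro x
      have := (H.ok.Kc_eq (F 0) (fun _ => G) n x.1).trans
        (H.jet_one ((H.jet_Hh x.1).iter (H.hd hz) 0 n) (r' := fun _ => 0)
          (fun m => by rw [add_zero]; exact jac_flat (fun _ => hG) m) fun _ => (zero_mul _).symm)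
      rw [zero_mul, add_zero, mul_add, ← mul_assoc, ← mul_assoc] at this
      exact congrFun (congrFun this X.one) x.2
    simp only [H.Kop_dil hd, e3, dil_add, dil_sum, dil_mul, H.dil_Sm, mul_zero, sum_const_zero,
      zero_add]
    rw [← jac_mulVec (fun _ => G) _ X.one, mulVec_mulVec, hw]
    rfl
  have e4 : A (F 0) w = -1 := by
    have e := H.LL0_Γz 0 0
    rw [Γz_left (n := 0 - 1) _ (by norm_num), Γz_right (m := 0 - 1) _ _ (by norm_num),
      if_pos ⟨rfl, rfl⟩, ← Nat.cast_zero (R := ℤ), Γz_nat, neg_zero, sub_zero, zero_sub] at e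
    rw [← e]
    ext c a : 2
    exact (e1 _ (H.flat_pp 0 c (0, a))).symm
  rw [← mul_neg_one, ← e4, ← ((H.mu_U hz).pow n).eq w ew]
  ext c a : 2
  exact e2 _ (symm_Γ (H.symm 0) 0 0 c a) (H.flat_pp 0 c (0, a))

theorem Γ_z_zero (n k m : ℕ) : Γ (z F n 0) k m = 0 := by
  obtain ⟨g, hg, e⟩ := (H.jet_Hh m).iter (H.hd hz) 0 n
  have e0 := H.lat_Φ ((Lat.base (W (F 0) 0 n * Sm (F 0) m + U (F 0) ^ n * Sm (F 0) (m - 1))).add
    ((Lat.base (V (F 0) 0 n * Sm (F 0) m + W (F 0) (0 + 1) n * Sm (F 0) (m - 1) +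
      U (F 0) ^ n * Sm (F 0) (m - 2))).add hg.shift).shift) k
  have e1 := H.map_Γz (H.vt_Kop n) (-k) m
  rw [neg_neg, Γz_nat, H.Kop_Γ00 hd hz, _root_.zpow_neg, zpow_natCast, ← inv_pow,
    inv_neg_one] at e1
  rw [← H.Γ_z, e, e1, Λ_congr _ (g := rm _ _ + Zs _) fun j => by
    rw [Pi.add_apply, rm, ← Nat.cast_add_one, Hh_nat, if_neg (by omega), zero_mul, zero_add, Zs,
      Nat.cast_add_one, add_sub_cancel_right], Pi.add_apply _ _ (-k : ℤ), smul_add, Zs,
    add_assoc, add_left_comm (Λ _ _), e0, rm]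
  simp [mul_assoc]

theorem der_der_z (n : ℕ) (x y : ℕ × X.ι) : der y (der x (z F n 0)) = 0 := by
  have e : (cm X.η : Mat X K) * Γ (z F n 0) x.1 y.1 = 0 := by rw [H.Γ_z_zero hd hz, mul_zero]
  have := congrFun (congrFun e x.2) y.2
  rw [cm_mul_apply] at this
  simp only [Γ_apply, smul_sum, smul_smul, Matrix.zero_apply] at this
  rw [sum_comm] at this
  simpa [← sum_smul, ← Matrix.mul_apply, H.ok.mul_inv, one_apply] using this

/-- The Virasoro constraints in genus 0. -/
theorem vir_zero (n : ℕ) : z F n 0 = 0 := by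
  have e1 : ∀ G, Kop (F 0) n G [] = -Kc (F 0) n (1, X.one) G [] := fun G => by
    rw [H.Kop_dil hd, dil, sub_ap, sig_nil, zero_sub]
  have e2 : ∀ G : X.S K, (∀ y, G [y] = 0) → ∀ x, Kc (F 0) n x G [] = 0 := by
    intro G hG x
    have : ∀ j b, dz j b G [] = 0 := fun j b => by
      unfold dz
      split_ifs
      · exact hG _
      · rfl
    simp only [Kc, Lz, T, add_ap, sum_ap, smulR_ap, mul_nil, this, zero_mul, smul_zero,
      sum_const_zero, add_zero]
  have e3 : ∀ j b, dz j b (der (1, X.one) (F 0)) [] = -dz j b (F 0) [] := fun j b => by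
    unfold dz
    split_ifs
    · simp only [der, hd, List.length_singleton]; ring
    · exact neg_zero.symm
  have e4 : ∀ x, der x (z F n 0) = 0 := fun x => eq_zero_of_der (by
    have e := congrFun (H.der_der_z hd hz n x (1, X.one)) []
    have e5 : der (1, X.one) (if x.1 = 0 then tau ((X.R ^ n)ᵀ * X.η) x.2 else 0 : X.S K) = 0 := by
      split_ifs
      · rw [← dz_nat, dz_tau, if_neg (by norm_num)]
      · rfl
    have e6 : (if x.1 = 0 then tau ((X.R ^ n)ᵀ * X.η) x.2 else 0 : X.S K) [] = 0 := by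
      split_ifs
      · simp only [tau, sum_ap, smulR_ap, var_nil, smul_zero, sum_const_zero]
      · rfl
    have e7 := H.ok.der_Lz (H.symm 0) (1, X.one) n x.1 x.2
    rw [H.ok.par_one, Bool.false_and, sg_false, one_smul] at e7
    rw [H.der_z, der_add, der_add, e5, add_zero, H.ok.der_Kop (H.even 0) ((H.symm 0).der x), e7,
      add_ap, add_ap, e1, e2 _ fun y => by simp [der, H.der_one_swap hd]] at e
    rw [H.der_z, add_ap, add_ap, e6, e1]
    simp only [Lz, sum_ap, smulR_ap, e3, smul_neg, sum_neg_distrib, zero_ap] at e ⊢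
    linear_combination -e) (H.der_der_z hd hz n x)
  refine eq_zero_of_der ?_ e4
  have e := congrFun (e4 (1, X.one)) []
  rw [H.der_z, if_neg one_ne_zero, add_zero, add_ap, Kop, add_ap, LL_nil] at e
  rw [z_eq, if_pos rfl, if_neg (by simp), add_zero, add_ap, add_ap, LL_nil]
  simp only [Lz, T, G2, quad, sum_ap, smulR_ap, e3, smul_neg, sum_neg_distrib, zero_ap, mul_nil,
    var_nil, mul_zero, smul_zero, sum_const_zero, if_true, zero_add, add_zero, neg_mul,
    Finset.Nat.antidiagonal_zero, sum_singleton, Nat.cast_one] at e ⊢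
  linear_combination (norm := module) (-1 / 2 : ℂ) • e

end G0

end Vale.Agent.P269.Tgt
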