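import Vale.Agent.P269.Gz
import Vale.Agent.P269.Gen0

/-! The genus 1 Virasoro constraints follow from the constraint `L_1`. -/

noncomputable section

namespace Vale.Agent.P269.Tgt

open Finset Ser Matrix QV

variable {X : Tgt} {K : Type} [CommRing K] [Algebra ℂ K]

/-- The properties of the potentials that are used in genus 1. -/
structure G1 (F : ℕ → X.S K) : Prop extends G0 F where
  dil : ∀ l, F 0 ((1, X.one) :: l) = ((l.length : K) - 2) * F 0 l
  l0 : z F 1 0 = 0
  l1 : z F 1 1 = 0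
  trr1 : TRR1 (F 0) (F 1)
  getz : Getzler (F 0) (F 1)

theorem smul_cancel {M : Type} [AddCommGroup M] [Module ℂ M] {c : ℂ} (hc : c ≠ 0) {x : M}
    (h : c • x = 0) : x = 0 := (smul_eq_zero_iff_right hc).mp h

namespace G1

variable {F : ℕ → X.S K} (H : G1 F)
include H

theorem sw : SW (res (F 0)) := ⟨H.wd.res, H.A_ee, H.U_res H.l0⟩

theorem vir0 (n : ℕ) : z F n 0 = 0 := H.vir_zero H.dil H.l0 n

theorem hq (n : ℕ) (x : QV H.sw) : c1 H.sw (-res (z F n 1)) x =
    c1 H.sw (hh H.sw (res (F 1)) n) x + (1 / 2 : ℂ) • Tgt.str (V (res (F 0)) (-1) n * Ah _ x) := by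
  have e : c1 H.sw (if n = 1 then X.ρ • (1 : X.S K) else 0) x = 0 := by
    split_ifs
    · rw [c1_smul, c1_apply, x.ev.vt.map_one, smul_zero]
    · exact x.ev.vt.map_zero
  rw [H.res_z H.l0 H.trr1, c1_neg, c1_add, c1_add, e, ← neg_add', c1_neg, ← hh.eq_1 H.sw,
    c1_apply (res _), H.Dv_Q H.l0, Ah_apply]
  module

theorem dz_two (k : ℕ) (v : QV H.sw) : c1 H.sw (res (z F (k + 2) 1)) v =
    ((k + 2) * (k + 1) / 2 : ℂ) • c1 H.sw (res (z F 2 1)) (E _ ^ k * v) := by
  have e := rec_h (symm_res (H.symm 1)) H.getz H.hq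
  have e0 : ∀ x : QV H.sw, c1 H.sw (0 : X.S K) x = 0 := fun x => x.ev.vt.map_zero
  simp only [c1_neg, H.l1, res_zero, e0, neg_zero, smul_zero, sub_zero] at e
  induction k using Nat.twoStepInduction generalizing v with
  | zero => simp
  | one =>
    have := e 1 v
    rw [H.l1, res_zero, e0, pow_one] at this
    rw [pow_one]
    push_cast
    linear_combination (norm := module) -this
  | more k ih1 ih2 =>
    have := e (k + 2) v
    rw [ih1, ih2, show E H.sw ^ (k + 1) * (E _ * v) = E _ ^ (k + 2) * v by ring,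
      show E H.sw ^ k * (E _ * E _ * v) = E _ ^ (k + 2) * v by ring] at this
    push_cast at this ⊢
    linear_combination (norm := module) -this

theorem res_z_eq (k : ℕ) :
    res (z F (k + 1) 1) = ((k + 1) / 2 : ℂ) • c1 H.sw (res (z F 2 1)) (E _ ^ k) := by
  have e := H.dz_two k 1
  rw [c1_apply, one_val, H.Dv_ee_z, mul_one] at e
  refine sub_eq_zero.mp (smul_cancel (c := (k + 2 : ℕ)) (Nat.cast_ne_zero.mpr (by omega)) ?_)
  push_cast at e ⊢
  linear_combination (norm := module) e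

theorem vir1 (h : res (z F 2 1) = 0) (n : ℕ) : z F n 1 = 0 := by
  refine (H.flat_z H.l0 H.trr1 (H.vir0 n)).eq_zero (symm_z H.symm n 1) ?_
  cases n with
  | zero => rw [H.str, res_zero]
  | succ k => rw [H.res_z_eq, h, c1_apply, (E H.sw ^ k).ev.vt.map_zero, smul_zero]

theorem closed (b : X.ι) : der (0, b) (res (z F 3 1)) =
    (3 : ℂ) • ∑ a, der (0, a) (res (z F 2 1)) * U (res (F 0)) a b := by
  have e : grad 0 (res (z F 3 1)) = (3 : ℂ) • (grad 0 (res (z F 2 1)) * U (res (F 0))) :=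
    mat_ext (W := H.sw) fun v => funext fun c => by
      have := H.dz_two 1 v
      rw [smul_mulVec, ← mulVec_mulVec, U_mulVec, Pi.smul_apply, grad, grad, jac_mulVec, jac_mulVec,
        ← c1_apply, ← c1_apply, this, pow_one]
      norm_num
  exact congrFun (congrFun e b) b

theorem der_one : der (0, X.one) (res (z F 2 1)) = 0 := by
  rw [← Dv_ee, H.Dv_ee_z, H.l1, res_zero, smul_zero]

theorem jet_symm (l : List (ℕ × X.ι))
    (h : ∀ l', l'.length < l.length + 2 → res (z F 2 1) l' = 0) (b c : X.ι)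
    (hb : X.par b = false) :
    ∑ a, res (z F 2 1) ((0, a) :: (0, c) :: l) * U (res (F 0)) a b [] =
      ∑ a, res (z F 2 1) ((0, b) :: (0, a) :: l) * U (res (F 0)) a c [] := by
  have e : ∀ b c, res (z F 3 1) ((0, b) :: (0, c) :: l) =
      (3 : ℂ) • ∑ a, res (z F 2 1) ((0, a) :: (0, c) :: l) * U (res (F 0)) a b [] := by
    intro b c
    have := congrFun (H.closed b) ((0, c) :: l)
    rw [smulR_ap, sum_ap] at this
    refine this.trans (congrArg _ (sum_congr rfl fun a _ => mul_top _ _ _ fun l' hl => ?_))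
    exact h ((0, a) :: l') (by simp at hl ⊢; omega)
  have e1 := symm_res (symm_z H.symm 3 1) [] l (0, b) (0, c)
  have e2 := fun a => symm_res (symm_z H.symm 2 1) [] l (0, b) (0, a)
  simp only [List.nil_append, hb, Bool.false_and, sg_false, one_mul] at e1 e2
  rw [e, e] at e1
  simp only [e2]
  exact sub_eq_zero.mp (smul_cancel (c := 3) (by norm_num) (by rw [smul_sub, e1, sub_self]))

end G1

theorem Ok.inv_comm (H : X.Ok) (w : X.ι → ℂ) (hw : ∀ a b, X.η a b ≠ 0 → w a = w b) {a b : X.ι}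
    (h : X.η⁻¹ a b ≠ 0) : w a = w b := by
  have e : diagonal w * X.η = X.η * diagonal w := by
    ext a b
    rw [diagonal_mul, mul_diagonal]
    by_cases h0 : X.η a b = 0
    · simp [h0]
    · rw [hw a b h0, mul_comm]
  have e2 := congrArg (fun M => X.η⁻¹ * M * X.η⁻¹) e
  simp only [← Matrix.mul_assoc, H.inv_mul, Matrix.one_mul] at e2
  rw [Matrix.mul_assoc _ X.η, H.mul_inv, Matrix.mul_one] at e2
  have e3 := congrFun (congrFun e2 a) b
  rw [diagonal_mul, mul_diagonal, mul_comm] at e3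
  exact (mul_right_cancel₀ h e3).symm

theorem U_apply (F : X.S K) (a b : X.ι) :
    U F a b = (X.μ b - X.μ a + 1) • Γ F 0 0 a b + X.R a b • 1 := by
  rw [U, Matrix.add_apply, Matrix.sub_apply, mul_cm_apply, cm_mul_apply, cm_apply,
    sum_eq_single b (fun c _ h => by rw [μd, diagonal_apply_ne _ h, zero_smul]) (by simp),
    sum_eq_single a (fun c _ h => by rw [μd, diagonal_apply_ne _ h.symm, zero_smul]) (by simp),
    μd, μd, diagonal_apply_eq, diagonal_apply_eq, ← sub_smul]
  congr 2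
  ring

end Vale.Agent.P269.Tgt
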