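import Vale.Agent.P269.Eul

/-! The equation of Getzler applied to the quantum powers of the Euler vector field. -/

noncomputable section

namespace Vale.Agent.P269.Tgt

open Finset Ser Matrix

theorem perm4 : (univ : Finset (Equiv.Perm (Fin 4))).val.map (fun σ => (σ 0, σ 1, σ 2, σ 3)) =
    {(0, 1, 2, 3), (0, 1, 3, 2), (0, 2, 1, 3), (0, 2, 3, 1), (0, 3, 1, 2), (0, 3, 2, 1),
      (1, 0, 2, 3), (1, 0, 3, 2), (1, 2, 0, 3), (1, 2, 3, 0), (1, 3, 0, 2), (1, 3, 2, 0),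
      (2, 0, 1, 3), (2, 0, 3, 1), (2, 1, 0, 3), (2, 1, 3, 0), (2, 3, 0, 1), (2, 3, 1, 0),
      (3, 0, 1, 2), (3, 0, 2, 1), (3, 1, 0, 2), (3, 1, 2, 0), (3, 2, 0, 1), (3, 2, 1, 0)} := by
  decide

theorem sum4 {α M : Type} [AddCommMonoid M] (f : α → α → α → α → M) (a b c : α) :
    ∑ σ : Equiv.Perm (Fin 4), f (![a, b, b, c] (σ 0)) (![a, b, b, c] (σ 1)) (![a, b, b, c] (σ 2))
      (![a, b, b, c] (σ 3)) =
    2 • (f a b b c + f a b c b + f a c b b + f b a b c + f b a c b + f b b a c + f b b c a +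
      f b c a b + f b c b a + f c a b b + f c b a b + f c b b a) := by
  have := congrArg (fun s => (Multiset.map (fun t : Fin 4 × Fin 4 × Fin 4 × Fin 4 =>
    f (![a, b, b, c] t.1) (![a, b, b, c] t.2.1) (![a, b, b, c] t.2.2.1)
      (![a, b, b, c] t.2.2.2)) s).sum) perm4
  simp only [Multiset.map_map, Function.comp_def] at this
  rw [Finset.sum, this]
  simp
  abel

variable {X : Tgt} {K : Type} [CommRing K] [Algebra ℂ K]

theorem V_str {Φ : X.S K} {A : Mat X K} (hU : EM (U Φ)) (hA : EM A) (h : U Φ * A = A * U Φ)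
    (j : ℕ) : str (V Φ (-1) (j + 2) * A) - (2 : ℂ) • str (V Φ (-1) (j + 1) * (U Φ * A)) +
      str (V Φ (-1) j * (U Φ * (U Φ * A))) =
      str (cm (X.μd (1 / 2)) * U Φ ^ j * cm (X.μd (-1 / 2)) * A) := by
  have eW : ∀ n, EM (W Φ (-1) n) := fun n => by
    induction n with
    | zero => exact em_zero
    | succ n ih => exact (hU.mul ih).add ((em_μd _).mul (hU.pow n))
  have eV : ∀ n, EM (V Φ (-1) n) := fun n => by
    induction n with
    | zero => exact em_zero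
    | succ n ih => exact (hU.mul ih).add ((em_μd _).mul (eW n))
  have e1 : ∀ (n : ℕ) (B : Mat X K), EM B → U Φ * B = B * U Φ → str (V Φ (-1) (n + 1) * B) =
      str (V Φ (-1) n * (U Φ * B)) + str (cm (X.μd (1 / 2)) * W Φ (-1) n * B) := by
    intro n B hB h
    rw [V, add_mul, str_add, mul_assoc, str_comm hU ((eV n).mul hB), mul_assoc, h]
    norm_num
  have e2 : ∀ n, W Φ (-1) (n + 1) = W Φ (-1) n * U Φ + U Φ ^ n * cm (X.μd (-1 / 2)) := by
    intro n
    have e : (((-1 : ℤ) : ℂ) + 1 / 2) = -1 / 2 := by norm_num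
    induction n with
    | zero => simp only [W, e]; simp
    | succ n ih =>
      conv_lhs => rw [W, ih]
      rw [W, e, pow_succ' _ n, add_mul, mul_assoc (cm _), ← pow_succ, pow_succ' _ n]
      noncomm_ring
  rw [e1 (j + 1) A hA h, e1 j _ (hU.mul hA) (by rw [mul_assoc, h]), e2]
  simp only [mul_add, add_mul, str_add, mul_assoc]
  module

namespace QV

variable {Φ : X.S K} {W : SW Φ}

theorem getz_sum {G : X.S K} (hG : Symm G) (a b v : QV W) :
    ∑ σ : Equiv.Perm (Fin 4), getz Φ G (![a.val, b.val, b.val, v.val] (σ 0))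
      (![a.val, b.val, b.val, v.val] (σ 1)) (![a.val, b.val, b.val, v.val] (σ 2))
      (![a.val, b.val, b.val, v.val] (σ 3)) =
    (24 : ℂ) • ((2 : ℂ) • c2 G (b * v) (a * b) + c2 G (a * v) (b * b) - c2 G (b * b * v) a -
      (2 : ℂ) • c2 G (a * b * v) b - c2 G v (a * b * b)) +
    (4 : ℂ) • c1 W G ((3 : ℂ) • (C3 b b v * a + (2 : ℂ) • (C3 a b v * b) + C3 a b b * v) -
      ((2 : ℂ) • C3 (a * b) b v + C3 (a * v) b b + C3 (b * b) a v + (2 : ℂ) • C3 (b * v) a b)) +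
    (c2 (lp Φ) a (C3 b b v) + (2 : ℂ) • c2 (lp Φ) b (C3 a b v) + c2 (lp Φ) v (C3 a b b)) +
    c1 W (lp Φ) (C4 a b b v) -
    ((4 : ℂ) • str (Cm a b * Cm b v) + (2 : ℂ) • str (Cm a v * Cm b b)) := by
  have t1 : a * v * b = a * b * v := by ring
  have t2 : b * b * a = a * b * b := by ring
  have t3 : b * v * a = a * b * v := by ring
  have t4 : b * v * b = b * b * v := by ring
  rw [sum4]
  simp only [getz_eq, mul_comm b a, mul_comm v a, mul_comm v b, t1, t2, t3, t4,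
    C3_12 b a, C3_12 v a, C3_12 v b, C3_23 _ b a, C3_23 _ v a, C3_23 _ v b,
    C4_12 b a, C4_12 v a, C4_12 v b, C4_23 _ b a, C4_23 _ v a, C4_23 _ v b,
    C4_34 _ _ v a, C4_34 _ _ v b, Cm_comm b a, Cm_comm v a, Cm_comm v b,
    str_comm (em_Cm b v) (em_Cm a b), str_comm (em_Cm b b) (em_Cm a v),
    c2_comm hG (a * b) (b * v), c2_comm hG (b * b) (a * v), c2_comm hG a, c2_comm hG b (a * b * v),
    map_add, map_sub, map_smul]
  module

theorem vec_G (j : ℕ) (v : QV W) :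
    (6 : ℂ) • ((2 : ℂ) • nab (E W * v) (E W ^ (j + 1)) + nab (E W ^ j * v) (E W ^ 2) -
      nab (E W * E W * v) (E W ^ j) - (2 : ℂ) • nab (E W ^ j * E W * v) (E W ^ 1) -
      nab v (E W ^ (j + 2))) =
    (3 : ℂ) • (C3 (E W) (E W) v * E W ^ j + (2 : ℂ) • (C3 (E W ^ j) (E W) v * E W) +
      C3 (E W ^ j) (E W) (E W) * v) -
      ((2 : ℂ) • C3 (E W ^ j * E W) (E W) v + C3 (E W ^ j * v) (E W) (E W) +
      C3 (E W * E W) (E W ^ j) v + (2 : ℂ) • C3 (E W * v) (E W ^ j) (E W)) := by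
  have e1 := nab_pow (j + 1) v
  have e2 := nab_pow j (E W * v)
  have e3 := nab_pow 1 (E W ^ j * v)
  have e4 := C3_pow 2 (E W ^ j) v
  rw [← mul_assoc] at e2
  rw [pow_two] at e4
  rw [e1, e2, e3, e4, pow_one, nab_E, nab_E, C3_12 (E W ^ j) (E W), C3_12 (E W ^ j) (E W),
    C3_12 (E W ^ j * E W), C3_12 (_ * v) (E W), C3_23 (_ * v), C3_12 (_ * v) (E W)]
  simp only [C3_E, w_succ, w_zero, Algebra.smul_def, map_ofNat, pow_succ, pow_zero, mul_zero,
    zero_add, one_mul, mul_one, ν_one]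
  ring_nf

theorem w_E (j : ℕ) (x : QV W) :
    w W j (E W * x) = E W * w W j x + ν W (E W ^ j * x) - E W ^ j * ν W x := by
  have := w_succ j x
  rw [w_succ'] at this
  linear_combination this

theorem vec_θ (j : ℕ) (v : QV W) :
    nab v (w W (j + 2) 1) - (2 : ℂ) • nab (E W * v) (w W (j + 1) 1) +
      nab (E W * E W * v) (w W j 1) - nab (E W ^ j * v) (w W 2 1) +
      ((2 : ℂ) • (v * ν W (w W (j + 1) 1) - w W (j + 1) 1 * ν W v) +
      (v * w W j (w W 2 1) - w W 2 1 * w W j v) - (v * w W 2 (w W j 1) - w W j 1 * w W 2 v)) -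
      (2 : ℂ) • (v * w W (j + 1) 1 - 1 * w W (j + 1) v) =
    (C3 (E W) (E W) v * w W j 1 - 1 * w W j (C3 (E W) (E W) v)) +
      (2 : ℂ) • (C3 (E W ^ j) (E W) v * ν W 1 - 1 * ν W (C3 (E W ^ j) (E W) v)) +
      C4 (E W ^ j) (E W) (E W) v -
      ((4 : ℂ) • ((E W ^ j - ν W (E W ^ j)) * (v - ν W v)) +
      (2 : ℂ) • ((v * w W j 1 - w W j v) * (E W - ν W (E W)))) := by
  have e1 := nab_w (j + 1) v
  have e2 := nab_w j (E W * v)
  have e3 := nab_w 1 (E W ^ j * v)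
  have e4 := w_E j (1 : QV W)
  have e5 : w W 1 (1 : QV W) = 1 := by rw [w_succ, w_zero, pow_zero, mul_one, ν_one]; simp
  rw [← mul_assoc] at e2
  rw [e5, nab_one] at e3
  rw [mul_one, mul_one, ν_one] at e4
  rw [e1, e2, e3, C4_12, C4_E, C3_12 (ν W v) (E W ^ j),
    C3_23 _ (ν W v), C3_12 (E W ^ j) (E W), C3_12 (E W ^ j) (E W), C3_pow]
  simp only [C3_E, w_succ, w_zero, Algebra.smul_def, map_ofNat, pow_succ, pow_zero, mul_zero,
    zero_add, one_mul, mul_one, ν_one, map_add, map_sub, w_E, e4]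
  ring_nf

theorem str_br_br {B C : Mat X K} (hB : EM B) (hC : EM C) (x y u v : QV W) :
    str ((B * Ah W x - Ah W x * B + Ah W y) * (C * Ah W u - Ah W u * C + Ah W v)) =
      str ((B * Ah W x - Ah W x * B) * (C * Ah W u - Ah W u * C)) + c1 W (lp Φ) (y * v) := by
  rw [add_mul, mul_add, mul_add, str_add, str_add, str_add, str_br hB, ← map_mul, str_Ah,
    str_comm (em_Ah y) ((hC.mul (em_Ah u)).sub ((em_Ah u).mul hC)), str_br hC, add_zero, zero_add]

theorem tr_one (a v : QV W) : str (Cm a (E W) * Cm (E W) v) =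
    (2 : ℂ) • (str (Nm X K * Ah W a * Nm X K * Ah W v) - str (Nm X K * Nm X K * Ah W (a * v))) +
      c1 W (lp Φ) ((a - ν W a) * (v - ν W v)) := by
  have hN : EM (Nm X K) := em_Nm
  have e1 := str_comm ((hN.mul (em_Ah a)).mul (em_Ah v)) hN
  have e2 := str_comm (em_Ah a) ((hN.mul hN).mul (em_Ah v))
  have e3 := str_comm (((em_Ah a).mul hN).mul (em_Ah v)) hN
  have e4 : Ah W v * Ah W a = Ah W a * Ah W v := by rw [← map_mul, mul_comm, map_mul]
  rw [Cm_comm, Cm_E, Cm_E, str_br_br hN hN]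
  simp only [mul_sub, sub_mul, str_sub, mul_assoc, map_mul, e4] at e1 e2 e3 ⊢
  rw [e1, e2, e3]
  module

theorem tr_two (j : ℕ) (v : QV W) : str (Cm (E W ^ j) v * Cm (E W) (E W)) =
    (2 : ℂ) • (str (Nm X K * Ah W (E W ^ j) * Nm X K * Ah W v) -
      str (Nm X K * Nm X K * Ah W (E W ^ j * v))) +
      c1 W (lp Φ) ((v * w W j 1 - w W j v) * (E W - ν W (E W))) := by
  have hN : EM (Nm X K) := em_Nm
  have hW := em_Wm (W := W) j
  have hA := em_Ah v
  have hU := em_Ah (E W)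
  have hP := em_Ah (E W ^ j)
  have e0 : Wm Φ j * Ah W (E W) = Ah W (E W) * Wm Φ j +
      (Nm X K * Ah W (E W ^ j) - Ah W (E W ^ j) * Nm X K) := by
    rw [map_pow, Ah_E, ← add_sub_assoc, ← Wm, Wm_succ', add_sub_cancel_right]
  have e4 : Ah W v * Ah W (E W) = Ah W (E W) * Ah W v := by rw [← map_mul, mul_comm, map_mul]
  have e5 : Ah W v * Ah W (E W ^ j) = Ah W (E W ^ j) * Ah W v := by
    rw [← map_mul, mul_comm, map_mul]
  have e1 : str (Wm Φ j * Ah W v * (Nm X K * Ah W (E W))) =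
      str (Ah W (E W) * Wm Φ j * (Ah W v * Nm X K)) := by
    rw [← mul_assoc, str_comm ((hW.mul hA).mul hN) hU]; simp only [mul_assoc]
  have e2 : str (Wm Φ j * Ah W v * (Ah W (E W) * Nm X K)) =
      str (Wm Φ j * Ah W (E W) * (Ah W v * Nm X K)) := by
    rw [mul_assoc, ← mul_assoc (Ah W v), e4]; simp only [mul_assoc]
  have e3 : str (Ah W v * Wm Φ j * (Nm X K * Ah W (E W))) =
      str (Ah W v * (Ah W (E W) * Wm Φ j) * Nm X K) := by
    rw [← mul_assoc, str_comm ((hA.mul hW).mul hN) hU, ← mul_assoc, ← mul_assoc, ← e4]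
    simp only [mul_assoc]
  have e6 : str (Ah W v * Wm Φ j * (Ah W (E W) * Nm X K)) =
      str (Ah W v * (Wm Φ j * Ah W (E W)) * Nm X K) := by simp only [mul_assoc]
  have f1 := str_comm ((hN.mul hP).mul hA) hN
  have f3 := str_comm hA ((hN.mul hP).mul hN)
  have f4 := str_comm hA (hP.mul (hN.mul hN))
  have f5 := str_comm hP ((hN.mul hN).mul hA)
  have f6 := str_comm ((hP.mul hN).mul hA) hN
  rw [Cm_pow, Cm_E, str_br_br hW hN, mul_sub, sub_mul, sub_mul, str_sub, str_sub, str_sub, e1, e2,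
    e3, e6, e0, map_mul (Ah W)]
  generalize (v * w W j 1 - w W j v) * (E W - ν W (E W)) = u
  simp only [mul_sub, sub_mul, mul_add, add_mul, str_sub, str_add, mul_assoc, e5] at *
  rw [f1, f3, f4, f5, f6]
  module

theorem tr_V (a v : QV W) :
    str (cm (X.μd (1 / 2)) * Ah W a * cm (X.μd (-1 / 2)) * Ah W v) -
      str (V Φ (-1) 2 * Ah W (a * v)) =
    str (Nm X K * Ah W a * Nm X K * Ah W v) - str (Nm X K * Nm X K * Ah W (a * v)) := by
  have e4 : Ah W v * Ah W a = Ah W a * Ah W v := by rw [← map_mul, mul_comm, map_mul]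
  have e1 := str_comm (em_Ah a) (em_Nm.mul (em_Ah v))
  simp only [V, Tgt.W, cm_μd, mul_sub, sub_mul, str_sub, str_smul, smul_mul_assoc, mul_smul_comm,
    mul_zero, zero_add, pow_zero, mul_one, one_mul, map_mul, mul_assoc, e4] at e1 ⊢
  rw [e1]
  push_cast
  module

/-- The obstruction to the genus 1 Virasoro constraints, up to the second order term. -/
def hh (_ : SW Φ) (G : X.S K) (n : ℕ) : X.S K :=
  Dv (U Φ ^ n *ᵥ ee X K) G + (1 / 24 : ℂ) • Dv (Tgt.W Φ (0 + 1) n *ᵥ ee X K) (lp Φ)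

theorem hh_zero (G : X.S K) : hh W G 0 = c1 W G (E W ^ 0) := by
  rw [hh, Tgt.W, zero_mulVec, c1_apply, ← one_val (W := W), U_pow_mulVec, mul_one]
  simp [Dv]

theorem hh_succ (G : X.S K) (k : ℕ) : hh W G (k + 1) = c1 W G (E W ^ (k + 1)) + (1 / 24 : ℂ) •
    (((5 / 2 - X.D / 2) * (k + 1) : ℂ) • c1 W (lp Φ) (E W ^ k) - c1 W (lp Φ) (w W (k + 1) 1)) := by
  rw [hh, W_eq, ← one_val (W := W), U_pow_mulVec, mul_one, sub_mulVec, smul_mulVec, U_pow_mulVec,
    w_val, ← smul_val, ← sub_val, ← c1_apply, ← c1_apply, map_sub, map_smul, mul_one]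
  congr 4
  push_cast
  ring

theorem c1_t_zero (x : QV W) : c1 W (c1 W (lp Φ) (E W ^ 0)) x = 0 := by
  rw [c1_c1, pow_zero, nab_one, τ_one, map_zero, add_zero]

theorem c1_t_E (k : ℕ) (x : QV W) : c1 W (c1 W (lp Φ) (E W ^ k)) (E W * x) =
    (k : ℂ) • c1 W (lp Φ) (E W ^ k * x) := by
  cases k with
  | zero => rw [c1_t_zero]; simp
  | succ k => rw [c1_t, ← mul_assoc, ← pow_succ]; simp

theorem c1_hh_EE (G : X.S K) (j : ℕ) (v : QV W) : c1 W (hh W G j) (E W * E W * v) =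
    c1 W (c1 W G (E W ^ j)) (E W * E W * v) + (1 / 24 : ℂ) •
      (((5 / 2 - X.D / 2) * j * (j - 1) : ℂ) • c1 W (lp Φ) (E W ^ j * v) -
        c1 W (c1 W (lp Φ) (w W j 1)) (E W * E W * v)) := by
  cases j with
  | zero => rw [hh_zero, w_zero, map_zero, c1_apply 0, (E W * E W * v).ev.vt.map_zero]; simp
  | succ k =>
    rw [hh_succ, c1_add, c1_smul, c1_sub, c1_smul, mul_assoc (E W), c1_t_E, ← mul_assoc (E W ^ k),
      ← pow_succ, smul_smul]
    congr 4
    push_cast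
    ring

/-- The recursion for the derivatives of the obstructions. -/
theorem rec_h {G : X.S K} (hG : Symm G)
    (hg : ∀ v : Fin 4 → X.ι → X.S K, (∀ i a, Par (X.par a) (v i a)) →
      ∑ σ : Equiv.Perm (Fin 4), getz Φ G (v (σ 0)) (v (σ 1)) (v (σ 2)) (v (σ 3)) = 0)
    {h : ℕ → X.S K} (hq : ∀ n (x : QV W), c1 W (h n) x =
      c1 W (hh W G n) x + (1 / 2 : ℂ) • str (V Φ (-1) n * Ah W x)) (j : ℕ) (v : QV W) :
    c1 W (h (j + 2)) v = (2 : ℂ) • c1 W (h (j + 1)) (E W * v) + c1 W (h 2) (E W ^ j * v) -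
      c1 W (h j) (E W * E W * v) - (2 : ℂ) • c1 W (h 1) (E W ^ j * E W * v) := by
  have e0 := hg ![(E W ^ j).val, (E W).val, (E W).val, v.val] fun i => by
    fin_cases i
    exacts [(E W ^ j).ev, (E W).ev, (E W).ev, v.ev]
  rw [getz_sum hG, ← vec_G, tr_one, tr_two, ← tr_V] at e0
  have e1 := congrArg (c1 W (lp Φ)) (vec_θ j v)
  have e2 := V_str (Φ := Φ) (em_U (W := W)) (em_Ah v) (by
    rw [← Ah_E (W := W), ← map_mul, mul_comm, map_mul]) j
  have e3 := τ_pow j (C3 (E W) (E W) v) 1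
  have e4 := τ_E (C3 (E W ^ j) (E W) v) 1
  have e5 := τ_E v (w W (j + 1) 1)
  have e6 := τ_pow j v (w W 2 1)
  have e7 := τ_pow 2 v (w W j 1)
  have e8 := τ_pow (j + 1) v 1
  have e9 : w W (j + 2) 1 = (2 : ℂ) • (E W * w W (j + 1) 1) + E W ^ j * w W 2 1 -
      E W ^ 2 * w W j 1 - (2 : ℂ) • (E W ^ (j + 1) * 1) + C3 (E W ^ j) (E W) (E W) := by
    rw [C3_12, C3_E]
    simp only [w_succ, w_zero, Algebra.smul_def, map_ofNat, pow_succ, pow_zero, mul_zero,
      zero_add, one_mul, mul_one, ν_one]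
    ring_nf
  have e10 := congrArg (c2 (lp Φ) v) e9
  have e11 : w W (0 + 1) (1 : QV W) = 1 := by rw [w_succ, w_zero, pow_zero, mul_one, ν_one]; simp
  have e12 : V Φ (-1) 1 = 0 := by simp [V, Tgt.W]
  rw [τ_one, mul_one, c2_comm (symm_lp (W := W))] at e3 e4
  rw [τ_one] at e8
  rw [pow_two] at e7
  rw [← Ah_E (W := W), ← map_pow, ← map_mul, ← map_mul, ← mul_assoc] at e2
  rw [hq, hq, hq, hq, hq, c1_hh_EE, hh_succ, hh_succ, hh_succ, hh_succ, e11, e12]
  simp only [c1_add, c1_smul, c1_sub, c1_t, c1_t_E, c1_t_zero]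
  simp only [c1_c1, map_add, map_sub, map_smul, nab_one, τ_one, pow_succ, pow_zero, one_mul,
    zero_add, _root_.map_zero, zero_mul, str_zero] at *
  push_cast
  linear_combination (norm := module) (-1 / 24 : ℂ) • e0 - (1 / 24 : ℂ) • e1 + (1 / 2 : ℂ) • e2 +
    (1 / 24 : ℂ) • (e3 + (2 : ℂ) • e4 - (2 : ℂ) • e5 - e6 + e7 + (2 : ℂ) • e8 - e10)

end QV

end Vale.Agent.P269.Tgt
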