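import Vale.Agent.P269.Seq

/-! The linearization of the Virasoro constraints at the genus 0 potential. -/

noncomputable section

namespace Vale.Agent.P269.Tgt

open Finset Ser Matrix

variable {X : Tgt} {K : Type} [CommRing K] [Algebra ℂ K]

/-- The Virasoro vector field. -/
def Kop (F : X.S K) (n : ℕ) (G : X.S K) : X.S K :=
  LL n G + T n fun s a t b => dz s a G * dz t b F

/-- The commutator of a derivative and the Virasoro vector field. -/
def Kc (F : X.S K) (n : ℕ) (y : ℕ × X.ι) (G : X.S K) : X.S K :=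
  Lz n y.1 y.2 G + T n fun s a t b => dz s a G * der y (dz t b F)

theorem sum_pick' {A : Type} [AddCommMonoid A] {N : ℕ} {k : ℤ} (hk : k < N) (φ : ℤ → A)
    (h : ∀ t < 0, φ t = 0) : (∑ j ∈ range N, if (j : ℤ) = k then φ j else 0) = φ k := by
  by_cases h0 : 0 ≤ k
  · rw [sum_eq_single k.toNat (fun t _ ht => if_neg (by omega)) (fun ht => by
      simp at ht; omega), if_pos (by omega), Int.toNat_of_nonneg h0]
  · rw [h _ (by omega), sum_eq_zero fun t _ => if_neg (by omega)]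

theorem der_T (y : ℕ × X.ι) (n : ℕ) (G : ℤ → X.ι → ℤ → X.ι → X.S K) :
    der y (T n G) = T n fun s a t b => der y (G s a t b) := by
  simp only [T, der_sum, der_smulR]

namespace Ok

variable (H : X.Ok)
include H

theorem vt_Kop {F : X.S K} (he : Par false F) (n : ℕ) : VT (Kop F n) :=
  (H.vt_LL n).add (vt_sum _ _ fun _ _ => vt_sum _ _ fun _ _ => vt_sum _ _ fun a _ =>
    vt_sum _ _ fun b _ => vt_smul _ fun h => vt_dz _ a ((par_dz he _ b).cast (by
      simp [H.κ_par h])))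

theorem der_dz_mul {F G : X.S K} (he : Par false F) (hG : Symm G) (y : ℕ × X.ι) (n : ℕ) :
    T n (fun s a t b => der y (dz s a G) * tw (X.par y.2) (dz t b F)) =
      T n fun s a t b => dz s a (der y G) * dz t b F :=
  T_congr H _ fun s a t b hab => by
    rw [← der_dz hG, (par_dz he t b).tw_eq, hab]
    simp

theorem der_Kop {F G : X.S K} (he : Par false F) (hG : Symm G) (n : ℕ) (y : ℕ × X.ι) :
    der y (Kop F n G) = Kop F n (der y G) + Kc F n y G := by
  simp only [Kop, Kc, der_add, H.der_LL hG, der_T, der_mul, T_add, H.der_dz_mul he hG]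
  abel

theorem κ_eq' (n i s : ℕ) (a b : X.ι) : κ n i s a b =
    (-1 : ℂ) ^ ((s : ℤ) + 1 - n + i) * (X.M n i (s + 1 - n + i) * X.η⁻¹) a b := by
  have e1 := congrFun (congrFun (H.inv_M_adj n i (-s - 1)) a) b
  have e2 : (X.M n i (-s - 1) * X.η⁻¹ᵀ) b a = (X.η⁻¹ * (X.M n i (-s - 1))ᵀ) a b := by
    rw [← transpose_apply (X.η⁻¹ * _), transpose_mul, transpose_transpose]
  rw [κ_eq, e2, e1, Matrix.smul_apply, smul_eq_mul, ← mul_assoc,
    show (i - (-s - 1) - n : ℤ) = s + 1 - n + i by ring]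
  congr 1
  rw [← pow_add, ← zpow_natCast, show ((s + 1 + (n + i) : ℕ) : ℤ) = s + 1 - n + i + 2 * n by
    push_cast; ring, zpow_add₀ (by norm_num), _root_.zpow_mul]
  norm_num

theorem Kc_eq (F : X.S K) (G : X.ι → X.S K) (n m : ℕ) :
    (of fun c a => Kc F n (m, a) (G c)) =
      Λ (fun j => jac j G) fun j => (Dc 0)^[n] (Hh F m) (j + 1) := by
  have e : (fun j => (Dc 0)^[n] (Hh F m) (j + 1)) =
      (fun j : ℤ => ∑ i ∈ range (n + 1),
        if j = m + n - 1 - i then (cm (X.M n i m) : Mat X K) else 0) +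
      fun j : ℤ => ∑ i ∈ range (n + 1), ((-1 : ℂ) ^ (j + 1 - n + i)) •
        (cm (X.M n i (j + 1 - n + i)) * Γz F (n - 2 - i - j) m) := by
    funext j
    rw [H.Dc_iter, Pi.add_apply, ← sum_add_distrib]
    refine sum_congr rfl fun i _ => ?_
    rw [Hh, mul_add, add_zero, mul_smul_comm, show -(j + 1 - n + i) - 1 = n - 2 - i - j by ring]
    congr 1
    by_cases h : j + 1 - n + i = m
    · rw [if_pos h, if_pos (by omega), h, mul_one]
    · rw [if_neg h, if_neg (by omega), mul_zero]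
  have b1 : ∀ j : ℕ, m + n ≤ j → (∑ i ∈ range (n + 1),
      if (j : ℤ) = m + n - 1 - i then (cm (X.M n i m) : Mat X K) else 0) = 0 :=
    fun j hj => sum_eq_zero fun i _ => if_neg (by omega)
  have b2 : ∀ j : ℕ, n ≤ j → ∑ i ∈ range (n + 1), ((-1 : ℂ) ^ ((j : ℤ) + 1 - n + i)) •
      (cm (X.M n i (j + 1 - n + i)) * Γz F (n - 2 - i - j) m) = 0 :=
    fun j hj => sum_eq_zero fun i _ => by rw [Γz_left _ (by omega), mul_zero, smul_zero]
  rw [e, Λ_add _ ⟨_, b1⟩ ⟨_, b2⟩, Λ_eq _ b1, Λ_eq _ b2]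
  ext c a : 2
  simp only [of_apply, Kc, Matrix.add_apply, mul_sum, Matrix.sum_apply]
  congr 1
  · rw [sum_comm]
    refine sum_congr rfl fun i _ => ?_
    rw [← sum_pick' (N := m + n) (k := m + n - 1 - i) (by omega)
      (fun j => ∑ b, X.M n i m b a • dz j b (G c)) fun t ht => by simp [dz_neg ht]]
    refine sum_congr rfl fun j _ => ?_
    split_ifs
    · simp only [mul_cm_apply, jac_apply, dz_nat]
    · simp
  · rw [sum_comm]
    refine sum_congr rfl fun i _ => sum_congr rfl fun s _ => ?_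
    simp only [mul_smul_comm, Matrix.smul_apply, Matrix.mul_apply (M := jac s G), cm_mul_apply,
      Γz, of_apply, jac_apply, dz_nat, smul_sum, mul_sum, H.κ_eq', Matrix.mul_apply (N := X.η⁻¹),
      sum_smul, smul_smul]
    exact sum_congr rfl fun _ _ => sum_comm

theorem jac_Kop {F : X.S K} (he : Par false F) {G : X.ι → X.S K} (hG : ∀ c, Symm (G c))
    (n m : ℕ) : jac m (fun c => Kop F n (G c)) = (jac m G).map (Kop F n) +
      Λ (fun j => jac j G) fun j => (Dc 0)^[n] (Hh F m) (j + 1) := by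
  rw [← H.Kc_eq]
  ext c a : 2
  exact H.der_Kop he (hG c) n (m, a)

theorem quad_par (n : ℕ) (a b : X.ι) (h : ((X.R ^ n)ᵀ * X.η) a b ≠ 0) : X.par a = X.par b := by
  rw [Matrix.mul_apply] at h
  obtain ⟨c, -, hc⟩ := exists_ne_zero_of_sum_ne_zero h
  have h1 := H.pow_deg n a c (left_ne_zero_of_mul hc)
  rw [← H.eta_par (right_ne_zero_of_mul hc)]
  exact par_eq_of (by omega)

theorem quad_sym (n : ℕ) (a b : X.ι) :
    ((X.R ^ n)ᵀ * X.η) a b = sg (X.par a) * ((X.R ^ n)ᵀ * X.η) b a := by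
  conv_lhs => rw [H.pow_adj]
  simp only [Matrix.mul_apply, transpose_apply, mul_sum]
  exact sum_congr rfl fun c _ => by rw [H.sym a c]; ring

theorem T_comm {F G : X.S K} (hF : Par false F) (hG : Par false G) (n : ℕ) :
    T n (fun s a t b => dz s a F * dz t b G) = T n fun s a t b => dz s a G * dz t b F := by
  rw [T_swap H _ _ (fun s a t b h => by simp [dz_neg h]) fun s a t b h => by simp [dz_neg h]]
  refine T_congr H _ fun s a t b hab => ?_
  rw [(par_dz hF t b).comm_sg (par_dz hG s a), smul_smul, hab]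
  simp

end Ok

namespace G0

variable {F : ℕ → X.S K} (H : G0 F)
include H

theorem vt_Kop (n : ℕ) : VT (Kop (F 0) n) := H.ok.vt_Kop (H.even 0) n

theorem der_z (n : ℕ) (x : ℕ × X.ι) : der x (z F n 0) = Lz n x.1 x.2 (F 0) +
    Kop (F 0) n (der x (F 0)) + if x.1 = 0 then tau ((X.R ^ n)ᵀ * X.η) x.2 else 0 := by
  have e1 : T n (fun s a t b => dz s a (F 0) * der x (dz t b (F 0))) =
      T n fun s a t b => dz s a (der x (F 0)) * dz t b (F 0) := by
    rw [T_swap H.ok _ _ (fun s a t b h => by simp [dz_neg h]) fun s a t b h => by simp [dz_neg h]]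
    refine T_congr H.ok _ fun s a t b hab => ?_
    rw [(par_dz (H.even 0) t b).comm_sg ((par_dz (H.even 0) s a).der x), ← der_dz (H.symm 0),
      smul_smul, smul_mul_assoc, ← hab]
    congr 1
    cases X.par a <;> cases X.par x.2 <;> simp
  have e2 := dz_quad (K := K) (H.ok.quad_sym n) (H.ok.quad_par n) x.1 x.2
  rw [dz_nat] at e2
  simp only [z_eq, der_add, der_smulR, der_T, G2, if_true, zero_add, Finset.Nat.antidiagonal_zero,
    sum_singleton, der_mul, T_add, e1, H.ok.der_dz_mul (H.even 0) (H.symm 0), Prod.mk.eta,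
    H.ok.der_LL (H.symm 0), Kop, zero_ne_one, false_and, if_false, add_zero] at e2 ⊢
  rw [e2]
  simp only [Nat.cast_eq_zero]
  module

theorem Γ_z (n k m : ℕ) : (Γ (F 0) k m).map (Kop (F 0) n) +
    Λ (Γ (F 0) k) (fun j => (Dc 0)^[n] (Hh (F 0) m) (j + 1)) +
    ((-1 : ℂ) ^ k) • (Dc 0)^[n] (Hh (F 0) m) (-k) = Γ (z F n 0) k m := by
  have e1 := H.ok.jac_Kop (H.even 0) (symm_pp (H.symm 0) k) n m
  rw [show (fun j => jac j (pp (F 0) k)) = Γ (F 0) k from rfl] at e1
  rw [Γ, ← e1, H.ok.Dc_iter]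
  have e2 : ∀ b, Kop (F 0) n (der (k, b) (F 0)) = der (k, b) (z F n 0) - Lz n k b (F 0) -
      if k = 0 then tau ((X.R ^ n)ᵀ * X.η) b else 0 := by
    intro b
    rw [H.der_z n (k, b)]
    simp only
    abel
  have e3 : ∑ i ∈ range (n + 1), ((-1 : ℂ) ^ k) • (cm (X.M n i (-k - n + i)) *
      if (-k - n + i : ℤ) = m then 1 else 0 : Mat X K) =
      if k = 0 ∧ m = 0 then cm (X.R ^ n) else 0 := by
    rw [sum_eq_single n (fun i hi h => by
      rw [if_neg (by have := mem_range.mp hi; omega), mul_zero, smul_zero]) (by simp), M_self]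
    by_cases h : k = 0 ∧ m = 0
    · rw [if_pos h, if_pos (by omega), h.1]; simp
    · rw [if_neg h, if_neg (by omega)]; simp
  simp only [Hh, add_zero, mul_add, smul_sum, smul_add, sum_add_distrib, e3]
  ext c a : 2
  have e4 : ∑ b, X.η⁻¹ c b • der (m, a) (if k = 0 then tau ((X.R ^ n)ᵀ * X.η) b else 0 : X.S K) =
      (if k = 0 ∧ m = 0 then cm (X.R ^ n) else 0 : Mat X K) c a := by
    by_cases hk : k = 0
    · by_cases hm : m = 0
      · simp only [hk, hm, and_self, if_true, ← dz_zero', dz_tau, smul_smul, ← sum_smul,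
          ← Matrix.mul_apply, H.ok.pow_adj, ← Matrix.mul_assoc, H.ok.inv_mul, Matrix.one_mul,
          cm_apply]
      · simp [hk, hm, ← dz_nat, dz_tau]
    · simp [hk]
  have sub_add_add_cancel' : ∀ u v w : X.S K, u - v + (v + w) = u + w := fun u v w => by abel
  simp only [Matrix.add_apply, jac_apply, pp, (H.vt_Kop n).map_sum, (H.vt_Kop n).map_smul, e2,
    der_sum, der_smulR, der_sub, smul_sub, sum_sub_distrib, e4, Γ_apply,
    sub_add_add_cancel', Matrix.sum_apply, Lz, smul_sum]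
  rw [sub_add, sub_eq_self, sub_eq_zero, sum_comm]
  refine sum_congr rfl fun i _ => ?_
  rw [sum_comm]
  have e5 : ∀ b, ∑ e, X.η⁻¹ c e * X.M n i k b e = (-1) ^ k * (-1 : ℂ) ^ (-k - n + i : ℤ) *
      ∑ e, X.M n i (-k - n + i) c e * X.η⁻¹ e b := by
    intro b
    have := congrFun (congrFun (H.ok.inv_M_adj n i k) c) b
    simp only [Matrix.mul_apply, transpose_apply, Matrix.smul_apply, smul_eq_mul] at this
    rw [this, show (i - k - n : ℤ) = -k - n + i by ring, ← zpow_natCast, ← zpow_natCast,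
      ← zpow_add₀ (by norm_num), show ((n + i : ℕ) : ℤ) = k + (-k - n + i) + 2 * n by
        push_cast; ring, zpow_add₀ (by norm_num), _root_.zpow_mul]
    norm_num
  simp only [mul_smul_comm, Matrix.smul_apply, cm_mul_apply, Γz, of_apply, smul_smul, ← sum_smul,
    e5, smul_sum, dz_nat, show (-(-k - n + i) - 1 : ℤ) = k + n - 1 - i by ring]
  rw [sum_comm]
  simp only [← sum_smul, mul_sum, mul_assoc]

theorem Kop_Γ {n : ℕ} (hz : z F n 0 = 0) (k m : ℕ) : (Γ (F 0) k m).map (Kop (F 0) n) +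
    Λ (Γ (F 0) k) (fun j => (Dc 0)^[n] (Hh (F 0) m) (j + 1)) +
    ((-1 : ℂ) ^ k) • (Dc 0)^[n] (Hh (F 0) m) (-k) = 0 := by
  rw [H.Γ_z, hz]
  ext c a : 2
  simp [Γ_apply]

end G0

end Vale.Agent.P269.Tgt
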