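import Vale.Agent.P269.Coef

/-! The first order and second order parts of the Virasoro operators. -/

noncomputable section

namespace Vale.Agent.P269.Tgt

open Finset Ser Matrix

variable {X : Tgt} {K : Type} [CommRing K] [Algebra ℂ K]

section dz
omit [Algebra ℂ K]

theorem dz_nat (m : ℕ) (a : X.ι) (f : X.S K) : dz m a f = der (m, a) f := by simp [dz]

theorem dz_zero' (a : X.ι) (f : X.S K) : dz 0 a f = der (0, a) f := by simp [dz]

theorem dz_neg {j : ℤ} (h : j < 0) (a : X.ι) (f : X.S K) : dz j a f = 0 := by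
  simp [dz, not_le.mpr h]

@[simp] theorem dz_zero (j : ℤ) (a : X.ι) : dz j a (0 : X.S K) = 0 := by
  unfold dz; split_ifs <;> rfl

@[simp] theorem dz_one (j : ℤ) (a : X.ι) : dz j a (1 : X.S K) = 0 := by
  unfold dz; split_ifs <;> rfl

theorem dz_add (j : ℤ) (a : X.ι) (f g : X.S K) : dz j a (f + g) = dz j a f + dz j a g := by
  unfold dz; split_ifs <;> simp

theorem dz_sub (j : ℤ) (a : X.ι) (f g : X.S K) : dz j a (f - g) = dz j a f - dz j a g := by
  unfold dz; split_ifs <;> simp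

theorem dz_neg' (j : ℤ) (a : X.ι) (f : X.S K) : dz j a (-f) = -dz j a f := by
  unfold dz; split_ifs <;> simp

theorem dz_sum {α : Type} (j : ℤ) (a : X.ι) (s : Finset α) (f : α → X.S K) :
    dz j a (∑ i ∈ s, f i) = ∑ i ∈ s, dz j a (f i) := by
  unfold dz; split_ifs <;> simp

theorem dz_smul {R : Type} [CommRing R] [Algebra R K] (j : ℤ) (a : X.ι) (c : R) (f : X.S K) :
    dz j a (c • f) = c • dz j a f := by
  unfold dz; split_ifs <;> simp

theorem dz_mul (j : ℤ) (a : X.ι) (f g : X.S K) :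
    dz j a (f * g) = f * dz j a g + dz j a f * tw (X.par a) g := by
  unfold dz; split_ifs
  · exact der_mul _ f g
  · simp

theorem symm_dz {f : X.S K} (hf : Symm f) (j : ℤ) (a : X.ι) : Symm (dz j a f) := by
  unfold dz; split_ifs
  · exact hf.der _
  · exact symm_zero

theorem par_dz {b : Bool} {f : X.S K} (hf : Par b f) (j : ℤ) (a : X.ι) :
    Par (xor b (X.par a)) (dz j a f) := by
  unfold dz; split_ifs
  · exact hf.der _
  · exact par_zero _

theorem der_dz {f : X.S K} (hf : Symm f) (x : ℕ × X.ι) (j : ℤ) (a : X.ι) :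
    (sg (X.par x.2 && X.par a) : K) • der x (dz j a f) = dz j a (der x f) := by
  unfold dz; split_ifs
  · exact (hf.swap x (j.toNat, a)).symm
  · simp

theorem dz_swap {f : X.S K} (hf : Symm f) (s t : ℤ) (a b : X.ι) :
    dz t b (dz s a f) = (sg (X.par a && X.par b) : K) • dz s a (dz t b f) := by
  unfold dz; split_ifs
  · exact hf.swap (s.toNat, a) (t.toNat, b)
  all_goals simp

end dz

/-- The derivative along the nonnegative part of `l_{n-1} (z^j φ_a)`. -/
def Lz (n : ℕ) (j : ℤ) (a : X.ι) (f : X.S K) : X.S K :=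
  ∑ i ∈ range (n + 1), ∑ b, X.M n i j b a • dz (j + n - 1 - i) b f

theorem Lx_eq (n : ℕ) (x : ℕ × X.ι) (f : X.S K) : Lx n x f = Lz n x.1 x.2 f := by
  simp only [Lx, Lz, M_apply, Int.cast_natCast]

theorem Lz_zero (j : ℤ) (a : X.ι) (f : X.S K) : Lz 0 j a f = dz (j - 1) a f := by
  simp [Lz, M_self, one_apply]

theorem Lz_add (n : ℕ) (j : ℤ) (a : X.ι) (f g : X.S K) :
    Lz n j a (f + g) = Lz n j a f + Lz n j a g := by
  simp only [Lz, dz_add, smul_add, sum_add_distrib]

theorem Lz_smul (n : ℕ) (j : ℤ) (a : X.ι) (c : K) (f : X.S K) :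
    Lz n j a (c • f) = c • Lz n j a f := by
  simp only [Lz, dz_smul, smul_sum, smul_comm c]

theorem symm_Lz {f : X.S K} (hf : Symm f) (n : ℕ) (j : ℤ) (a : X.ι) : Symm (Lz n j a f) :=
  symm_sum fun _ _ => symm_sum fun _ _ => (symm_dz hf _ _).smul _

theorem Lz_diff (n : ℕ) (j : ℤ) (a : X.ι) (f : X.S K) :
    ∑ i ∈ range (n + 1 + 1), ∑ b, X.M (n + 1) i j b a • dz (j + (n + 1 : ℕ) - 1 - i - 1) b f =
      Lz (n + 1) (j - 1) a f + ((n : ℂ) + 1) • Lz n j a f := by
  have e : Lz n j a f = ∑ i ∈ range (n + 1 + 1), ∑ b, X.M n i j b a • dz (j + n - 1 - i) b f := by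
    rw [sum_range_succ _ (n + 1), M_gt (Nat.lt_succ_self n)]
    simp [Lz]
  rw [e, Lz, smul_sum, ← sum_add_distrib]
  refine sum_congr rfl fun i _ => ?_
  rw [smul_sum, ← sum_add_distrib]
  refine sum_congr rfl fun b _ => ?_
  have h := congrFun (congrFun (M_diff (X := X) n i j) b) a
  simp only [Matrix.sub_apply, Matrix.smul_apply, smul_eq_mul] at h
  have e1 : (j + (n + 1 : ℕ) - 1 - i - 1 : ℤ) = j + n - 1 - i := by push_cast; ring
  have e2 : (j - 1 + (n + 1 : ℕ) - 1 - i : ℤ) = j + n - 1 - i := by push_cast; ring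
  rw [e1, e2, smul_smul, ← add_smul, ← h]
  congr 1
  ring

/-- The first order part of `L_{n-1}`. -/
def LL (n : ℕ) (f : X.S K) : X.S K := sig (fun x => Lz n x.1 x.2 f) - Lz n 1 X.one f

theorem LL_add (n : ℕ) (f g : X.S K) : LL n (f + g) = LL n f + LL n g := by
  simp only [LL, Lz_add, sig_add]; abel

theorem LL_smul (n : ℕ) (c : K) (f : X.S K) : LL n (c • f) = c • LL n f := by
  simp only [LL, Lz_smul, sig_smul, smul_sub]

/-- The first order part of `L_{n-1}` as a linear map. -/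
def LLm (n : ℕ) : X.S K →ₗ[K] X.S K where
  toFun := LL n
  map_add' := LL_add n
  map_smul' := LL_smul n

theorem LL_smulC (n : ℕ) (c : ℂ) (f : X.S K) : LL n (c • f) = c • LL n f := by
  rw [smulR_eq, LL_smul, ← smulR_eq]

theorem LL_zero (n : ℕ) : LL n (0 : X.S K) = 0 := (LLm n).map_zero
theorem LL_sub (n : ℕ) (f g : X.S K) : LL n (f - g) = LL n f - LL n g := (LLm n).map_sub f g
theorem LL_neg (n : ℕ) (f : X.S K) : LL n (-f) = -LL n f := (LLm n).map_neg f
theorem LL_sum {α : Type} (n : ℕ) (s : Finset α) (f : α → X.S K) :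
    LL n (∑ i ∈ s, f i) = ∑ i ∈ s, LL n (f i) := map_sum (LLm n) f s

theorem LL_one (n : ℕ) : LL n (1 : X.S K) = 0 := by simp [LL, Lz]

theorem LL_nil (n : ℕ) (f : X.S K) : LL n f [] = -Lz n 1 X.one f [] := by
  rw [LL, sub_ap, sig_nil, zero_sub]

theorem symm_LL {f : X.S K} (hf : Symm f) (n : ℕ) : Symm (LL n f) :=
  (symm_sig fun _ => symm_Lz hf _ _ _).sub (symm_Lz hf _ _ _)

/-- A sum over the terms of the second order part of `L_{n-1}`. -/
def T (n : ℕ) (G : ℤ → X.ι → ℤ → X.ι → X.S K) : X.S K :=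
  ∑ i ∈ range (n + 1), ∑ s ∈ range n, ∑ a, ∑ b, κ n i s a b • G s a (n - 2 - i - s) b

theorem T_add (n : ℕ) (G G' : ℤ → X.ι → ℤ → X.ι → X.S K) :
    T n (fun s a t b => G s a t b + G' s a t b) = T n G + T n G' := by
  simp only [T, smul_add, sum_add_distrib]

theorem T_map (n : ℕ) (G : ℤ → X.ι → ℤ → X.ι → X.S K) (φ : X.S K →+ X.S K)
    (hφ : ∀ (c : ℂ) f, φ (c • f) = c • φ f) :
    φ (T n G) = T n fun s a t b => φ (G s a t b) := by
  simp only [T, map_sum, hφ]

theorem T_congr (H : X.Ok) (n : ℕ) {G G' : ℤ → X.ι → ℤ → X.ι → X.S K}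
    (h : ∀ (s : ℕ) a t b, X.par a = X.par b → G s a t b = G' s a t b) : T n G = T n G' := by
  refine sum_congr rfl fun i _ => sum_congr rfl fun s _ => sum_congr rfl fun a _ =>
    sum_congr rfl fun b _ => ?_
  by_cases h0 : κ n i s a b = 0
  · simp [h0]
  · rw [h _ _ _ _ (H.κ_par h0)]

theorem T_shift (n : ℕ) (G : ℤ → X.ι → ℤ → X.ι → X.S K)
    (h1 : ∀ a t b, G (-1) a t b = 0) (h2 : ∀ s a t b, t < 0 → G s a t b = 0) :
    T (n + 1) (fun s a t b => G (s - 1) a t b + G s a (t - 1) b) = ((n : ℂ) + 1) • T n G := by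
  have e : T n G = ∑ i ∈ range (n + 1 + 1), ∑ s ∈ range n, ∑ a, ∑ b,
      κ n i s a b • G s a (n - 2 - i - s) b := by
    rw [sum_range_succ _ (n + 1)]
    simp [T, κ_gt (Nat.lt_succ_self n)]
  rw [e, T, smul_sum]
  refine sum_congr rfl fun i _ => ?_
  simp only [smul_add, sum_add_distrib]
  rw [sum_range_succ', sum_range_succ _ n]
  simp only [Nat.cast_zero, zero_sub, h1, smul_zero, sum_const_zero, add_zero]
  rw [sum_eq_zero (s := univ) fun a _ => sum_eq_zero fun b _ => by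
    rw [h2 _ _ _ _ (by push_cast; omega), smul_zero], add_zero, ← sum_add_distrib, smul_sum]
  refine sum_congr rfl fun s _ => ?_
  rw [← sum_add_distrib, smul_sum]
  refine sum_congr rfl fun a _ => ?_
  rw [← sum_add_distrib, smul_sum]
  refine sum_congr rfl fun b _ => ?_
  have e1 : (((s + 1 : ℕ) : ℤ) - 1) = s := by push_cast; ring
  have e2 : (((n + 1 : ℕ) : ℤ) - 2 - i - (s + 1 : ℕ)) = n - 2 - i - s := by push_cast; ring
  have e3 : (((n + 1 : ℕ) : ℤ) - 2 - i - s - 1) = n - 2 - i - s := by push_cast; ring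
  rw [e1, e2, e3, ← add_smul, κ_diff, smul_smul]

theorem sum_pick {A : Type} [AddCommMonoid A] (n i s : ℕ) (φ : ℤ → A) (h : ∀ t < 0, φ t = 0) :
    φ (n - 2 - i - s) = ∑ t ∈ range n, if i + s + t + 2 = n then φ t else 0 := by
  by_cases h0 : i + s + 2 ≤ n
  · rw [sum_eq_single (n - 2 - i - s) (fun t _ ht => if_neg (by omega)) (fun ht => by
      simp at ht; omega), if_pos (by omega)]
    congr 1
    omega
  · rw [h _ (by omega), sum_eq_zero fun t _ => if_neg (by omega)]

theorem T_swap (H : X.Ok) (n : ℕ) (G : ℤ → X.ι → ℤ → X.ι → X.S K)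
    (h1 : ∀ s a t b, s < 0 → G s a t b = 0) (h2 : ∀ s a t b, t < 0 → G s a t b = 0) :
    T n G = T n fun s a t b => (sg (X.par a) : K) • G t b s a := by
  refine sum_congr rfl fun i _ => ?_
  have e1 : ∀ s : ℕ, ∑ a, ∑ b, κ n i s a b • G s a (n - 2 - i - s) b =
      ∑ t ∈ range n, if i + s + t + 2 = n then ∑ a, ∑ b, κ n i s a b • G s a t b else 0 :=
    fun s => sum_pick n i s (fun t => ∑ a, ∑ b, κ n i s a b • G s a t b) fun t ht => by
      simp [h2 _ _ _ _ ht]
  have e2 : ∀ s : ℕ, ∑ a, ∑ b, κ n i s a b • (sg (X.par a) : K) • G (n - 2 - i - s) b s a =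
      ∑ t ∈ range n, if i + s + t + 2 = n then
        ∑ a, ∑ b, κ n i s a b • (sg (X.par a) : K) • G t b s a else 0 :=
    fun s => sum_pick n i s (fun t => ∑ a, ∑ b, κ n i s a b • (sg (X.par a) : K) • G t b s a)
      fun t ht => by simp [h1 _ _ _ _ ht]
  simp only [e1, e2]
  rw [sum_comm]
  refine sum_congr rfl fun s _ => sum_congr rfl fun t _ => ?_
  by_cases h : i + s + t + 2 = n
  · rw [if_pos h, if_pos (by omega), sum_comm]
    refine sum_congr rfl fun a _ => sum_congr rfl fun b _ => ?_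
    rw [H.κ_sym (s := t) (t := s) (by omega), ← sgR_smul (R := ℂ), smul_smul, mul_comm]
  · rw [if_neg h, if_neg (by omega)]

namespace Ok

variable (H : X.Ok)
include H

theorem par_Lz {b : Bool} {f : X.S K} (hf : Par b f) (n : ℕ) (j : ℤ) (a : X.ι) :
    Par (xor b (X.par a)) (Lz n j a f) :=
  par_sum fun _ _ => par_sum fun _ _ => Par.smul' _ fun h => by
    rw [← H.M_par h]; exact par_dz hf _ _

theorem der_Lz {f : X.S K} (hf : Symm f) (x : ℕ × X.ι) (n : ℕ) (j : ℤ) (a : X.ι) :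
    (sg (X.par x.2 && X.par a) : K) • der x (Lz n j a f) = Lz n j a (der x f) := by
  simp only [Lz, der_sum, smul_sum, der_smulR]
  refine sum_congr rfl fun i _ => sum_congr rfl fun b _ => ?_
  by_cases h : X.M n i j b a = 0
  · simp [h]
  · rw [smul_comm, ← H.M_par h, der_dz hf]

theorem Lz_mul (n : ℕ) (j : ℤ) (a : X.ι) (f g : X.S K) :
    Lz n j a (f * g) = f * Lz n j a g + Lz n j a f * tw (X.par a) g := by
  simp only [Lz, mul_sum, sum_mul, ← sum_add_distrib]
  refine sum_congr rfl fun i _ => sum_congr rfl fun b _ => ?_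
  by_cases h : X.M n i j b a = 0
  · simp [h]
  · rw [dz_mul, H.M_par h, smul_add, mul_smul_comm, smul_mul_assoc]

theorem LL_mul (n : ℕ) (f g : X.S K) : LL n (f * g) = f * LL n g + LL n f * g := by
  simp only [LL, H.Lz_mul, sig_add, mul_sub, sub_mul, mul_sig, sig_mul, H.par_one, tw_false]
  abel

theorem par_LL {b : Bool} {f : X.S K} (hf : Par b f) (n : ℕ) : Par b (LL n f) :=
  (par_sig fun _ => H.par_Lz hf _ _ _).sub ((H.par_Lz hf _ _ _).cast (by simp [H.par_one]))

theorem der_Lz_one {f : X.S K} (hf : Symm f) (x : ℕ × X.ι) (n : ℕ) (j : ℤ) :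
    der x (Lz n j X.one f) = Lz n j X.one (der x f) := by
  simpa [H.par_one] using H.der_Lz hf x n j X.one

theorem der_LL {f : X.S K} (hf : Symm f) (x : ℕ × X.ι) (n : ℕ) :
    der x (LL n f) = Lz n x.1 x.2 f + LL n (der x f) := by
  simp only [LL, der_sub, der_sig, H.der_Lz hf, H.der_Lz_one hf]
  abel

theorem dz_LL {f : X.S K} (hf : Symm f) (j : ℤ) (a : X.ι) (n : ℕ) :
    dz j a (LL n f) = (if 0 ≤ j then Lz n j a f else 0) + LL n (dz j a f) := by
  unfold dz
  split_ifs with h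
  · rw [H.der_LL hf, Int.toNat_of_nonneg h]
  · simp [LL_zero]

theorem LL0_dz {f : X.S K} (hf : Symm f) (j : ℤ) (a : X.ι) :
    LL 0 (dz j a f) = dz j a (LL 0 f) - dz (j - 1) a f := by
  rw [H.dz_LL hf, Lz_zero]
  split_ifs with h
  · abel
  · rw [dz_neg (j := j - 1) (by omega)]; abel

theorem LL0_Lz {f : X.S K} (hf : Symm f) (n : ℕ) (j : ℤ) (a : X.ι) :
    LL 0 (Lz (n + 1) j a f) = Lz (n + 1) j a (LL 0 f) -
      (Lz (n + 1) (j - 1) a f + ((n : ℂ) + 1) • Lz n j a f) := by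
  rw [← Lz_diff]
  simp only [Lz, LL_sum, LL_smulC, H.LL0_dz hf, smul_sub, sum_sub_distrib]

/-- The commutator of the first order parts of `L_{-1}` and `L_n`. -/
theorem LL_comm (n : ℕ) (l : List (ℕ × X.ι)) : ∀ f : X.S K, Symm f →
    (LL 0 (LL (n + 1) f) - LL (n + 1) (LL 0 f) + ((n : ℂ) + 1) • LL n f +
      sig fun x => if x.1 = 0 then Lz (n + 1) (-1) x.2 f else 0) l = 0 := by
  induction l with
  | nil =>
    intro f hf
    have e := congrFun (H.LL0_Lz hf n 1 X.one) []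
    have e2 := congrFun (H.der_Lz_one hf (0, X.one) (n + 1) 1) []
    simp only [add_ap, sub_ap, smulR_ap, sig_nil, LL_nil, Lz_zero, sub_self, dz_zero',
      H.der_LL hf, Nat.cast_zero] at e e2 ⊢
    rw [e2] at e
    simp only [smul_neg]
    linear_combination -e
  | cons x l ih =>
    intro f hf
    have e0 := ih _ (hf.der x)
    have e1 := H.LL0_Lz hf n x.1 x.2
    have e2 := H.dz_LL hf (x.1 - 1) x.2 (n + 1)
    have e3 : (fun y : ℕ × X.ι => (sg (X.par x.2 && X.par y.2) : K) •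
        der x (if y.1 = 0 then Lz (n + 1) (-1) y.2 f else 0)) =
        fun y => if y.1 = 0 then Lz (n + 1) (-1) y.2 (der x f) else 0 := by
      funext y
      split_ifs
      · exact H.der_Lz hf _ _ _ _
      · simp
    have e4 : ((if 0 ≤ (x.1 : ℤ) - 1 then Lz (n + 1) (x.1 - 1) x.2 f else 0) +
        if x.1 = 0 then Lz (n + 1) (-1) x.2 f else 0) = Lz (n + 1) (x.1 - 1) x.2 f := by
      by_cases h : x.1 = 0
      · simp [h]
      · rw [if_pos (by omega), if_neg h, add_zero]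
    have e5 : der x (LL 0 (LL (n + 1) f) - LL (n + 1) (LL 0 f) + ((n : ℂ) + 1) • LL n f +
        sig fun x => if x.1 = 0 then Lz (n + 1) (-1) x.2 f else 0) =
        LL 0 (LL (n + 1) (der x f)) - LL (n + 1) (LL 0 (der x f)) +
          ((n : ℂ) + 1) • LL n (der x f) +
          sig fun y => if y.1 = 0 then Lz (n + 1) (-1) y.2 (der x f) else 0 := by
      simp only [der_add, der_sub, der_smulR, der_sig, e3, H.der_LL hf, H.der_LL (symm_LL hf _),
        LL_add, Lz_zero, e1, e2, smul_add]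
      generalize (if 0 ≤ (x.1 : ℤ) - 1 then Lz (n + 1) (x.1 - 1) x.2 f else 0) = u at e4 ⊢
      generalize (if x.1 = 0 then Lz (n + 1) (-1) x.2 f else 0) = w at e4 ⊢
      rw [← e4]
      abel
    exact (congrFun e5 l).trans e0

end Ok

end Vale.Agent.P269.Tgt
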