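import Vale.Agent.P269.Ev
import Vale.Agent.P269.CIOk

/-! The genus 1 constraints of a Fano complete intersection: the Taylor expansion at the origin. -/

noncomputable section

namespace Vale.Agent.P269.CI

open Finset Ser Matrix PowerSeries Tgt

variable {Y : CI} {F : ℕ → Y.tgt.S ℂ⟦X⟧}

theorem inv_right {a b : Y.tgt.ι} (h : Y.tgt.η⁻¹ a b ≠ 0) : a.isRight = b.isRight := by
  have := Y.ok.inv_comm (fun a => if a.isRight then 1 else 0) (by
    rintro (a | a) (b | b) h
    · rfl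
    · exact (h rfl).elim
    · exact (h rfl).elim
    · rfl) h
  rcases a with a | a <;> rcases b with b | b <;> simp at this ⊢

theorem Γ_deg (hD : Dim Y.r F) {d : ℕ} {a b : Y.tgt.ι}
    (h : coeff d (Γ (res (F 0)) 0 0 a b []) ≠ 0) :
    (Y.tgt.p a : ℤ) = Y.tgt.p b + 1 - Y.r * d ∧ (Y.tgt.q a : ℤ) = Y.tgt.q b + 1 - Y.r * d := by
  rw [Γ_nil, map_sum] at h
  obtain ⟨c, -, hc⟩ := exists_ne_zero_of_sum_ne_zero h
  rw [map_smul, smul_eq_mul] at hc
  have h1 := Y.ok.inv_deg (left_ne_zero_of_mul hc)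
  have h2 := hD 0 d _ (right_ne_zero_of_mul hc)
  simp only [List.map_cons, List.map_nil, List.sum_cons, List.sum_nil, Nat.cast_zero] at h1 h2 ⊢
  omega

theorem Γ_right (hP : Y.PrimEven (F 0)) {a b : Y.tgt.ι} (h : a.isRight ≠ b.isRight) :
    Γ (res (F 0)) 0 0 a b [] = 0 := by
  rw [Γ_nil]
  refine sum_eq_zero fun c _ => ?_
  by_cases h0 : Y.tgt.η⁻¹ a c = 0
  · rw [h0, zero_smul]
  · rw [hP, smul_zero]
    rw [inv_right h0] at h
    rcases c with c | c <;> rcases b with b | b <;> simp [List.countP_cons] at h ⊢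

theorem U0_right (hP : Y.PrimEven (F 0)) {a b : Y.tgt.ι} (h : a.isRight ≠ b.isRight) :
    U0 F a b = 0 := by
  rw [U0_eq, Γ_right hP h, smul_zero, zero_add]
  rcases a with a | a <;> rcases b with b | b
  · exact (h rfl).elim
  · exact zero_smul _ _
  · exact zero_smul _ _
  · exact (h rfl).elim

theorem U0_deg (hD : Dim Y.r F) {d : ℕ} {a b : Y.tgt.ι} (h : coeff d (U0 F a b) ≠ 0) :
    (Y.tgt.p a : ℤ) = Y.tgt.p b + 1 - Y.r * d ∧ (Y.tgt.q a : ℤ) = Y.tgt.q b + 1 - Y.r * d := by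
  by_cases h0 : coeff d (Γ (res (F 0)) 0 0 a b []) = 0
  · rw [U0_eq, map_add, map_smul, h0, smul_zero, zero_add, map_smul, smul_eq_mul] at h
    have h1 := Y.ok.Rdeg b a (left_ne_zero_of_mul h)
    have h2 : d = 0 := by
      by_contra h2
      exact right_ne_zero_of_mul h (by rw [coeff_one, if_neg h2])
    subst h2
    omega
  · exact Γ_deg hD h0

theorem U0_succ {i j : Fin (Y.D + 1)} (h : j.1 = i.1 + 1) :
    U0 F (Sum.inl j) (Sum.inl i) = (Y.r : ℂ) • 1 := by
  have e : Y.tgt.μ (Sum.inl i) - Y.tgt.μ (Sum.inl j) + 1 = 0 := by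
    change ((i.1 : ℂ) - _) - (j.1 - _) + 1 = 0
    rw [h]; push_cast; ring
  rw [U0_eq, e, zero_smul, zero_add]
  congr 1
  exact if_pos h

theorem U0_gt (hr : 0 < Y.r) (hD : Dim Y.r F) {i j : Fin (Y.D + 1)} (h : i.1 + 1 < j.1) :
    U0 F (Sum.inl j) (Sum.inl i) = 0 := PowerSeries.ext fun d => by
  by_contra h0
  have h1 : (j.1 : ℤ) = i.1 + 1 - Y.r * d := (U0_deg hD h0).1
  have h2 : 0 ≤ Y.r * d := by positivity
  omega

theorem cyc (hr : 0 < Y.r) (hD : Dim Y.r F) (hP : Y.PrimEven (F 0))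
    (N : Submodule ℂ⟦X⟧ (Y.tgt.ι → ℂ⟦X⟧)) (h1 : Pi.single Y.tgt.one 1 ∈ N)
    (hU : ∀ x ∈ N, U0 F *ᵥ x ∈ N) (i : Fin (Y.D + 1)) : Pi.single (Sum.inl i) 1 ∈ N := by
  obtain ⟨i, hi⟩ := i
  induction i using Nat.strong_induction_on with
  | _ i ih =>
  cases i with
  | zero => exact h1
  | succ i =>
    have e := hU _ (ih i (by omega) (by omega))
    rw [mulVec_single_one, ← univ_sum_single (col _ _), ← add_sum_erase _ _
      (mem_univ (Sum.inl ⟨i + 1, hi⟩)), N.add_mem_iff_left (N.sum_mem ?_), col_apply,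
      U0_succ rfl] at e
    · have := N.smul_mem (((Y.r : ℂ)⁻¹) • (1 : ℂ⟦X⟧)) e
      rwa [← Pi.single_smul, smul_eq_mul, smul_mul_assoc, one_mul, smul_smul,
        inv_mul_cancel₀ (by exact_mod_cast hr.ne'), one_smul] at this
    · rintro (j | a) hj
      · by_cases h : j.1 ≤ i
        · have := N.smul_mem (U0 F (Sum.inl j) (Sum.inl ⟨i, by omega⟩)) (ih j (by omega) j.2)
          rwa [← Pi.single_smul, smul_eq_mul, mul_one] at this
        · have : j.1 ≠ i + 1 := fun e => ne_of_mem_erase hj (congrArg Sum.inl (Fin.ext e))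
          rw [col_apply, U0_gt hr hD (by simp only; omega), Pi.single_zero]
          exact N.zero_mem
      · rw [col_apply, U0_right hP (by simp), Pi.single_zero]
        exact N.zero_mem

theorem mulVec_amb (hP : Y.PrimEven (F 0)) {x : Y.tgt.ι → ℂ⟦X⟧} (h : ∀ a, x (Sum.inr a) = 0)
    (a : Y.P) : (U0 F *ᵥ x) (Sum.inr a) = 0 :=
  sum_eq_zero fun b _ => by
    rcases b with b | b
    · exact mul_eq_zero_of_left (U0_right hP (by simp)) _
    · rw [h, mul_zero]

theorem jet_amb (H : G1 F) (hr : 0 < Y.r) (hD : Dim Y.r F) (hP : Y.PrimEven (F 0))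
    (l : List (ℕ × Y.tgt.ι)) (h : ∀ l', l'.length < l.length + 2 → res (z F 2 1) l' = 0)
    (i : Fin (Y.D + 1)) (c : Y.tgt.ι) : res (z F 2 1) ((0, Sum.inl i) :: (0, c) :: l) = 0 := by
  let N : Submodule ℂ⟦X⟧ (Y.tgt.ι → ℂ⟦X⟧) :=
    { carrier := {x | (∀ a, x (Sum.inr a) = 0) ∧
        ∀ c, ∑ a, res (z F 2 1) ((0, a) :: (0, c) :: l) * x a = 0}
      add_mem' := fun hx hy => ⟨fun a => by rw [Pi.add_apply, hx.1, hy.1, add_zero], fun c => by
        simp only [Pi.add_apply, mul_add, sum_add_distrib, hx.2, hy.2, add_zero]⟩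
      zero_mem' := ⟨fun _ => rfl, fun c => by simp⟩
      smul_mem' := fun u x hx => ⟨fun a => by rw [Pi.smul_apply, hx.1, smul_zero], fun c => by
        simp only [Pi.smul_apply, mul_smul_comm, ← smul_sum, hx.2, smul_zero]⟩ }
  have := (cyc hr hD hP N ⟨fun a => Pi.single_eq_of_ne (by simp) _, fun c => by
    simpa [Pi.single_apply, der, zero_ap] using congrFun H.der_one ((0, c) :: l)⟩ (fun x hx =>
      ⟨mulVec_amb hP hx.1, fun c => ?_⟩) i).2 c
  · simpa [Pi.single_apply] using this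
  · simp only [mulVec, dotProduct, mul_sum, ← mul_assoc]
    rw [sum_comm]
    have e : ∀ b, ∑ a, res (z F 2 1) ((0, a) :: (0, c) :: l) * U0 F a b * x b =
        ∑ a, U0 F a c * (res (z F 2 1) ((0, b) :: (0, a) :: l) * x b) := by
      rintro (b | b)
      · simp only [U0_apply]
        rw [← sum_mul, H.jet_symm l h _ c (Y.par_inl b), sum_mul]
        exact sum_congr rfl fun a _ => by rw [mul_comm (res _ _), mul_assoc]
      · simp [hx.1]
    simp only [e]
    rw [sum_comm]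
    simp only [← mul_sum, hx.2, mul_zero, sum_const_zero]

/-- The genus 1 constraints follow from the constraint `L_1` for one ambient insertion and for
primitive insertions. -/
theorem vir_one (H : G1 F) (hr : 0 < Y.r) (hD : Dim Y.r F) (hP : Y.PrimEven (F 0))
    (h1 : ∀ i, z F 2 1 [(0, Sum.inl i)] = 0)
    (h2 : ∀ l : List Y.P, z F 2 1 (l.map fun a => (0, Sum.inr a)) = 0) (n : ℕ) : z F n 1 = 0 := by
  refine H.vir1 (ext' fun l => ?_) n
  induction hN : l.length using Nat.strong_induction_on generalizing l with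
  | _ N ih =>
  by_cases h0 : ∀ x ∈ l, x.1 = 0
  swap
  · exact if_neg h0
  by_cases h3 : ∃ i, (0, Sum.inl i) ∈ l
  · obtain ⟨i, hi⟩ := h3
    obtain ⟨l₁, l₂, rfl⟩ := List.append_of_mem hi
    obtain ⟨b, hb⟩ := (symm_res (symm_z H.symm 2 1)).front (0, Sum.inl i) l₂ l₁
    rw [hb, zero_ap]
    have hl : (l₁ ++ l₂).length + 1 = N := by simp at hN ⊢; omega
    have h4 : ∀ x ∈ l₁ ++ l₂, x.1 = 0 := fun x hx => h0 x (by simp at hx ⊢; tauto)
    generalize l₁ ++ l₂ = l at hl h4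
    cases l with
    | nil => rw [res, if_pos (by simp), h1, mul_zero]
    | cons y l =>
      obtain ⟨m, c⟩ := y
      obtain rfl : m = 0 := h4 (m, c) (by simp)
      rw [jet_amb H hr hD hP l (fun l' hl' => ih _ (by simp at hl; omega) l' rfl), mul_zero]
  · have : ∃ l' : List Y.P, l = l'.map fun a => (0, Sum.inr a) := by
      clear ih hN
      induction l with
      | nil => exact ⟨[], rfl⟩
      | cons y l ih =>
        obtain ⟨l', rfl⟩ := ih (fun x hx => h0 x (by simp [hx])) fun ⟨i, hi⟩ =>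
          h3 ⟨i, List.mem_cons_of_mem _ hi⟩
        obtain ⟨m, c | c⟩ := y
        · obtain rfl : m = 0 := h0 (m, _) List.mem_cons_self
          exact (h3 ⟨c, List.mem_cons_self⟩).elim
        · obtain rfl : m = 0 := h0 (m, _) List.mem_cons_self
          exact ⟨c :: l', rfl⟩
    obtain ⟨l', rfl⟩ := this
    rw [res, if_pos h0, h2, zero_ap]

end Vale.Agent.P269.CI
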