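import Vale.Agent.P269.Gen1

/-! A closed formula for the genus 1 Virasoro expressions on the small phase space. -/

noncomputable section

namespace Vale.Agent.P269.Tgt

open Finset Ser Matrix QV

/-- The derivative of the powers of `U` in the direction `B`. -/
def dpow {A : Type} [Ring A] (U B : A) : ℕ → A
  | 0 => 0
  | k + 1 => U * dpow U B k + B * U ^ k

section
variable {A : Type} [Ring A] (U B : A)

theorem dpow_succ' (k : ℕ) : dpow U B (k + 1) = dpow U B k * U + U ^ k * B := by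
  induction k with
  | zero => simp [dpow]
  | succ k ih =>
    conv_lhs => rw [dpow, ih]
    rw [dpow, pow_succ' _ k, add_mul, mul_assoc B, ← pow_succ, pow_succ' _ k]
    noncomm_ring

theorem dpow_eq (k : ℕ) : dpow U B (k + 1) = ∑ p ∈ antidiagonal k, U ^ p.1 * B * U ^ p.2 := by
  induction k with
  | zero => simp [dpow]
  | succ k ih =>
    rw [dpow, ih, Finset.Nat.sum_antidiagonal_succ, mul_sum, add_comm]
    simp only [pow_zero, one_mul, pow_succ', mul_assoc]

theorem map_dpow {A' : Type} [Ring A'] (f : A →+* A') (k : ℕ) :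
    f (dpow U B k) = dpow (f U) (f B) k := by
  induction k with
  | zero => exact map_zero f
  | succ k ih => simp only [dpow, map_add, map_mul, map_pow, ih]

end

variable {X : Tgt} {K : Type} [CommRing K] [Algebra ℂ K]

theorem W_neg_one (Φ : X.S K) (k : ℕ) : W Φ (-1) k = dpow (U Φ) (cm (X.μd (-1 / 2))) k := by
  induction k with
  | zero => rfl
  | succ k ih => rw [W, dpow, ih]; norm_num

theorem Wm_eq (Φ : X.S K) (k : ℕ) : Wm Φ (k + 1) =
    ((1 - X.D / 2) * (k + 1) : ℂ) • U Φ ^ k - dpow (U Φ) (cm (X.μd 0)) (k + 1) := by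
  have e : Nm X K = (1 - X.D / 2 : ℂ) • 1 - cm (X.μd 0) := by rw [cm_μd]; simp
  induction k with
  | zero => simp [Wm, dpow, e]
  | succ k ih =>
    rw [Wm, ih, dpow.eq_2 _ _ (k + 1), e, mul_sub, sub_mul (_ • 1), mul_smul_comm, ← pow_succ',
      smul_mul_assoc, one_mul]
    push_cast
    module

theorem str_V {Φ : X.S K} (hU : EM (U Φ)) (n : ℕ) : str (V Φ (-1) (n + 2)) =
    ((n + 2) / 2 : ℂ) • str (cm (X.μd 0) * dpow (U Φ) (cm (X.μd 0)) (n + 1)) -
      ((n + 2) * (n + 1) / 8 : ℂ) • str (U Φ ^ n) := by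
  have eV : ∀ n, EM (V Φ (-1) n) := fun n => by
    induction n with
    | zero => exact em_zero
    | succ n ih =>
      refine (hU.mul ih).add ((em_μd _).mul ?_)
      clear ih
      induction n with
      | zero => exact em_zero
      | succ n ih => exact (hU.mul ih).add ((em_μd _).mul (hU.pow n))
  have e0 : (((-1 + 1 : ℤ) : ℂ) + 1 / 2) = 1 / 2 := by norm_num
  have e1 : ∀ n i : ℕ, str (V Φ (-1) (n + 2) * U Φ ^ i) = ∑ p ∈ antidiagonal n,
      ((p.2 : ℂ) + 1) • str (cm (X.μd (1 / 2)) * (U Φ ^ p.1 * cm (X.μd (-1 / 2)) *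
        U Φ ^ (p.2 + i))) := by
    intro n
    induction n with
    | zero => intro i; simp [V, W_neg_one, dpow, mul_assoc]
    | succ n ih =>
      intro i
      rw [V, add_mul, str_add, mul_assoc, str_comm hU ((eV _).mul (hU.pow i)), mul_assoc,
        ← pow_succ, ih, e0, W_neg_one, dpow_eq]
      simp only [add_smul, one_smul, sum_add_distrib, mul_sum, sum_mul, str_sum, mul_assoc,
        ← pow_add]
      congr 1
      rw [Finset.Nat.sum_antidiagonal_succ']
      simp only [Nat.cast_zero, zero_smul, zero_add, Nat.cast_add_one, add_smul, one_smul,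
        sum_add_distrib, add_assoc, add_comm 1 i]
  have e2 : ∀ p ∈ antidiagonal n, str (cm (X.μd (1 / 2)) * (U Φ ^ p.1 * cm (X.μd (-1 / 2)) *
      U Φ ^ p.2)) = str (cm (X.μd 0) * (U Φ ^ p.1 * cm (X.μd 0) * U Φ ^ p.2)) -
        (1 / 4 : ℂ) • str (U Φ ^ n) := by
    intro p hp
    have e := str_comm (hU.pow p.1) ((em_μd (K := K) 0).mul (hU.pow p.2))
    rw [← zero_add (1 / 2 : ℂ), ← zero_add (-1 / 2 : ℂ), cm_μd_add, cm_μd_add,
      ← mem_antidiagonal.mp hp]
    simp only [mul_add, add_mul, str_add, mul_smul_comm, smul_mul_assoc, str_smul, mul_one, one_mul,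
      mul_assoc, ← pow_add, add_comm p.2 p.1] at e ⊢
    rw [e]
    module
  have e3 : ∀ f : ℕ → ℕ → X.S K, (∀ a b, f a b = f b a) → ∑ p ∈ antidiagonal n,
      ((p.2 : ℂ) + 1) • f p.1 p.2 = ((n + 2) / 2 : ℂ) • ∑ p ∈ antidiagonal n, f p.1 p.2 := by
    intro f hf
    have e := Finset.Nat.sum_antidiagonal_swap (n := n) (f := fun p => ((p.2 : ℂ) + 1) • f p.1 p.2)
    have e4 : ∑ p ∈ antidiagonal n, ((p.2 : ℂ) + 1) • f p.1 p.2 + ∑ p ∈ antidiagonal n,
        ((p.2 : ℂ) + 1) • f p.1 p.2 = ((n : ℂ) + 2) • ∑ p ∈ antidiagonal n, f p.1 p.2 := by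
      nth_rewrite 1 [← e]
      rw [← sum_add_distrib, smul_sum]
      refine sum_congr rfl fun p hp => ?_
      rw [← mem_antidiagonal.mp hp, Prod.fst_swap, Prod.snd_swap, hf p.2]
      push_cast
      module
    linear_combination (norm := module) (1 / 2 : ℂ) • e4
  have e5 := e1 n 0
  rw [pow_zero, mul_one] at e5
  rw [e5, sum_congr rfl fun p hp => by rw [add_zero, e2 p hp]]
  simp only [smul_sub, sum_sub_distrib]
  rw [e3 (fun a b => str (cm (X.μd 0) * (U Φ ^ a * cm (X.μd 0) * U Φ ^ b))) fun a b => by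
    rw [← mul_assoc, ← mul_assoc, mul_assoc _ _ (U Φ ^ b),
      str_comm ((em_μd 0).mul (hU.pow a)) ((em_μd 0).mul (hU.pow b))]
    simp only [mul_assoc], e3 (fun _ _ => (1 / 4 : ℂ) • str (U Φ ^ n)) fun _ _ => rfl, dpow_eq,
    mul_sum, str_sum, sum_const, Finset.Nat.card_antidiagonal, ← Nat.cast_smul_eq_nsmul ℂ]
  push_cast
  module

namespace QV

variable {Φ : X.S K} {W : SW Φ}

theorem nab_one_E_mul (y : QV W) : nab 1 (E W * y) = y + E W * nab 1 y := by
  rw [nab_E_mul]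
  simp

theorem nab_one_pow (k : ℕ) : nab 1 (E W ^ (k + 1)) = ((k : ℂ) + 1) • E W ^ k := by
  induction k with
  | zero => simp [nab_E, ν_one]
  | succ k ih =>
    rw [pow_succ', nab_one_E_mul, ih, mul_smul_comm, ← pow_succ']
    push_cast
    module

theorem nab_one_w (k : ℕ) : nab 1 (w W (k + 1) 1) = ((k : ℂ) + 1) • w W k 1 := by
  induction k with
  | zero => simp [w_succ, w_zero, ν_one, nab_one]
  | succ k ih =>
    rw [w_succ, map_add, nab_one_E_mul, ih, nab_ν, mul_one, nab_one_pow, map_smul, w_succ k,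
      mul_one, mul_smul_comm]
    push_cast
    module

end QV

/-- The closed formula. -/
theorem G1.res_z_closed {F : ℕ → X.S K} (H : G1 F) (k : ℕ) : -res (z F (k + 1) 1) =
    Dv (U (res (F 0)) ^ (k + 1) *ᵥ ee X K) (res (F 1)) +
    (1 / 4 : ℂ) • Tgt.str (cm (X.μd 0) * dpow (U (res (F 0))) (cm (X.μd 0)) (k + 1)) +
    (1 / 24 : ℂ) • Dv (dpow (U (res (F 0))) (cm (X.μd 0)) (k + 1) *ᵥ ee X K) (lp (res (F 0))) := by
  have e := H.hq (k + 1 + 1) 1
  have e1 : ∀ x : QV H.sw, c2 (res (F 1)) 1 x = 0 := fun x => by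
    have e2 := congrArg res (H.str 1)
    rw [z_zero, if_neg one_ne_zero, add_zero, res_LL_zero, res_zero, neg_eq_zero] at e2
    rw [c2_comm (symm_res (H.symm 1)), c2_apply, cor_cons, one_val]
    simp [ee, Pi.single_apply, e2, cor_zero]
  have e2 : Tgt.str (U (res (F 0)) ^ k) = c1 H.sw (lp (res (F 0))) (E _ ^ k) := by
    rw [← str_Ah, map_pow, Ah_E]
  have e3 : Dv (dpow (U (res (F 0))) (cm (X.μd 0)) (k + 1) *ᵥ ee X K) (lp (res (F 0))) =
      ((1 - X.D / 2) * (k + 1) : ℂ) • c1 H.sw (lp (res (F 0))) (E _ ^ k) -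
        c1 H.sw (lp (res (F 0))) (w _ (k + 1) 1) := by
    rw [← map_smul, ← map_sub, c1_apply, sub_val, smul_val, ← w_val, Wm_eq, ← mul_one (E _ ^ k),
      ← U_pow_mulVec, ← smul_mulVec, ← sub_mulVec, sub_sub_cancel, one_val]
  rw [c1_neg, c1_apply, one_val, H.Dv_ee_z, hh_succ, c1_add, c1_smul, c1_sub, c1_smul, c1_t,
    c1_c1, c1_c1, e1, nab_one_pow, nab_one_w, c2_comm (symm_lp (W := H.sw)), τ_one,
    _root_.map_one (Ah _), mul_one, mul_one, str_V (em_U (W := H.sw)), e2, map_smul, map_smul] at e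
  rw [e3, ← one_val (W := H.sw), U_pow_mulVec, mul_one, ← c1_apply]
  refine sub_eq_zero.mp (smul_cancel (c := (k + 2 : ℕ)) (Nat.cast_ne_zero.mpr (by omega)) ?_)
  push_cast at e ⊢
  linear_combination (norm := module) e

end Vale.Agent.P269.Tgt
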