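import Vale.Agent.P269.Res

/-! The commutative ring of even vector fields on the small phase space. -/

noncomputable section

namespace Vale.Agent.P269.Tgt

open Finset Ser Matrix

variable {X : Tgt} {K : Type} [CommRing K] [Algebra ℂ K]

/-- A conformal Frobenius structure on the small phase space. -/
structure SW (Φ : X.S K) : Prop extends WD Φ where
  unit : A Φ (ee X K) = 1
  euler : U Φ = A Φ (U Φ *ᵥ ee X K)

variable (X K) in
/-- The even vector fields. -/
def evSub : Submodule ℂ (X.ι → X.S K) where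
  carrier := {v | EV v}
  add_mem' hv hw a := (hv a).add (hw a)
  zero_mem' _ := par_zero _
  smul_mem' c _ hv a := (hv a).smul c

/-- The even vector fields with the quantum product. -/
def QV {Φ : X.S K} (_ : SW Φ) : Type := evSub X K

section D
omit [Algebra ℂ K]

theorem D_cor1 {w : X.ι → X.S K} (hw : EV w) (f : X.S K) (x : X.ι → X.S K) :
    Dv w (cor f [x]) = cor f [fun a => Dv w (x a)] + cor f [x, w] := D_cor hw f x []

theorem D_cor2 {w : X.ι → X.S K} (hw : EV w) (f : X.S K) (x y : X.ι → X.S K) :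
    Dv w (cor f [x, y]) = cor f [fun a => Dv w (x a), y] + cor f [x, fun a => Dv w (y a)] +
      cor f [x, y, w] := by
  rw [D_cor hw, add_assoc]
  simp only [D_cor1 hw, add_mul, sum_add_distrib, cor_cons f x]

theorem D_cor3 {w : X.ι → X.S K} (hw : EV w) (f : X.S K) (x y u : X.ι → X.S K) :
    Dv w (cor f [x, y, u]) = cor f [fun a => Dv w (x a), y, u] +
      cor f [x, fun a => Dv w (y a), u] + cor f [x, y, fun a => Dv w (u a)] +
      cor f [x, y, u, w] := by
  rw [D_cor hw, add_assoc, add_assoc]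
  simp only [D_cor2 hw, add_mul, sum_add_distrib, cor_cons f x, add_assoc]

end D

namespace QV

variable {Φ : X.S K} {W : SW Φ}

instance : AddCommGroup (QV W) := inferInstanceAs (AddCommGroup (evSub X K))
instance : Module ℂ (QV W) := inferInstanceAs (Module ℂ (evSub X K))

/-- The underlying vector. -/
def val (x : QV W) : X.ι → X.S K := Subtype.val x

theorem ev (x : QV W) : EV x.val := Subtype.property x

theorem ext {x y : QV W} (h : x.val = y.val) : x = y := Subtype.ext h

instance : CommRing (QV W) where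
  __ := (inferInstance : AddCommGroup (QV W))
  mul x y := ⟨A Φ x.val *ᵥ y.val, (W.em_A x.ev).mulVec y.ev⟩
  one := ⟨ee X K, W.ok.ev_ee⟩
  left_distrib x y u := ext (mulVec_add _ _ _)
  right_distrib x y u := ext ((congrArg (· *ᵥ u.val) (A_add Φ x.val y.val)).trans (add_mulVec _ _ _))
  zero_mul x := ext ((W.A_symm (0 : QV W).ev x.ev).trans (mulVec_zero _))
  mul_zero x := ext (mulVec_zero _)
  mul_assoc x y u := ext ((congrArg (· *ᵥ u.val) ((W.mu_A x.ev).eq y.val y.ev)).trans
    (mulVec_mulVec _ _ _).symm)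
  one_mul x := ext ((congrArg (· *ᵥ x.val) W.unit).trans (one_mulVec _))
  mul_one x := ext ((W.A_symm x.ev W.ok.ev_ee).trans
    ((congrArg (· *ᵥ x.val) W.unit).trans (one_mulVec _)))
  mul_comm x y := ext (W.A_symm x.ev y.ev)

theorem mul_val (x y : QV W) : (x * y).val = A Φ x.val *ᵥ y.val := rfl
theorem one_val : (1 : QV W).val = ee X K := rfl
theorem add_val (x y : QV W) : (x + y).val = x.val + y.val := rfl
theorem sub_val (x y : QV W) : (x - y).val = x.val - y.val := rfl
theorem smul_val (c : ℂ) (x : QV W) : (c • x).val = c • x.val := rfl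

theorem con_two (x y : QV W) : con Φ [x.val, y.val] = (x * y).val := by
  rw [mul_comm, mul_val, A_mulVec]

instance : Algebra ℂ (QV W) :=
  Algebra.ofModule
    (fun c x y => ext ((congrArg (· *ᵥ y.val) (A_smul Φ c x.val)).trans (smul_mulVec _ _ _)))
    fun _ _ _ => ext (mulVec_smul _ _ _)

variable (W) in
/-- The matrix of the quantum product. -/
def Ah : QV W →ₐ[ℂ] Mat X K :=
  AlgHom.ofLinearMap ⟨⟨fun x => A Φ x.val, fun x y => A_add Φ x.val y.val⟩, fun c x => A_smul Φ c x.val⟩
    W.unit fun x y => (W.mu_A x.ev).eq y.val y.ev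

theorem Ah_apply (x : QV W) : Ah W x = A Φ x.val := rfl

theorem em_Ah (x : QV W) : EM (Ah W x) := W.em_A x.ev

variable (W) in
/-- The action of an even matrix. -/
def act {B : Mat X K} (hB : EM B) : QV W →ₗ[ℂ] QV W where
  toFun x := ⟨B *ᵥ x.val, hB.mulVec x.ev⟩
  map_add' _ _ := ext (mulVec_add _ _ _)
  map_smul' _ _ := ext (mulVec_smul _ _ _)

theorem act_val {B : Mat X K} (hB : EM B) (x : QV W) : (act W hB x).val = B *ᵥ x.val := rfl

theorem mat_ext {B C : Mat X K} (h : ∀ x : QV W, B *ᵥ x.val = C *ᵥ x.val) : B = C :=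
  ext_EV fun v hv => h ⟨v, hv⟩

/-- The covariant derivative. -/
def nab (x : QV W) : QV W →ₗ[ℂ] QV W where
  toFun y := ⟨fun a => Dv x.val (y.val a), fun a => x.ev.vt.par (y.ev a)⟩
  map_add' _ _ := ext (funext fun _ => x.ev.vt.map_add _ _)
  map_smul' _ _ := ext (funext fun _ => x.ev.vt.map_smul _ _)

theorem nab_val (x y : QV W) : (nab x y).val = fun a => Dv x.val (y.val a) := rfl

theorem nab_one (x : QV W) : nab x 1 = 0 := ext (funext fun a => by
  rw [nab_val, one_val]
  by_cases h : a = X.one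
  · simp only [h, ee, Pi.single_eq_same]; exact x.ev.vt.map_one
  · simp only [ee, Pi.single_eq_of_ne h]; exact x.ev.vt.map_zero)

theorem nab_act {B : Mat X K} (hB : EM B) (x y : QV W) :
    (nab x (act W hB y)).val = B.map (Dv x.val) *ᵥ y.val + B *ᵥ (nab x y).val := by
  funext c
  simp only [nab_val, act_val, mulVec, dotProduct, x.ev.vt.map_sum, x.ev.vt.map_mul, Pi.add_apply,
    sum_add_distrib, map_apply, add_comm]

variable (W) in
/-- A correlation function as a linear function of the first vector field. -/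
def corL (f : X.S K) (vs : List (X.ι → X.S K)) : QV W →ₗ[ℂ] X.S K where
  toFun x := cor f (x.val :: vs)
  map_add' x y := by simp only [cor_cons, add_val, Pi.add_apply, mul_add, sum_add_distrib]
  map_smul' c x := by
    simp only [cor_cons, smul_val, Pi.smul_apply, mul_smul_comm, smul_sum, RingHom.id_apply]

variable (W) in
/-- The first derivative. -/
def c1 (f : X.S K) : QV W →ₗ[ℂ] X.S K := corL W f []

/-- The second derivative. -/
def c2 (f : X.S K) (y : QV W) : QV W →ₗ[ℂ] X.S K := corL W f [y.val]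

theorem c1_apply (f : X.S K) (x : QV W) : c1 W f x = Dv x.val f := rfl

theorem c2_apply (f : X.S K) (x y : QV W) : c2 f y x = cor f [x.val, y.val] := rfl

theorem c2_comm {f : X.S K} (hf : Symm f) (x y : QV W) : c2 f x y = c2 f y x :=
  cor_swap hf y.ev x.ev []

theorem c1_c1 (f : X.S K) (x y : QV W) : c1 W (c1 W f y) x = c1 W f (nab x y) + c2 f x y :=
  D_cor1 x.ev f y.val

theorem c1_add (f g : X.S K) (x : QV W) : c1 W (f + g) x = c1 W f x + c1 W g x :=
  x.ev.vt.map_add f g

theorem c1_sub (f g : X.S K) (x : QV W) : c1 W (f - g) x = c1 W f x - c1 W g x :=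
  x.ev.vt.map_sub f g

theorem c1_neg (f : X.S K) (x : QV W) : c1 W (-f) x = -c1 W f x := x.ev.vt.map_neg f

theorem c1_smul (c : ℂ) (f : X.S K) (x : QV W) : c1 W (c • f) x = c • c1 W f x :=
  x.ev.vt.map_smul c f

theorem ev_con (l : List (QV W)) : EV (con Φ (l.map val)) := fun c => by
  rw [con_eq]
  exact par_cor _ (W.ok.ev_pp W.even 0 c) fun v hv => by
    obtain ⟨x, -, rfl⟩ := List.mem_map.mp hv
    exact x.ev

theorem con_perm {l l' : List (QV W)} (h : l.Perm l') :
    con Φ (l.map val) = con Φ (l'.map val) := funext fun c => by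
  rw [con_eq, con_eq]
  exact cor_perm (h.map _) (symm_pp W.symm 0 c) fun v hv => by
    obtain ⟨x, -, rfl⟩ := List.mem_map.mp hv
    exact x.ev

/-- The derivative of the quantum product. -/
def C3 (x y u : QV W) : QV W := ⟨con Φ [x.val, y.val, u.val], ev_con [x, y, u]⟩

/-- The second derivative of the quantum product. -/
def C4 (x y u v : QV W) : QV W := ⟨con Φ [x.val, y.val, u.val, v.val], ev_con [x, y, u, v]⟩

theorem C3_val (x y u : QV W) : (C3 x y u).val = con Φ [x.val, y.val, u.val] := rfl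

theorem C4_val (x y u v : QV W) : (C4 x y u v).val = con Φ [x.val, y.val, u.val, v.val] := rfl

theorem C3_12 (x y u : QV W) : C3 x y u = C3 y x u := ext (con_perm (List.Perm.swap y x [u]))

theorem C3_23 (x y u : QV W) : C3 x y u = C3 x u y :=
  ext (con_perm ((List.Perm.swap u y []).cons x))

theorem C4_12 (x y u v : QV W) : C4 x y u v = C4 y x u v :=
  ext (con_perm (List.Perm.swap y x [u, v]))

theorem C4_23 (x y u v : QV W) : C4 x y u v = C4 x u y v :=
  ext (con_perm ((List.Perm.swap u y [v]).cons x))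

theorem C4_34 (x y u v : QV W) : C4 x y u v = C4 x y v u :=
  ext (con_perm (((List.Perm.swap v u []).cons y).cons x))

theorem nab_mul (x y u : QV W) : nab x (y * u) = nab x y * u + y * nab x u + C3 y u x :=
  ext (funext fun c => by
    simp only [add_val, ← con_two, nab_val, Pi.add_apply, C3_val, con_eq, D_cor2 x.ev])

theorem nab_C3 (x y u v : QV W) : nab x (C3 y u v) =
    C3 (nab x y) u v + C3 y (nab x u) v + C3 y u (nab x v) + C4 y u v x :=
  ext (funext fun c => by
    simp only [add_val, nab_val, Pi.add_apply, C3_val, C4_val, con_eq, D_cor3 x.ev])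

/-- The matrix of the derivative of the quantum product. -/
def Cm (x y : QV W) : Mat X K := (Γ Φ 0 0).map fun g => cor g [x.val, y.val]

theorem Cm_mulVec (x y u : QV W) : Cm x y *ᵥ u.val = (C3 u x y).val := by
  funext c
  rw [C3_val, con_eq]
  rfl

theorem em_Cm (x y : QV W) : EM (Cm x y) := fun c a =>
  par_cor _ (W.em 0 0 c a) fun v hv => by
    simp only [List.mem_cons, List.not_mem_nil, or_false] at hv
    obtain rfl | rfl := hv
    · exact x.ev
    · exact y.ev

theorem str_Ah (x : QV W) : str (Ah W x) = c1 W (lp Φ) x := W.str_A x.ev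

theorem str_Cm (x y : QV W) : str (Cm x y) = c2 (lp Φ) y x := by
  rw [c2_apply, ← W.ok.str_Γ]
  simp only [str, Cm, map_apply, cor_sum, cor_smul]

include W in
theorem symm_lp : Symm (lp Φ) :=
  symm_sum fun _ _ => symm_sum fun _ _ => ((W.symm.der _).der _).smul _

theorem getz_eq (G : X.S K) (v₁ v₂ v₃ v₄ : QV W) : getz Φ G v₁.val v₂.val v₃.val v₄.val =
    (3 : ℂ) • c2 G (v₃ * v₄) (v₁ * v₂) - (4 : ℂ) • c2 G v₄ (v₁ * v₂ * v₃) -
    c1 W G (C3 (v₁ * v₂) v₃ v₄) + (2 : ℂ) • c1 W G (C3 v₁ v₂ v₃ * v₄) +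
    (1 / 6 : ℂ) • c2 (lp Φ) v₄ (C3 v₁ v₂ v₃) + (1 / 24 : ℂ) • c1 W (lp Φ) (C4 v₁ v₂ v₃ v₄) -
    (1 / 4 : ℂ) • str (Cm v₁ v₂ * Cm v₃ v₄) := by
  have e : str (Cm v₁ v₂ * Cm v₃ v₄) = ∑ a, ∑ b, ∑ c, ∑ d, (X.η⁻¹ a b * X.η⁻¹ c d) •
      (cor (der (0, c) (der (0, a) Φ)) [v₁.val, v₂.val] *
        cor (der (0, b) (der (0, d) Φ)) [v₃.val, v₄.val]) := by
    rw [sum_comm]
    simp only [str, Matrix.mul_apply, Cm, map_apply, Γ_apply, cor_sum, cor_smul, sum_mul, mul_sum,
      smul_sum, smul_mul_assoc, mul_smul_comm, smul_smul]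
    refine sum_congr rfl fun b _ => ?_
    conv_rhs => rw [sum_comm]
    refine sum_congr rfl fun c _ => ?_
    rw [sum_comm]
    refine sum_congr rfl fun a _ => sum_congr rfl fun d _ => ?_
    rw [W.ok.inv_sym b a]
    congr 1
    linear_combination (X.η⁻¹ a b * X.η⁻¹ c d) * sg_mul_self (K := ℂ) (X.par b)
  rw [getz, e]
  simp only [con_two, c2_apply, c1_apply, ← cor_one]
  rw [show con Φ [v₁.val, v₂.val, v₃.val] = (C3 v₁ v₂ v₃).val from rfl, con_two]
  rfl

end QV

end Vale.Agent.P269.Tgt
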