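import Vale.Agent.P269.Flat1

/-! Restriction to the small phase space. -/

noncomputable section

namespace Vale.Agent.P269.Tgt

open Finset Ser Matrix

variable {X : Tgt} {K : Type} [CommRing K] [Algebra ℂ K]

section res
omit [Algebra ℂ K]

theorem res_nil (f : X.S K) : res f [] = f [] := by simp [res]

theorem der_res_zero (a : X.ι) (f : X.S K) : der (0, a) (res f) = res (der (0, a) f) :=
  ext' fun l => by simp only [res, der, List.forall_mem_cons, true_and]

theorem der_res_succ (m : ℕ) (a : X.ι) (f : X.S K) : der (m + 1, a) (res f) = 0 :=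
  ext' fun l => by simp [res, der, zero_ap]

theorem res_add (f g : X.S K) : res (f + g) = res f + res g :=
  ext' fun l => by simp only [res, add_ap]; split_ifs <;> simp

theorem res_smul {R : Type} [CommRing R] [Algebra R K] (c : R) (f : X.S K) :
    res (c • f) = c • res f :=
  ext' fun l => by simp only [res, smulR_ap]; split_ifs <;> simp

theorem res_tw (b : Bool) (f : X.S K) : res (tw b f) = tw b (res f) :=
  ext' fun l => by simp only [res, tw]; split_ifs <;> simp

theorem res_mul' (l : List (ℕ × X.ι)) : ∀ f g : X.S K, res (f * g) l = (res f * res g) l := by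
  induction l with
  | nil => intro f g; simp only [res_nil, mul_nil]
  | cons x l ih =>
    intro f g
    obtain ⟨m, a⟩ := x
    rw [mul_cons]
    change der (m, a) (res (f * g)) l = _
    cases m with
    | zero => rw [der_res_zero, der_res_zero, der_res_zero, der_mul, res_add, add_ap, ih, ih, res_tw]
    | succ m => simp [der_res_succ, zero_ap]

theorem res_one : res (1 : X.S K) = 1 :=
  ext' fun l => by
    cases l with
    | nil => exact res_nil _
    | cons x l => exact ite_self _

/-- The restriction as a ring homomorphism. -/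
def resH : X.S K →+* X.S K where
  toFun := res
  map_one' := res_one
  map_mul' f g := ext' fun l => res_mul' l f g
  map_zero' := ext' fun _ => ite_self _
  map_add' := res_add

theorem res_mul (f g : X.S K) : res (f * g) = res f * res g := resH.map_mul f g
theorem res_zero : res (0 : X.S K) = 0 := resH.map_zero
theorem res_neg (f : X.S K) : res (-f) = -res f := resH.map_neg f
theorem res_sub (f g : X.S K) : res (f - g) = res f - res g := resH.map_sub f g
theorem res_sum {α : Type} (s : Finset α) (f : α → X.S K) :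
    res (∑ i ∈ s, f i) = ∑ i ∈ s, res (f i) := map_sum resH f s

theorem res_var (a : X.ι) : res (var (0, a) : X.S K) = var (0, a) :=
  ext' fun l => by
    by_cases h : l = [(0, a)]
    · simp [res, h]
    · simp [res, var, h]

theorem symm_res {f : X.S K} (hf : Symm f) : Symm (res f) := fun l l' x y => by
  have : (∀ w ∈ l ++ x :: y :: l', w.1 = 0) ↔ ∀ w ∈ l ++ y :: x :: l', w.1 = 0 := by
    simp only [List.mem_append, List.mem_cons, or_left_comm]
  simp only [res, this]
  split_ifs
  · exact hf l l' x y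
  · exact (mul_zero _).symm

theorem par_res {b : Bool} {f : X.S K} (hf : Par b f) : Par b (res f) := fun l h =>
  hf l fun h0 => h (by simp [res, h0])

theorem res_sig' (l : List (ℕ × X.ι)) : ∀ c : ℕ × X.ι → X.S K,
    res (sig c) l = sig (fun x => if x.1 = 0 then res (c x) else 0) l := by
  induction l with
  | nil => intro c; rw [res_nil]; rfl
  | cons x l ih =>
    intro c
    obtain ⟨m, a⟩ := x
    change der (m, a) (res (sig c)) l = der (m, a) (sig _) l
    cases m with
    | zero =>
      rw [der_res_zero, der_sig, der_sig, res_add, add_ap, add_ap, ih, if_pos rfl]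
      congr 2
      funext y
      split_ifs <;> simp [res_smul, der_res_zero]
    | succ m =>
      rw [der_res_succ, der_sig, if_neg (Nat.succ_ne_zero m), zero_add]
      have : (fun y : ℕ × X.ι => (sg (X.par a && X.par y.2) : K) •
          der (m + 1, a) (if y.1 = 0 then res (c y) else 0)) = fun _ => 0 := by
        funext y
        split_ifs <;> simp [der_res_succ]
      rw [this, sig_zero]

theorem res_sig (c : ℕ × X.ι → X.S K) : res (sig c) = ∑ a, res (c (0, a)) * var (0, a) := by
  rw [← sig_prim fun a => res (c (0, a))]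
  refine ext' fun l => ?_
  rw [res_sig']
  congr 2
  funext x
  split_ifs with h
  · rw [← h]
  · rfl

end res

theorem res_LL (n : ℕ) (f : X.S K) :
    res (LL n f) = ∑ a, res (Lz n 0 a f) * var (0, a) - res (Lz n 1 X.one f) := by
  simp only [LL, res_sub, res_sig, Nat.cast_zero]

theorem res_LL_zero (f : X.S K) : res (LL 0 f) = -der (0, X.one) (res f) := by
  simp [res_LL, Lz_zero, dz_neg, res_zero, dz_zero', der_res_zero]

theorem res_T (n : ℕ) (G : ℤ → X.ι → ℤ → X.ι → X.S K) :
    res (T n G) = T n fun s a t b => res (G s a t b) := by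
  simp only [T, res_sum, res_smul]

theorem Flat.eq_zero {F f : X.S K} (h : Flat F f) (hs : Symm f) (h0 : res f = 0) : f = 0 := by
  have : ∀ (N : ℕ) (l : List (ℕ × X.ι)), l.countP (fun x => x.1 ≠ 0) = N → f l = 0 := by
    intro N
    induction N using Nat.strong_induction_on with
    | _ N ih =>
    intro l hl
    by_cases h1 : ∀ x ∈ l, x.1 = 0
    · simpa only [res, if_pos h1, zero_ap] using congrFun h0 l
    · push Not at h1
      obtain ⟨⟨m, a⟩, hx, hm⟩ := h1
      obtain ⟨l₁, l₂, rfl⟩ := List.append_of_mem hx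
      obtain ⟨m, rfl⟩ := Nat.exists_eq_succ_of_ne_zero hm
      obtain ⟨b, hb⟩ := hs.front (m + 1, a) l₂ l₁
      have e : f ((m + 1, a) :: (l₁ ++ l₂)) =
          (∑ c, der (0, c) f * Γ F 0 m c a) (l₁ ++ l₂) := congrFun (h m a) (l₁ ++ l₂)
      rw [hb, e, sum_ap, sum_eq_zero fun c _ => mul_eq_zero_left _ (der (0, c) f) _ fun l' hl' =>
        ih _ ?_ ((0, c) :: l') rfl, mul_zero]
      have := hl'.countP_le (p := fun x => x.1 ≠ 0)
      simp only [List.countP_append, List.countP_cons] at this hl ⊢
      simp at this hl ⊢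
      omega
  exact ext' fun l => this _ l rfl

/-- The restriction of matrices. -/
def resM : Mat X K →+* Mat X K := resH.mapMatrix

omit [Algebra ℂ K] in
theorem resM_apply (A : Mat X K) (c a : X.ι) : resM A c a = res (A c a) := rfl

theorem resM_cm (N : Matrix X.ι X.ι ℂ) : resM (cm N : Mat X K) = cm N := by
  ext c a : 2
  rw [resM_apply, cm_apply, res_smul, res_one]

theorem resM_smul (c : ℂ) (A : Mat X K) : resM (c • A) = c • resM A := by
  ext b a : 2
  exact res_smul c (A b a)

theorem resM_Γ (F : X.S K) : resM (Γ F 0 0) = Γ (res F) 0 0 := by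
  ext c a : 2
  simp only [resM_apply, Γ_apply, res_sum, res_smul, der_res_zero]

omit [Algebra ℂ K] in
theorem resM_grad (f : X.S K) : resM (grad 0 f) = grad 0 (res f) := by
  ext c a : 2
  exact (der_res_zero a f).symm

theorem resM_U (F : X.S K) : resM (U F) = U (res F) := by
  simp only [U, map_add, map_sub, map_mul, resM_cm, resM_Γ]

theorem resM_W (F : X.S K) (c : ℤ) (n : ℕ) : resM (W F c n) = W (res F) c n := by
  induction n with
  | zero => exact map_zero _
  | succ n ih => simp only [W, map_add, map_mul, map_pow, resM_cm, resM_U, ih]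

theorem resM_V (F : X.S K) (c : ℤ) (n : ℕ) : resM (V F c n) = V (res F) c n := by
  induction n with
  | zero => exact map_zero _
  | succ n ih => simp only [V, map_add, map_mul, resM_cm, resM_U, resM_W, ih]

theorem res_lp (F : X.S K) : res (lp F) = lp (res F) := by
  simp only [lp, res_sum, res_smul, der_res_zero]

theorem res_str (A : Mat X K) : res (str A) = str (resM A) := by
  simp only [str, res_sum, res_smul, resM_apply]

theorem resM_A (F : X.S K) (v : X.ι → X.S K) :
    resM (A F v) = A (res F) fun a => res (v a) := by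
  ext c a : 2
  simp only [resM_apply, A, map_apply, Dv, res_sum, res_mul, ← resM_Γ, der_res_zero]

theorem WD.res {F : X.S K} (W : WD F) : WD (res F) where
  ok := W.ok
  symm := symm_res W.symm
  even := par_res W.even
  wdvv x y := by
    obtain ⟨m, a⟩ := x
    obtain ⟨n, b⟩ := y
    ext c d : 2
    rcases m with _ | m
    · rcases n with _ | n
      · have := congrArg Tgt.res (congrFun (congrFun (W.wdvv (0, a) (0, b)) c) d)
        simpa only [Matrix.mul_apply, map_apply, res_sum, res_mul, res_tw, ← der_res_zero,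
          ← resM_Γ, resM_apply] using this
      · simp [Matrix.mul_apply, ← resM_Γ, resM_apply, der_res_succ, ← res_tw]
    · simp [Matrix.mul_apply, ← resM_Γ, resM_apply, der_res_succ]

variable (X K) in
/-- The unit vector field. -/
def ee : X.ι → X.S K := Pi.single X.one 1

omit [Algebra ℂ K] in
theorem Dv_ee (f : X.S K) : Dv (ee X K) f = der (0, X.one) f := by
  simp [Dv, ee, Pi.single_apply]

omit [Algebra ℂ K] in
theorem mulVec_ee (A : Mat X K) (c : X.ι) : (A *ᵥ ee X K) c = A c X.one := by
  simp [ee, mulVec]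

omit [Algebra ℂ K] in
theorem Ok.ev_ee (H : X.Ok) : EV (ee X K) := fun a => by
  by_cases h : a = X.one
  · rw [h, ee, Pi.single_eq_same, H.par_one]; exact Ser.par_one
  · rw [ee, Pi.single_eq_of_ne h]; exact par_zero _

omit [Algebra ℂ K] in
theorem res_ee (a : X.ι) : res (ee X K a) = ee X K a := by
  by_cases h : a = X.one
  · rw [h, ee, Pi.single_eq_same, res_one]
  · rw [ee, Pi.single_eq_of_ne h, res_zero]

/-- The supertrace of `P` times the quantum product, as a covector. -/
def strd (F : X.S K) (P : Mat X K) : Mat X K :=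
  of fun _ a => str (P * (Γ F 0 0).map (der (0, a)))

theorem strd_mulVec (F : X.S K) (P : Mat X K) (v : X.ι → X.S K) (c : X.ι) :
    (strd F P *ᵥ v) c = str (P * A F v) := by
  simp only [strd, mulVec, dotProduct, of_apply, str, Matrix.mul_apply, map_apply, A, Dv, sum_mul,
    mul_sum, smul_sum, smul_mul_assoc, mul_assoc]
  rw [sum_comm]
  exact sum_congr rfl fun _ _ => sum_comm

theorem resM_strd (F : X.S K) (P : Mat X K) : resM (strd F P) = strd (res F) (resM P) := by
  ext c a : 2
  simp only [resM_apply, strd, of_apply, res_str, map_mul]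
  congr 2
  ext b d : 2
  simp only [resM_apply, map_apply, ← resM_Γ, der_res_zero]

namespace G0

variable {F : ℕ → X.S K} (H : G0 F)
include H

theorem A_ee : A (res (F 0)) (ee X K) = 1 := by
  have e := H.LL0_Γz 0 0
  rw [Γz_left (n := 0 - 1) _ (by norm_num), Γz_right (m := 0 - 1) _ _ (by norm_num),
    if_pos ⟨rfl, rfl⟩, ← Nat.cast_zero (R := ℤ), Γz_nat] at e
  have e2 := congrArg resM e
  rw [neg_zero, sub_zero, zero_sub, map_neg, _root_.map_one] at e2
  ext c a : 2
  have e3 := congrFun (congrFun e2 c) a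
  rw [resM_apply, map_apply, res_LL_zero, Matrix.neg_apply, neg_inj] at e3
  rw [A, map_apply, Dv_ee, ← resM_Γ, resM_apply, e3]

theorem res_one_succ (g t : ℕ) (b : X.ι) :
    res (der (0, X.one) (der (t + 1, b) (F g))) = res (der (t, b) (F g)) := by
  have e := congrArg res (H.ok.LL0_dz_F H.symm H.str g (t + 1 : ℕ) b)
  rw [if_neg (by omega), res_LL_zero, sub_zero, res_neg, neg_inj, Nat.cast_add_one,
    add_sub_cancel_right, ← Nat.cast_add_one, dz_nat, dz_nat, der_res_zero] at e
  exact e

theorem res_Γ_one (a : X.ι) : res (Γ (F 0) 0 0 a X.one) = var (0, a) := by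
  have e : ∀ b, res (der (0, X.one) (der (0, b) (F 0))) = tau X.η b := by
    intro b
    have e := congrArg res (H.ok.LL0_dz_F H.symm H.str 0 0 b)
    rw [if_pos ⟨rfl, rfl⟩, res_LL_zero, dz_neg (j := 0 - 1) (by norm_num), neg_zero, zero_sub,
      res_neg, neg_inj, dz_zero', der_res_zero] at e
    simpa only [tau, res_sum, res_smul, res_var] using e
  simp only [Γ_apply, res_sum, res_smul, e, tau, smul_sum, smul_smul]
  rw [sum_comm]
  simp only [← sum_smul, ← Matrix.mul_apply, H.ok.inv_mul, one_apply]
  simp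

theorem F1' (t m : ℕ) (b a : X.ι) : der (m + 1, a) (der (t, b) (F 0)) +
    der (m, a) (der (t + 1, b) (F 0)) = ∑ e, der (0, e) (der (t, b) (F 0)) * Γ (F 0) 0 m e a := by
  have e : ∀ t m : ℕ, cm X.η * Γ (F 0) t m = jac m fun b => der (t, b) (F 0) := by
    intro t m
    ext b a : 2
    simp only [cm_mul_apply, Γ_apply, smul_sum, smul_smul]
    rw [sum_comm]
    simp only [← sum_smul, ← Matrix.mul_apply, H.ok.mul_inv, one_apply, jac_apply]
    simp
  have := congrArg (cm X.η * ·) (H.F1 t m)
  simp only [mul_add, ← mul_assoc, e] at this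
  exact congrFun (congrFun this b) a

theorem res_Kop (n : ℕ) (G : X.S K) : res (Kop (F 0) n G) =
    -res (Kc (F 0) n (1, X.one) G - ∑ a, Kc (F 0) n (0, a) G * Γ (F 0) 0 0 a X.one) := by
  have e : ∀ s a t b, res (dz s a G * dz t b (F 0)) =
      -res (dz s a G * der (1, X.one) (dz t b (F 0))) +
        ∑ e, res (dz s a G * der (0, e) (dz t b (F 0))) * res (Γ (F 0) 0 0 e X.one) := by
    intro s a t b
    obtain ⟨t, rfl⟩ | ⟨t, rfl⟩ := int_cases t
    · have := congrArg res (H.F1' t 0 b X.one)
      rw [res_add, H.res_one_succ, res_sum] at this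
      simp only [res_mul, dz_nat, mul_assoc, ← mul_sum] at this ⊢
      rw [← this]
      noncomm_ring
    · simp [dz_neg (show -(t : ℤ) - 1 < 0 by omega), res_zero]
  simp only [Kop, Kc, res_add, res_sub, res_sum, res_LL, e, res_mul _ (Γ _ _ _ _ _),
    add_mul, sum_add_distrib, Nat.cast_one, Nat.cast_zero, T, res_smul, smul_add, smul_neg,
    sum_neg_distrib, sum_mul, smul_sum, smul_mul_assoc, H.res_Γ_one]
  have e2 : ∀ φ : ℕ → ℕ → X.ι → X.ι → X.ι → X.S K,
      ∑ i ∈ range (n + 1), ∑ s ∈ range n, ∑ a, ∑ b, ∑ e, φ i s a b e =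
      ∑ e, ∑ i ∈ range (n + 1), ∑ s ∈ range n, ∑ a, ∑ b, φ i s a b e := by
    intro φ
    rw [sum_comm (s := univ)]
    refine sum_congr rfl fun _ _ => ?_
    rw [sum_comm (s := univ)]
    refine sum_congr rfl fun _ _ => ?_
    rw [sum_comm (s := univ) (f := fun e a => ∑ b, φ _ _ a b e)]
    exact sum_congr rfl fun _ _ => sum_comm
  rw [e2]
  abel

variable (hz : z F 1 0 = 0)
include hz

theorem U_res : U (res (F 0)) = A (res (F 0)) (U (res (F 0)) *ᵥ ee X K) := by
  have e := congrArg resM ((H.mu_U hz).eq _ H.ok.ev_ee)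
  simp only [map_mul, resM_A, res_ee, resM_U, mulVec_ee, ← resM_apply] at e
  rw [show (fun a => ee X K a) = ee X K from rfl, H.A_ee, mul_one] at e
  rw [← e]
  congr 1
  funext a
  rw [mulVec_ee, e]

theorem Dv_Q (v : X.ι → X.S K) (n : ℕ) : Dv v (res (Q (F 0) n)) =
    (-1 / 2 : ℂ) • Tgt.str (V (res (F 0)) (-1) n * A (res (F 0)) v) := by
  have e : grad 0 (Q (F 0) n) = (-1 / 2 : ℂ) • strd (F 0) (V (F 0) (-1) n) :=
    ext_EV fun v hv => funext fun c => by
      rw [smul_mulVec, Pi.smul_apply, strd_mulVec, grad, jac_mulVec, H.map_Q hz hv.vt, A]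
  have e2 := congrArg (fun B => (resM B *ᵥ v) X.one) e
  simp only [resM_grad, resM_smul, resM_strd, resM_V, smul_mulVec, Pi.smul_apply,
    strd_mulVec] at e2
  exact e2

theorem res_z (h1 : TRR1 (F 0) (F 1)) (n : ℕ) : res (z F n 1) =
    -Dv (U (res (F 0)) ^ n *ᵥ ee X K) (res (F 1)) -
      (1 / 24 : ℂ) • Dv (W (res (F 0)) (0 + 1) n *ᵥ ee X K) (lp (res (F 0))) +
      res (Q (F 0) n) + if n = 1 then X.ρ • (1 : X.S K) else 0 := by
  have e3 := fun m => (H.ok.Kc_eq (F 0) (fun _ => F 1) n m).trans
    (H.jet_one ((H.jet_Hh m).iter (H.hd hz) 0 n) (r' := fun m => (1 / 24 : ℂ) • grad m (lp (F 0)))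
      (H.grad_F1 h1) fun m => by rw [H.grad_lp, smul_mul_assoc])
  have e5 := e3 (0 + 1)
  have e6 := e3 0
  rw [Sm_succ, show ((0 + 1 : ℕ) - 1 : ℤ) = 0 by norm_num, Sm_zero, Sm_neg _ (by norm_num)] at e5
  rw [Nat.cast_zero, Sm_zero, Sm_neg _ (by norm_num), Sm_neg _ (by norm_num)] at e6
  have e7 : ((of fun _ a => Kc (F 0) n (0 + 1, a) (F 1)) -
      (of fun _ a => Kc (F 0) n (0, a) (F 1)) * Γ (F 0) 0 0 : Mat X K) =
      grad 0 (F 1) * U (F 0) ^ n + (1 / 24 : ℂ) • (grad 0 (lp (F 0)) * W (F 0) (0 + 1) n) := by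
    rw [e5, e6]
    simp only [grad, mul_one, mul_zero, add_zero, mul_add, add_mul, smul_mul_assoc, mul_assoc]
    abel
  have e8 := congrArg (fun B => (resM B *ᵥ ee X K) X.one) e7
  simp only [map_add, map_mul, resM_smul, map_pow, resM_grad, resM_U, resM_W, res_lp, add_mulVec,
    smul_mulVec, ← mulVec_mulVec, Pi.add_apply, Pi.smul_apply] at e8
  rw [mulVec_ee, resM_apply, grad, grad, jac_mulVec, jac_mulVec] at e8
  rw [H.z_one, res_add, res_add, H.res_Kop, ← neg_add', ← e8]
  congr 1
  split_ifs
  · rw [res_smul, res_one]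
  · exact res_zero

omit hz in
theorem Dv_ee_z (n : ℕ) : Dv (ee X K) (res (z F (n + 1) 1)) = ((n : ℂ) + 1) • res (z F n 1) := by
  have e := congrArg res (H.ok.LL0_z H.symm H.even H.str n 0)
  rwa [res_LL_zero, neg_smul, res_neg, neg_inj, res_smul, ← Dv_ee] at e

end G0

end Vale.Agent.P269.Tgt
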