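import Vale.Agent.P269.Big

/-! The tangent spaces to the cone of the genus 0 potential, as sequences of matrices. -/

noncomputable section

namespace Vale.Agent.P269.Tgt

open Finset Ser Matrix

variable {X : Tgt} {K : Type} [CommRing K] [Algebra ℂ K]

variable (X) in
/-- The matrix `μ + y`. -/
def μd (y : ℂ) : Matrix X.ι X.ι ℂ := diagonal fun a => X.μ a + y

theorem μd_add (y c : ℂ) : X.μd (y + c) = X.μd y + c • 1 := by
  ext a b
  by_cases h : a = b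
  · subst h; simp [μd, add_assoc]
  · simp [μd, h]

theorem M_succ_zero (n : ℕ) (j : ℤ) : X.M (n + 1) 0 j = X.μd (j + n + 1 / 2) * X.M n 0 j := by
  ext b a
  rw [μd, diagonal_mul, M_apply, M_apply, br_succ_zero]
  by_cases h : b = a
  · subst h; simp only [pow_zero, one_apply_eq]; ring
  · simp [h]

theorem Ok.M_succ_succ (H : X.Ok) (n i : ℕ) (j : ℤ) : X.M (n + 1) (i + 1) j =
    X.μd (j + n - i - 1 / 2) * X.M n (i + 1) j + X.R * X.M n i j := by
  have e : X.R * X.M n i j = X.R ^ (i + 1) * diagonal fun a => br n i (X.μ a + j + 1 / 2) := by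
    rw [M, ← Matrix.mul_assoc, ← pow_succ']
  ext b a
  rw [Matrix.add_apply, e, μd, diagonal_mul, mul_diagonal, M_apply, M_apply, br_succ_succ]
  by_cases h : (X.R ^ (i + 1)) b a = 0
  · simp [h]
  · rw [H.mu_pow h]; push_cast; ring

section seq
omit [Algebra ℂ K]

/-- Multiplication by `z`. -/
def Zs (f : ℤ → Mat X K) : ℤ → Mat X K := fun j => f (j - 1)

/-- Right multiplication by a matrix. -/
def rm (f : ℤ → Mat X K) (P : Mat X K) : ℤ → Mat X K := fun j => f j * P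

/-- Only finitely many positive powers of `z` appear. -/
def Bd (f : ℤ → Mat X K) : Prop := ∃ N : ℕ, ∀ j : ℕ, N ≤ j → f j = 0

/-- The pairing of the nonnegative part of `f` with `r`. -/
def Λ (r : ℕ → Mat X K) (f : ℤ → Mat X K) : Mat X K := ∑ᶠ j : ℕ, r j * f j

theorem Λ_eq (r : ℕ → Mat X K) {f : ℤ → Mat X K} {N : ℕ} (h : ∀ j : ℕ, N ≤ j → f j = 0) :
    Λ r f = ∑ j ∈ range N, r j * f j :=
  finsum_eq_sum_of_support_subset _ fun j hj => by
    by_contra h0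
    exact hj (by simp only; rw [h j (by simpa using h0), mul_zero])

theorem Λ_congr (r : ℕ → Mat X K) {f g : ℤ → Mat X K} (h : ∀ j : ℕ, f j = g j) :
    Λ r f = Λ r g := by simp only [Λ, h]

theorem Bd.add {f g : ℤ → Mat X K} (hf : Bd f) (hg : Bd g) : Bd (f + g) := by
  obtain ⟨N, hN⟩ := hf
  obtain ⟨M, hM⟩ := hg
  exact ⟨N + M, fun j h => by rw [Pi.add_apply, hN j (by omega), hM j (by omega), add_zero]⟩

theorem Bd.rm {f : ℤ → Mat X K} (hf : Bd f) (P : Mat X K) : Bd (rm f P) := by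
  obtain ⟨N, hN⟩ := hf
  exact ⟨N, fun j h => by rw [Tgt.rm, hN j h, zero_mul]⟩

theorem Bd.Zs {f : ℤ → Mat X K} (hf : Bd f) : Bd (Zs f) := by
  obtain ⟨N, hN⟩ := hf
  refine ⟨N + 1, fun j h => ?_⟩
  obtain ⟨j, rfl⟩ : ∃ i, j = i + 1 := ⟨j - 1, by omega⟩
  simpa [Tgt.Zs] using hN j (by omega)

theorem Λ_add (r : ℕ → Mat X K) {f g : ℤ → Mat X K} (hf : Bd f) (hg : Bd g) :
    Λ r (f + g) = Λ r f + Λ r g := by
  obtain ⟨N, hN⟩ := hf
  obtain ⟨M, hM⟩ := hg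
  rw [Λ_eq r (N := N + M) fun j h => by
      rw [Pi.add_apply, hN j (by omega), hM j (by omega), add_zero],
    Λ_eq r (N := N + M) fun j h => hN j (by omega), Λ_eq r (N := N + M) fun j h => hM j (by omega)]
  simp only [Pi.add_apply, mul_add, sum_add_distrib]

theorem Λ_rm (r : ℕ → Mat X K) {f : ℤ → Mat X K} (hf : Bd f) (P : Mat X K) :
    Λ r (rm f P) = Λ r f * P := by
  obtain ⟨N, hN⟩ := hf
  rw [Λ_eq r (N := N) fun j h => by rw [rm, hN j h, zero_mul], Λ_eq r hN]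
  simp only [rm, sum_mul, mul_assoc]

theorem Λ_Zs {r r' s : ℕ → Mat X K} (h : ∀ m, r (m + 1) = r 0 * s m + r' m) {f : ℤ → Mat X K}
    (hf : Bd f) : Λ r (Zs f) = r 0 * (Λ s f + f (-1)) + Λ r' f := by
  obtain ⟨N, hN⟩ := hf
  rw [Λ_eq r (N := N + 1) fun j h => by
      obtain ⟨j, rfl⟩ : ∃ i, j = i + 1 := ⟨j - 1, by omega⟩
      simpa [Zs] using hN j (by omega), Λ_eq s hN, Λ_eq r' hN, sum_range_succ']
  simp only [Zs, h, Nat.cast_add_one, add_sub_cancel_right, add_mul, sum_add_distrib, mul_add,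
    mul_sum, mul_assoc, Nat.cast_zero, zero_sub]
  abel

theorem Λ_neg (r : ℕ → Mat X K) (f : ℤ → Mat X K) : Λ (fun m => -r m) f = -Λ r f := by
  simp only [Λ, neg_mul, finsum_neg_distrib]

theorem Λ_zero (f : ℤ → Mat X K) : Λ (fun _ => 0) f = 0 := by simp [Λ]

end seq

/-- The operator `z (z ∂_z + μ + c + 1/2) + c₁`. -/
def Dc (c : ℤ) (f : ℤ → Mat X K) : ℤ → Mat X K :=
  fun j => cm (X.μd (j + c - 1 / 2)) * f (j - 1) + cm X.R * f j

theorem Dc_add (c : ℤ) (f g : ℤ → Mat X K) : Dc c (f + g) = Dc c f + Dc c g := by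
  funext j
  simp only [Dc, Pi.add_apply, mul_add]
  abel

theorem Dc_Zs (c : ℤ) (f : ℤ → Mat X K) : Dc c (Zs f) = Zs (Dc (c + 1) f) := by
  funext j
  simp only [Dc, Zs]
  congr 4
  push_cast
  ring

theorem Ok.Dc_iter (H : X.Ok) (c : ℤ) (f : ℤ → Mat X K) (n : ℕ) : ∀ j, (Dc c)^[n] f j =
    ∑ i ∈ range (n + 1), cm (X.M n i (j - n + i + c)) * f (j - n + i) := by
  induction n with
  | zero => intro j; simp [M_self]
  | succ n ih =>
    intro j
    have a1 : ∀ i : ℕ, j - (n + 1 : ℕ) + i = j - 1 - n + i := fun i => by push_cast; ring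
    have a2 : ∀ i : ℕ, j - 1 - n + (i + 1 : ℕ) = j - n + i := fun i => by push_cast; ring
    have a3 : ∀ i : ℕ, (((j - n + i + c : ℤ) : ℂ) + n - i - 1 / 2) = j + c - 1 / 2 :=
      fun i => by push_cast; ring
    have a4 : (((j - 1 - n + (0 : ℕ) + c : ℤ) : ℂ) + n + 1 / 2) = j + c - 1 / 2 := by
      push_cast; ring
    rw [Function.iterate_succ_apply', Dc, ih, ih, sum_range_succ' _ (n + 1), sum_range_succ' _ n,
      M_succ_zero]
    simp only [a1, a2, a3, a4, H.M_succ_succ, map_add, map_mul, add_mul, sum_add_distrib, mul_add,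
      mul_sum, mul_assoc]
    conv_rhs => rw [sum_range_succ _ n, M_gt (Nat.lt_succ_self n), _root_.map_zero, zero_mul,
      mul_zero, add_zero]
    rw [add_right_comm]

/-- The basis of the tangent space. -/
def Hh (F : X.S K) (m : ℕ) : ℤ → Mat X K :=
  fun j => (if j = m then 1 else 0) + ((-1 : ℂ) ^ j) • Γz F (-j - 1) m

theorem Hh_nat (F : X.S K) (m j : ℕ) : Hh F m j = if j = m then 1 else 0 := by
  simp [Hh, Γz_left F (show -(j : ℤ) - 1 < 0 by omega)]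

theorem Hh_neg (F : X.S K) (m n : ℕ) : Hh F m (-n - 1) = ((-1 : ℂ) ^ (n + 1)) • Γ F n m := by
  rw [Hh, if_neg (by omega), zero_add, show -(-(n : ℤ) - 1) - 1 = n by ring, Γz_nat,
    show -(n : ℤ) - 1 = -(n + 1 : ℕ) by push_cast; ring, _root_.zpow_neg, zpow_natCast,
    ← inv_pow, inv_neg_one]

theorem bd_Hh (F : X.S K) (m : ℕ) : Bd (Hh F m) :=
  ⟨m + 1, fun j h => by rw [Hh_nat, if_neg (by omega)]⟩

theorem Λ_Hh (r : ℕ → Mat X K) (F : X.S K) (m : ℕ) : Λ r (Hh F m) = r m := by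
  rw [Λ_eq r (N := m + 1) fun j h => by rw [Hh_nat, if_neg (by omega)]]
  simp [Hh_nat]

theorem int_cases (j : ℤ) : (∃ n : ℕ, j = n) ∨ ∃ n : ℕ, j = -n - 1 := by
  by_cases h : 0 ≤ j
  · exact Or.inl ⟨j.toNat, by omega⟩
  · exact Or.inr ⟨(-j - 1).toNat, by omega⟩

/-- The tangent space. -/
inductive Lat (F : X.S K) : (ℤ → Mat X K) → Prop
  | base (P : Mat X K) : Lat F (rm (Hh F 0) P)
  | add {f g : ℤ → Mat X K} : Lat F f → Lat F g → Lat F (f + g)
  | shift {f : ℤ → Mat X K} : Lat F f → Lat F (Zs f)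

theorem Lat.bd {F : X.S K} {f : ℤ → Mat X K} (h : Lat F f) : Bd f := by
  induction h with
  | base P => exact (bd_Hh F 0).rm P
  | add _ _ h1 h2 => exact h1.add h2
  | shift _ h => exact h.Zs

/-- The first three coefficients of an element of the tangent space. -/
def Jet (F : X.S K) (f : ℤ → Mat X K) (P₀ P₁ P₂ : Mat X K) : Prop :=
  ∃ g, Lat F g ∧ f = rm (Hh F 0) P₀ + Zs (rm (Hh F 0) P₁ + Zs (rm (Hh F 0) P₂ + Zs g))

theorem Jet.cons {F : X.S K} {f : ℤ → Mat X K} {P₀ P₁ P₂ : Mat X K} (h : Jet F f P₀ P₁ P₂)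
    (P : Mat X K) : Jet F (rm (Hh F 0) P + Zs f) P P₀ P₁ := by
  obtain ⟨g, hg, rfl⟩ := h
  exact ⟨_, (Lat.base P₂).add hg.shift, rfl⟩

theorem jet_Hh_zero (F : X.S K) : Jet F (Hh F 0) 1 0 0 :=
  ⟨_, Lat.base 0, by funext j; simp [rm, Zs]⟩

/-- The matrices `S_m`. -/
def Sm (F : X.S K) (j : ℤ) : Mat X K := if j = 0 then 1 else Γz F 0 (j - 1)

theorem Sm_succ (F : X.S K) (m : ℕ) : Sm F (m + 1 : ℕ) = Γ F 0 m := by
  rw [Sm, if_neg (by omega), ← Γz_nat]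
  simp

theorem Sm_neg (F : X.S K) {j : ℤ} (h : j < 0) : Sm F j = 0 := by
  rw [Sm, if_neg h.ne, Γz_right _ _ (by omega)]

theorem Sm_zero (F : X.S K) : Sm F 0 = 1 := if_pos rfl

/-- The operator of quantum multiplication by the Euler vector field. -/
def U (F : X.S K) : Mat X K :=
  Γ F 0 0 * cm (X.μd (1 / 2)) - cm (X.μd (-1 / 2)) * Γ F 0 0 + cm X.R

/-- The first order coefficients. -/
def W (F : X.S K) (c : ℤ) : ℕ → Mat X K
  | 0 => 0
  | n + 1 => U F * W F c n + cm (X.μd (c + 1 / 2)) * U F ^ n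

/-- The second order coefficients. -/
def V (F : X.S K) (c : ℤ) : ℕ → Mat X K
  | 0 => 0
  | n + 1 => U F * V F c n + cm (X.μd ((c + 1 : ℤ) + 1 / 2)) * W F c n

/-- The quantum differential equation in `z`. -/
def HD (F : X.S K) : Prop :=
  Dc 0 (Hh F 0) = rm (Hh F 0) (U F) + Zs (rm (Hh F 0) (cm (X.μd (1 / 2))))

section
variable {F : X.S K} (hD : HD F)
include hD

theorem Dc_base (c : ℤ) (P : Mat X K) : Dc c (rm (Hh F 0) P) =
    rm (Hh F 0) (U F * P) + Zs (rm (Hh F 0) (cm (X.μd (c + 1 / 2)) * P)) := by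
  funext j
  have := congrArg (· * P) (congrFun hD j)
  simp only [Dc, rm, Zs, Pi.add_apply, Int.cast_zero, add_zero, add_mul, mul_assoc] at this ⊢
  rw [show (j + c - 1 / 2 : ℂ) = j - 1 / 2 + c by ring, add_comm (c : ℂ), μd_add, μd_add _ c]
  simp only [map_add, cm_smul, _root_.map_one, add_mul, mul_add, smul_mul_assoc, mul_smul_comm,
    one_mul]
  rw [add_right_comm, this, add_assoc]

theorem Lat.Dc {f : ℤ → Mat X K} (h : Lat F f) : ∀ c, Lat F (Dc c f) := by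
  induction h with
  | base P => intro c; rw [Dc_base hD]; exact (Lat.base _).add (Lat.base _).shift
  | add _ _ h1 h2 => intro c; rw [Dc_add]; exact (h1 c).add (h2 c)
  | shift _ h => intro c; rw [Dc_Zs]; exact (h _).shift

theorem Jet.Dc {f : ℤ → Mat X K} {P₀ P₁ P₂ : Mat X K} (h : Jet F f P₀ P₁ P₂) (c : ℤ) :
    Jet F (Dc c f) (U F * P₀) (U F * P₁ + cm (X.μd (c + 1 / 2)) * P₀)
      (U F * P₂ + cm (X.μd ((c + 1 : ℤ) + 1 / 2)) * P₁) := by
  obtain ⟨g, hg, rfl⟩ := h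
  refine ⟨_, (Lat.base (cm (X.μd ((c + 1 + 1 : ℤ) + 1 / 2)) * P₂)).add
    (hg.Dc hD (c + 1 + 1 + 1)), ?_⟩
  simp only [Dc_add, Dc_Zs, Dc_base hD]
  funext j
  simp only [Zs, rm, Pi.add_apply, mul_add]
  abel

theorem Jet.iter {f : ℤ → Mat X K} {P₀ P₁ P₂ : Mat X K} (h : Jet F f P₀ P₁ P₂) (c : ℤ) (n : ℕ) :
    Jet F ((Tgt.Dc c)^[n] f) (U F ^ n * P₀) (W F c n * P₀ + U F ^ n * P₁)
      (V F c n * P₀ + W F (c + 1) n * P₁ + U F ^ n * P₂) := by
  induction n with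
  | zero => simpa [W, V] using h
  | succ n ih =>
    rw [Function.iterate_succ_apply']
    convert ih.Dc hD c using 1
    · rw [pow_succ', mul_assoc]
    · simp only [W, pow_succ', mul_add, add_mul, mul_assoc]; abel
    · simp only [W, V, pow_succ', mul_add, add_mul, mul_assoc]; abel

end

namespace G0

variable {F : ℕ → X.S K} (H : G0 F)
include H

theorem Hh_succ (m : ℕ) :
    Hh (F 0) (m + 1) = rm (Hh (F 0) 0) (Γ (F 0) 0 m) + Zs (Hh (F 0) m) := by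
  funext j
  simp only [rm, Zs, Pi.add_apply]
  obtain ⟨j, rfl⟩ | ⟨n, rfl⟩ := int_cases j
  · cases j with
    | zero =>
      have := Hh_neg (F 0) m 0
      simp only [Nat.cast_zero, neg_zero] at this
      rw [Hh_nat, Hh_nat, Nat.cast_zero, this]
      simp
    | succ j => rw [Hh_nat, Hh_nat, Nat.cast_add_one, add_sub_cancel_right, Hh_nat]; simp
  · rw [show -(n : ℤ) - 1 - 1 = -(n + 1 : ℕ) - 1 by push_cast; ring, Hh_neg, Hh_neg, Hh_neg,
      smul_mul_assoc, ← H.F1]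
    module

theorem jet_Hh (m : ℕ) :
    Jet (F 0) (Hh (F 0) m) (Sm (F 0) m) (Sm (F 0) (m - 1)) (Sm (F 0) (m - 2)) := by
  induction m with
  | zero => simpa [Sm_zero, Sm_neg] using jet_Hh_zero (F 0)
  | succ m ih =>
    rw [H.Hh_succ, Sm_succ]
    convert ih.cons _ using 2 <;> push_cast <;> ring

theorem lat_Φ {f : ℤ → Mat X K} (h : Lat (F 0) f) :
    ∀ n : ℕ, Λ (Γ (F 0) n) f + ((-1 : ℂ) ^ n) • f (-n - 1) = 0 := by
  induction h with
  | base P =>
    intro n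
    rw [Λ_rm _ (bd_Hh _ _), Λ_Hh, rm, Hh_neg, smul_mul_assoc, smul_smul, pow_succ, ← mul_assoc,
      ← mul_pow]
    simp
  | add h1 h2 ih1 ih2 =>
    intro n
    rw [Λ_add _ h1.bd h2.bd, Pi.add_apply, smul_add, add_add_add_comm, ih1, ih2, add_zero]
  | @shift f h ih =>
    intro n
    have e0 := ih 0
    have e1 := ih (n + 1)
    simp only [Nat.cast_zero, neg_zero, zero_sub, pow_zero, one_smul] at e0
    rw [Λ_Zs (r' := fun m => -Γ (F 0) (n + 1) m) (s := Γ (F 0) 0)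
      (fun m => by rw [← H.F1]; abel) h.bd, e0, Λ_neg, Zs,
      show -(n : ℤ) - 1 - 1 = -(n + 1 : ℕ) - 1 by push_cast; ring, eq_neg_of_add_eq_zero_left e1,
      mul_zero]
    module

theorem lat_Zs {r r' : ℕ → Mat X K} (h : ∀ m, r (m + 1) = r 0 * Γ (F 0) 0 m + r' m)
    {f : ℤ → Mat X K} (hf : Lat (F 0) f) : Λ r (Zs f) = Λ r' f := by
  have e0 := H.lat_Φ hf 0
  simp only [Nat.cast_zero, neg_zero, zero_sub, pow_zero, one_smul] at e0
  rw [Λ_Zs h hf.bd, e0, mul_zero, zero_add]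

theorem lat_cons {r r' : ℕ → Mat X K} (h : ∀ m, r (m + 1) = r 0 * Γ (F 0) 0 m + r' m)
    {f : ℤ → Mat X K} (hf : Lat (F 0) f) (P : Mat X K) :
    Λ r (rm (Hh (F 0) 0) P + Zs f) = r 0 * P + Λ r' f := by
  rw [Λ_add _ ((bd_Hh _ _).rm _) hf.bd.Zs, Λ_rm _ (bd_Hh _ _), Λ_Hh, H.lat_Zs h hf]

variable {f : ℤ → Mat X K} {P₀ P₁ P₂ : Mat X K} (h : Jet (F 0) f P₀ P₁ P₂)
include h

theorem jet_one {r r' : ℕ → Mat X K} (h1 : ∀ m, r (m + 1) = r 0 * Γ (F 0) 0 m + r' m)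
    (h2 : ∀ m, r' (m + 1) = r' 0 * Γ (F 0) 0 m) :
    Λ r (fun j => f (j + 1)) = r 0 * P₁ + r' 0 * P₂ := by
  obtain ⟨g, hg, rfl⟩ := h
  rw [Λ_congr (g := rm (Hh (F 0) 0) P₁ + Zs (rm (Hh (F 0) 0) P₂ + Zs g)) _ fun j => by
      rw [Pi.add_apply, rm, ← Nat.cast_add_one, Hh_nat]; simp [Zs],
    H.lat_cons h1 ((Lat.base _).add hg.shift),
    H.lat_cons (r' := fun _ => 0) (fun m => by rw [h2, add_zero]) hg, Λ_zero, add_zero]

theorem jet_two {r : ℕ → Mat X K} (h1 : ∀ m, r (m + 1) = r 0 * Γ (F 0) 0 m) :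
    Λ r (fun j => f (j + 2)) = r 0 * P₂ := by
  obtain ⟨g, hg, rfl⟩ := h
  rw [Λ_congr (g := rm (Hh (F 0) 0) P₂ + Zs g) _ fun j => by
      have e1 := Hh_nat (F 0) 0 (j + 2)
      have e2 := Hh_nat (F 0) 0 (j + 1)
      push_cast at e1 e2
      simp [Zs, rm, e1, e2, show (j : ℤ) + 2 - 1 = j + 1 by ring],
    H.lat_cons (r' := fun _ => 0) (fun m => by rw [h1, add_zero]) hg, Λ_zero, add_zero]

theorem jet_Φ : Λ (Γ (F 0) 0) (fun j => f (j + 1)) + f 0 = P₀ := by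
  obtain ⟨g, hg, rfl⟩ := h
  have e0 := H.lat_Φ ((Lat.base P₁).add ((Lat.base P₂).add hg.shift).shift) 0
  have e1 := Hh_nat (F 0) 0 0
  simp only [Nat.cast_zero, neg_zero, zero_sub, pow_zero, one_smul, if_true] at e0 e1
  rw [Λ_congr (g := rm (Hh (F 0) 0) P₁ + Zs (rm (Hh (F 0) 0) P₂ + Zs g)) _ fun j => by
      rw [Pi.add_apply, rm, ← Nat.cast_add_one, Hh_nat]; simp [Zs], Pi.add_apply, add_left_comm,
    Zs, zero_sub, e0, rm, e1, one_mul, add_zero]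

end G0

end Vale.Agent.P269.Tgt
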