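import Mathlib

/-!
Formal power series in even and odd variables.
-/

noncomputable section

namespace Vale.Agent.P269

/-- Formal series in variables `t^x`, `x : I`, of parity `par x` (`true` = odd), with coefficients
in `K`, given by their Taylor coefficients: `f [x₁, …, xₙ]` is the coefficient of
`t^{xₙ} ⋯ t^{x₁} / n!`. -/
def Ser {I : Type} (_par : I → Bool) (K : Type) : Type := List I → K

namespace Ser

variable {I K : Type} {par : I → Bool} [CommRing K]

instance : AddCommGroup (Ser par K) := inferInstanceAs (AddCommGroup (List I → K))

instance {R : Type} [CommRing R] [Algebra R K] : Module R (Ser par K) :=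
  inferInstanceAs (Module R (List I → K))

/-- The sign of a parity. -/
def sg (b : Bool) : K := if b then -1 else 1

/-- The parity of a list of variables. -/
def parl (par : I → Bool) : List I → Bool
  | [] => false
  | x :: l => xor (par x) (parl par l)

/-- The (right) derivative with respect to `t^x`. -/
def der (x : I) (f : Ser par K) : Ser par K := fun l => f (x :: l)

/-- For `b = true`, change the sign of the odd part. -/
def tw (b : Bool) (f : Ser par K) : Ser par K := fun l => sg (b && parl par l) * f l

/-- The coefficients of the product, given by the Leibniz rule with signs. -/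
def mulc : List I → Ser par K → Ser par K → K
  | [], f, g => f [] * g []
  | x :: l, f, g => mulc l f (der x g) + mulc l (der x f) (tw (par x) g)

instance : Mul (Ser par K) := ⟨fun f g l => mulc l f g⟩

/-- The constant series. -/
def cst (c : K) : Ser par K
  | [] => c
  | _ :: _ => 0

instance : One (Ser par K) := ⟨cst 1⟩

omit [CommRing K] in
theorem ext' {f g : Ser par K} (h : ∀ l, f l = g l) : f = g := funext h
theorem add_ap (f g : Ser par K) (l : List I) : (f + g) l = f l + g l := rfl
theorem smul_ap (c : K) (f : Ser par K) (l : List I) : (c • f) l = c * f l := rfl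
theorem mul_nil (f g : Ser par K) : (f * g) [] = f [] * g [] := rfl
theorem mul_cons (f g : Ser par K) (x : I) (l : List I) :
    (f * g) (x :: l) = (f * der x g) l + (der x f * tw (par x) g) l := rfl
theorem der_add (x : I) (f g : Ser par K) : der x (f + g) = der x f + der x g := rfl
theorem der_smul (x : I) (c : K) (f : Ser par K) : der x (c • f) = c • der x f := rfl
theorem der_mul (x : I) (f g : Ser par K) :
    der x (f * g) = f * der x g + der x f * tw (par x) g := rfl
theorem der_cst (x : I) (c : K) : der x (cst c : Ser par K) = 0 := rfl

theorem sg_xor (a b : Bool) : (sg (xor a b) : K) = sg a * sg b := by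
  cases a <;> cases b <;> simp [sg]

theorem tw_add (b : Bool) (f g : Ser par K) : tw b (f + g) = tw b f + tw b g :=
  ext' fun _ => mul_add _ _ _

theorem tw_smul (b : Bool) (c : K) (f : Ser par K) : tw b (c • f) = c • tw b f :=
  ext' fun _ => mul_left_comm _ _ _

theorem mul_add' (l : List I) : ∀ f g h : Ser par K, (f * (g + h)) l = (f * g) l + (f * h) l := by
  induction l with
  | nil => intro f g h; exact mul_add (f []) _ _
  | cons x l ih => intro f g h; simp only [mul_cons, der_add, tw_add, ih]; ring

theorem add_mul' (l : List I) : ∀ f g h : Ser par K, ((f + g) * h) l = (f * h) l + (g * h) l := by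
  induction l with
  | nil => intro f g h; exact add_mul (f []) _ _
  | cons x l ih => intro f g h; simp only [mul_cons, der_add, ih]; ring

theorem mul_zero' (l : List I) (f : Ser par K) : (f * 0) l = 0 := by
  have := mul_add' l f 0 0
  rw [add_zero] at this
  exact left_eq_add.mp this

theorem zero_mul' (l : List I) (f : Ser par K) : (0 * f) l = 0 := by
  have := add_mul' l 0 0 f
  rw [add_zero] at this
  exact left_eq_add.mp this

theorem smul_mul' (c : K) (l : List I) : ∀ f g : Ser par K, (c • f * g) l = c * (f * g) l := by
  induction l with
  | nil => intro f g; exact mul_assoc c _ _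
  | cons x l ih => intro f g; simp only [mul_cons, der_smul, ih]; ring

theorem mul_smul' (c : K) (l : List I) : ∀ f g : Ser par K, (f * c • g) l = c * (f * g) l := by
  induction l with
  | nil => intro f g; exact mul_left_comm (f []) _ _
  | cons x l ih => intro f g; simp only [mul_cons, der_smul, tw_smul, ih]; ring

theorem der_tw (x : I) (b : Bool) (f : Ser par K) :
    der x (tw b f) = (sg (b && par x) : K) • tw b (der x f) :=
  ext' fun l => by
    simp only [der, tw, parl, Bool.and_xor_distrib_left, sg_xor, mul_assoc, smul_ap]

theorem tw_tw (a b : Bool) (f : Ser par K) : tw a (tw b f) = tw (xor a b) f :=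
  ext' fun l => by simp only [tw, Bool.and_xor_distrib_right, sg_xor, mul_assoc]

theorem tw_mul' (b : Bool) (l : List I) : ∀ f g : Ser par K,
    tw b (f * g) l = (tw b f * tw b g) l := by
  induction l with
  | nil => intro f g; simp [mul_nil, tw, parl, sg]
  | cons x l ih =>
    intro f g
    rw [mul_cons, der_tw, der_tw, tw_tw (par x) b, Bool.xor_comm, ← tw_tw, smul_mul', mul_smul',
      ← ih, ← ih]
    simp only [tw, parl, Bool.and_xor_distrib_left, sg_xor, mul_cons]
    ring

theorem tw_mul (b : Bool) (f g : Ser par K) : tw b (f * g) = tw b f * tw b g :=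
  ext' fun l => tw_mul' b l f g

theorem mul_assoc' (l : List I) : ∀ f g h : Ser par K, (f * g * h) l = (f * (g * h)) l := by
  induction l with
  | nil => intro f g h; exact mul_assoc (f []) _ _
  | cons x l ih =>
    intro f g h
    have e1 := add_mul' l (f * der x g) (der x f * tw (par x) g) (tw (par x) h)
    have e2 := mul_add' l f (g * der x h) (der x g * tw (par x) h)
    simp only [mul_cons, der_mul, tw_mul, e1, e2, ih]
    ring

theorem tw_cst (b : Bool) (c : K) : tw b (cst c : Ser par K) = cst c :=
  ext' fun l => by cases l <;> simp [tw, cst, parl, sg]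

theorem cst_mul' (c : K) (l : List I) : ∀ f : Ser par K, (cst c * f : Ser par K) l = c * f l := by
  induction l with
  | nil => intro f; rfl
  | cons x l ih => intro f; simp only [mul_cons, ih, der_cst, zero_mul', add_zero, der]

theorem mul_cst' (c : K) (l : List I) : ∀ f : Ser par K, (f * cst c : Ser par K) l = c * f l := by
  induction l with
  | nil => intro f; exact mul_comm (f []) _
  | cons x l ih => intro f; simp only [mul_cons, ih, der_cst, mul_zero', zero_add, der, tw_cst]

instance : Ring (Ser par K) where
  __ := (inferInstance : AddCommGroup (Ser par K))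
  left_distrib f g h := ext' fun l => mul_add' l f g h
  right_distrib f g h := ext' fun l => add_mul' l f g h
  zero_mul f := ext' fun l => zero_mul' l f
  mul_zero f := ext' fun l => mul_zero' l f
  mul_assoc f g h := ext' fun l => mul_assoc' l f g h
  one_mul f := ext' fun l => (cst_mul' 1 l f).trans (one_mul _)
  mul_one f := ext' fun l => (mul_cst' 1 l f).trans (one_mul _)

/-- The variable `t^x`. -/
def var [DecidableEq I] (x : I) : Ser par K := fun l => if l = [x] then 1 else 0

/-- The coefficients of the series `∑_y c_y t^y`. -/
def sigc : List I → (I → Ser par K) → K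
  | [], _ => 0
  | x :: l, c => c x l + sigc l fun y => (sg (par x && par y) : K) • der x (c y)

/-- The series `∑_y c_y t^y`. -/
def sig (c : I → Ser par K) : Ser par K := fun l => sigc l c

/-- The coefficients are symmetric, with the sign rule. -/
def Symm (f : Ser par K) : Prop :=
  ∀ (l l' : List I) (x y : I), f (l ++ x :: y :: l') = sg (par x && par y) * f (l ++ y :: x :: l')

/-- `f` has parity `b`. -/
def Par (b : Bool) (f : Ser par K) : Prop := ∀ l, f l ≠ 0 → parl par l = b

end Ser

end Vale.Agent.P269
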