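import Vale.Agent.P269.Data

/-!
The statements: formal series in even and odd variables with coefficients in the Novikov ring, the
Virasoro expressions in the form of Getzler, and the universal equations of genus 0 and 1.
Everything here is a definition.
-/

noncomputable section

namespace Vale.Agent.P269.GW

open Finset
open scoped PowerSeries

/-- Formal series in the variables `t^a_m`, indexed by `(m, a)`, with coefficients in `ℂ⟦Q⟧`, given
by their Taylor coefficients: `f [x₁, …, xₙ]` is the coefficient of `t^{xₙ} ⋯ t^{x₁} / n!`. -/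
def A (T : Tgt) : Type := List (ℕ × T.ι) → ℂ⟦X⟧

variable {T : Tgt}

/-- The sign of a parity. -/
def sg (b : Bool) : ℂ⟦X⟧ := if b then -1 else 1

/-- The parity of a list of variables. -/
def odd (l : List (ℕ × T.ι)) : Bool := l.foldr (fun x => xor (T.par x.2)) false

/-- The (right) derivative with respect to `t^x`. -/
def der (x : ℕ × T.ι) (f : A T) : A T := fun l => f (x :: l)

/-- For `b = true`, change the sign of the odd part. -/
def tw (b : Bool) (f : A T) : A T := fun l => sg (b && odd l) * f l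

/-- The product, given by the Leibniz rule with signs. -/
def mul (f g : A T) : A T := fun l =>
  l.foldr (fun x m f g => m f (der x g) + m (der x f) (tw (T.par x.2) g))
    (fun f g => f [] * g []) f g

/-- The variable `t^x`. -/
def var (x : ℕ × T.ι) : A T := fun l => if l = [x] then 1 else 0

/-- The coefficients are symmetric, with the sign rule. -/
def Symm (f : A T) : Prop :=
  ∀ l l' x y, f (l ++ x :: y :: l') = sg (T.par x.2 && T.par y.2) * f (l ++ y :: x :: l')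

/-- The inverse of the Poincare pairing. -/
def ηi (a b : T.ι) : ℂ := T.η⁻¹ a b

/-- The cup product with `c₁^i`. -/
def Rp (i : ℕ) (a b : T.ι) : ℂ := (T.R ^ i) a b

/-- The derivative `∂_{a,j}`, which is zero for `j < 0`. -/
def dz (j : ℤ) (a : T.ι) (f : A T) : A T := fun l => if 0 ≤ j then f ((j.toNat, a) :: l) else 0

/-- The coefficient of `t^a_m` in the first order part of `L_k`, `n = k + 1`. -/
def Lx (n : ℕ) (x : ℕ × T.ι) (f : A T) : A T := fun l =>
  ∑ i ∈ range (n + 1), ∑ b, (Tgt.br n i (T.μ x.2 + x.1 + 1 / 2) * Rp i b x.2) •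
    dz (x.1 + n - 1 - i) b f l

/-- The coefficient of `ħ^{g-1}` in `ħ Z⁻¹ ∂_{a,s} ∂_{b,j} Z`. -/
def dd (F : ℕ → A T) (g : ℕ) (s : ℤ) (a : T.ι) (j : ℤ) (b : T.ι) : A T := fun l =>
  (if g = 0 then 0 else dz j b (dz s a (F (g - 1))) l) +
    ∑ h ∈ antidiagonal g, mul (dz s a (F h.1)) (dz j b (F h.2)) l

/-- The coefficient `z_{k,g}` of `ħ^{g-1}` in `Z⁻¹ L_k Z`, where `n = k + 1` and
`Z = exp (∑ ħ^{g-1} F g)`. -/
def z (F : ℕ → A T) (n g : ℕ) : A T := fun l =>
  ∑ᶠ x, mul (Lx n x (F g)) (var x) l - Lx n (1, T.one) (F g) l +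
  (1 / 2 : ℂ) • ∑ i ∈ range (n + 1), ∑ s ∈ range n, ∑ a, ∑ b,
    Tgt.κ n i s a b • dd F g s a (n - 2 - i - s) b l +
  (if g = 0 then (1 / 2 : ℂ) • ∑ a, ∑ b, ∑ c,
    (Rp n c a * T.η c b) • mul (var (0, b)) (var (0, a)) l else 0) +
  (if g = 1 ∧ n = 1 ∧ l = [] then T.ρ • 1 else 0)

/-- The genus `g` part of `L_k Z = 0`, where `n = k + 1`. -/
def Vir (F : ℕ → A T) (n g : ℕ) : Prop := ∀ l, z F n g l = 0

/-- The dilaton equation of genus 0. -/
def Dil (F₀ : A T) : Prop := ∀ l, F₀ ((1, T.one) :: l) = (l.length - 2 : ℂ) • F₀ l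

/-- The genus 0 topological recursion relation. -/
def TRR0 (F₀ : A T) : Prop :=
  ∀ m a x y l, F₀ ((m + 1, a) :: x :: y :: l) =
    ∑ b, ∑ c, ηi b c • mul (der (0, b) (der (m, a) F₀)) (der y (der x (der (0, c) F₀))) l

/-- The genus 1 topological recursion relation. -/
def TRR1 (F₀ F₁ : A T) : Prop :=
  ∀ m a l, F₁ ((m + 1, a) :: l) =
    ∑ b, ∑ c, ηi b c • (mul (der (0, b) (der (m, a) F₀)) (der (0, c) F₁) l +
      (1 / 24 : ℂ) • F₀ ((m, a) :: (0, b) :: (0, c) :: l))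

/-- The restriction to the small phase space `t^a_m = 0`, `m > 0`. -/
def res (f : A T) : A T := fun l => if ∀ x ∈ l, x.1 = 0 then f l else 0

/-- The correlation function `⟨⟨v₁ ⋯ vₙ⟩⟩` of `f`, for vector fields `v = ∑ φ_a v^a`. -/
def cor (f : A T) (vs : List (T.ι → A T)) : A T :=
  vs.foldr (fun v c f l => ∑ a, mul (c (der (0, a) f)) (v a) l) id f

/-- The vector field `∑ φ^b ⟨⟨φ_b v₁ ⋯ vₙ⟩⟩`; for two vector fields, their quantum product. -/
def con (G : A T) (vs : List (T.ι → A T)) (a : T.ι) : A T := fun l =>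
  ∑ b, ηi a b • cor (der (0, b) G) vs l

/-- The function `∑ ⟨⟨φ_b φ^b⟩⟩`. -/
def lp (G : A T) : A T := fun l => ∑ b, ∑ c, ηi b c • G ((0, b) :: (0, c) :: l)

/-- The summand of the genus 1 equation of Getzler. -/
def getz (G₀ G₁ : A T) (v₁ v₂ v₃ v₄ : T.ι → A T) : A T := fun l =>
  3 * cor G₁ [con G₀ [v₁, v₂], con G₀ [v₃, v₄]] l -
  4 * cor G₁ [con G₀ [con G₀ [v₁, v₂], v₃], v₄] l -
  cor G₁ [con G₀ [con G₀ [v₁, v₂], v₃, v₄]] l +
  2 * cor G₁ [con G₀ [con G₀ [v₁, v₂, v₃], v₄]] l +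
  (1 / 6 : ℂ) • cor (lp G₀) [con G₀ [v₁, v₂, v₃], v₄] l +
  (1 / 24 : ℂ) • cor (lp G₀) [con G₀ [v₁, v₂, v₃, v₄]] l -
  (1 / 4 : ℂ) • ∑ a, ∑ b, ∑ c, ∑ d, (ηi a b * ηi c d) •
    mul (cor (der (0, c) (der (0, a) G₀)) [v₁, v₂]) (cor (der (0, b) (der (0, d) G₀)) [v₃, v₄]) l

/-- The genus 1 equation of Getzler on the small phase space, for all even vector fields. -/
def Getzler (F₀ F₁ : A T) : Prop :=
  ∀ v : Fin 4 → T.ι → A T, (∀ i a l, v i a l ≠ 0 → odd l = T.par a) → ∀ l,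
    ∑ σ : Equiv.Perm (Fin 4), getz (res F₀) (res F₁) (v (σ 0)) (v (σ 1)) (v (σ 2)) (v (σ 3)) l = 0

/-- The dimension constraint, for both Hodge degrees, if `c₁` has degree `r d` on the curve class
`d`. -/
def Dim (r : ℤ) (F : ℕ → A T) : Prop :=
  ∀ g d l, PowerSeries.coeff d (F g l) ≠ 0 →
    (l.map fun x => (T.p x.2 + x.1 - 1 : ℤ)).sum = (T.D - 3) * (1 - g) + r * d ∧
    (l.map fun x => (T.q x.2 + x.1 - 1 : ℤ)).sum = (T.D - 3) * (1 - g) + r * d

variable (Y : CI)

/-- Invariants with an odd number of primitive insertions vanish. -/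
def PrimEven (f : A Y.tgt) : Prop := ∀ l, Odd (l.countP fun x => x.2.isRight) → f l = 0

/-- The matrix of the small quantum product with `c₁` at the origin. -/
def qc (F₀ : A T) : Matrix T.ι T.ι ℂ⟦X⟧ :=
  fun a b => ∑ c, ∑ d, (ηi a c * T.R d T.one) • F₀ [(0, c), (0, b), (0, d)]

/-- The coefficient of `φ_a` in the `n`-th small quantum power of `c₁`. -/
def qp (F₀ : A T) (n : ℕ) (a : T.ι) : ℂ⟦X⟧ := (qc F₀ ^ n) a T.one

/-- The relation `h^{D+1} = (∏ e_j^{e_j}) Q h^{D+1-r}` of the small quantum cohomology ring, for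
`c₁ = r h`. -/
def Rel (F₀ : A Y.tgt) : Prop :=
  ∀ a, qp F₀ (Y.D + 1) a = ((Y.r : ℂ) ^ Y.r.toNat * ∏ j, (Y.e j : ℂ) ^ Y.e j) •
    (PowerSeries.X * qp F₀ (Y.D + 1 - Y.r.toNat) a)

/-- The properties of the descendant potentials `F g` of `Y` used in every genus: symmetry, the
dimension constraint, the string equation, the `L_0` constraint, and in genus 0 the dilaton
equation and the topological recursion relation. -/
structure Base (F : ℕ → A Y.tgt) : Prop where
  symm : ∀ g, Symm (F g)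
  dim : Dim Y.r F
  str : ∀ g, Vir F 0 g
  l0 : ∀ g, Vir F 1 g
  dil : Dil (F 0)
  trr0 : TRR0 (F 0)

end Vale.Agent.P269.GW
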