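import Vale.Agent.P269.Ops

/-! The commutator of `L_{-1}` and `L_k` on the expressions `z_{k,g}`. -/

noncomputable section

namespace Vale.Agent.P269

open Finset Ser Matrix

namespace Ser

variable {I K : Type} {par : I → Bool} [CommRing K] [DecidableEq I]

theorem sig_single' (x : I) (l : List I) : ∀ f : Ser par K,
    sig (fun y => if y = x then f else 0) l = (f * var x : Ser par K) l := by
  induction l with
  | nil => intro f; simp [sig_nil, mul_nil, var_nil]
  | cons w l ih =>
    intro f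
    have e : (fun y => (sg (par w && par y) : K) • der w (if y = x then f else 0)) =
        fun y => if y = x then (sg (par w && par x) : K) • der w f else 0 := by
      funext y
      split_ifs with h
      · rw [h]
      · simp
    rw [sig_cons, mul_cons, e, ih, der_var, (par_var x).tw_eq, smul_mul_assoc, mul_smul_comm]
    split_ifs <;> simp

theorem sig_single (x : I) (f : Ser par K) :
    sig (fun y => if y = x then f else 0) = f * var x := ext' fun l => sig_single' x l f

end Ser

namespace Tgt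

variable {X : Tgt} {K : Type} [CommRing K] [Algebra ℂ K]

omit [Algebra ℂ K] in
theorem sig_prim (c : X.ι → X.S K) :
    sig (fun x : ℕ × X.ι => if x.1 = 0 then c x.2 else 0) = ∑ a, c a * var (0, a) := by
  simp only [← sig_single, ← sig_sum]
  congr 1
  funext x
  obtain ⟨m, b⟩ := x
  by_cases h : m = 0
  · simp [h]
  · simp [h]

/-- The quadratic function with matrix `N`. -/
def quad (N : Matrix X.ι X.ι ℂ) : X.S K :=
  (1 / 2 : ℂ) • ∑ a, ∑ b, N a b • (var (0, b) * var (0, a))

/-- The linear function with coefficients `N a`. -/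
def tau (N : Matrix X.ι X.ι ℂ) (a : X.ι) : X.S K := ∑ b, N a b • var (0, b)

theorem symm_quad (N : Matrix X.ι X.ι ℂ) : Symm (quad N : X.S K) :=
  (symm_sum fun _ _ => symm_sum fun _ _ => ((symm_var _).mul (symm_var _)).smul _).smul _

omit [Algebra ℂ K] in
theorem dz_var (j : ℤ) (a b : X.ι) :
    dz j a (var (0, b) : X.S K) = if j = 0 ∧ a = b then 1 else 0 := by
  unfold dz
  split_ifs with h1 h2 h2
  · rw [der_var, if_pos (by simp [h2])]
  · rw [der_var, if_neg]
    intro h
    simp only [Prod.mk.injEq] at h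
    exact h2 ⟨by omega, h.2⟩
  · omega
  · rfl

theorem dz_tau (N : Matrix X.ι X.ι ℂ) (j : ℤ) (a b : X.ι) :
    dz j b (tau N a : X.S K) = if j = 0 then N a b • 1 else 0 := by
  simp only [tau, dz_sum, dz_smul, dz_var]
  split_ifs with h
  · simp [h]
  · simp [h]

theorem dz_quad {N : Matrix X.ι X.ι ℂ} (h1 : ∀ a b, N a b = sg (X.par a) * N b a)
    (h2 : ∀ a b, N a b ≠ 0 → X.par a = X.par b) (j : ℤ) (c : X.ι) :
    dz j c (quad N : X.S K) = if j = 0 then tau N c else 0 := by
  simp only [quad, dz_smul, dz_sum, dz_mul, dz_var, (par_var _).tw_eq, smul_add,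
    sum_add_distrib]
  split_ifs with h
  · simp only [h, true_and, mul_ite, mul_one, mul_zero, ite_mul, one_mul, zero_mul, smul_ite,
      smul_zero, sum_ite_eq, mem_univ, if_true]
    rw [sum_comm]
    simp only [sum_ite_eq, mem_univ, if_true]
    have : ∑ a, N a c • (sg (X.par c && X.par a) : K) • (var (0, a) : X.S K) = tau N c := by
      refine sum_congr rfl fun a _ => ?_
      by_cases h0 : N a c = 0
      · rw [h1 c a, h0]; simp
      · rw [← sgR_smul (R := ℂ), smul_smul, h1 c a, h2 a c h0, Bool.and_self, mul_comm]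
    rw [this, tau, ← add_smul]
    norm_num
  · simp [h]

/-- The terms of the second order part. -/
def G2 (F : ℕ → X.S K) (g : ℕ) (s : ℤ) (a : X.ι) (t : ℤ) (b : X.ι) : X.S K :=
  (if g = 0 then 0 else dz t b (dz s a (F (g - 1)))) +
    ∑ h ∈ antidiagonal g, dz s a (F h.1) * dz t b (F h.2)

theorem z_eq (F : ℕ → X.S K) (n g : ℕ) : z F n g = LL n (F g) + (1 / 2 : ℂ) • T n (G2 F g) +
    (if g = 0 then quad ((X.R ^ n)ᵀ * X.η) else 0) +
    (if g = 1 ∧ n = 1 then X.ρ • (1 : X.S K) else 0) := by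
  simp only [z, LL, T, G2, quad, Lx_eq, Nat.cast_one]

theorem z_zero (F : ℕ → X.S K) (g : ℕ) :
    z F 0 g = LL 0 (F g) + if g = 0 then quad X.η else 0 := by
  simp [z_eq, T]

omit [Algebra ℂ K] in
theorem symm_G2 {F : ℕ → X.S K} (hF : ∀ g, Symm (F g)) (g : ℕ) (s : ℤ) (a : X.ι) (t : ℤ)
    (b : X.ι) : Symm (G2 F g s a t b) := by
  refine Symm.add ?_ (symm_sum fun _ _ => (symm_dz (hF _) _ _).mul (symm_dz (hF _) _ _))
  split_ifs
  · exact symm_zero
  · exact symm_dz (symm_dz (hF _) _ _) _ _

theorem symm_T {G : ℤ → X.ι → ℤ → X.ι → X.S K} (h : ∀ s a t b, Symm (G s a t b)) (n : ℕ) :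
    Symm (T n G) :=
  symm_sum fun _ _ => symm_sum fun _ _ => symm_sum fun _ _ => symm_sum fun _ _ =>
    (h _ _ _ _).smul _

theorem symm_z {F : ℕ → X.S K} (hF : ∀ g, Symm (F g)) (n g : ℕ) : Symm (z F n g) := by
  rw [z_eq]
  refine (((symm_LL (hF g) n).add ((symm_T (symm_G2 hF g) n).smul _)).add ?_).add ?_
  · split_ifs
    · exact symm_quad _
    · exact symm_zero
  · split_ifs
    · exact symm_one.smul _
    · exact symm_zero

namespace Ok

variable (H : X.Ok)
include H

theorem par_tau (a : X.ι) : Par (X.par a) (tau X.η a : X.S K) :=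
  par_sum fun b _ => Par.smul' _ fun h => by rw [H.eta_par h]; exact par_var (0, b)

theorem κ_eta (n i : ℕ) (b c : X.ι) :
    ∑ a, κ n i 0 a b * sg (X.par a) * X.η a c = -X.M n i (-1) b c := by
  have e : X.η⁻¹ᵀ * of (fun a c => sg (X.par a) * X.η a c) = 1 := by
    rw [← H.inv_mul]
    ext e c
    simp only [Matrix.mul_apply, transpose_apply, of_apply]
    refine sum_congr rfl fun a _ => ?_
    rw [H.inv_sym a e]
    linear_combination (X.η⁻¹ e a * X.η a c) * sg_mul_self (K := ℂ) (X.par a)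
  have e1 := congrArg (fun N => X.M n i (-1) * N) e
  simp only [← Matrix.mul_assoc, Matrix.mul_one] at e1
  have e2 := congrFun (congrFun e1 b) c
  rw [← e2, Matrix.mul_apply, ← sum_neg_distrib]
  refine sum_congr rfl fun a _ => ?_
  rw [κ_eq]
  simp only [of_apply, Nat.cast_zero, neg_zero, zero_sub, zero_add, pow_one]
  ring

theorem T_tau (n : ℕ) (f : X.S K) :
    T (n + 1) (fun s a t b => if s = 0 then dz t b f * (sg (X.par a) : K) • tau X.η a else 0) =
      -sig fun x => if x.1 = 0 then Lz (n + 1) (-1) x.2 f else 0 := by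
  rw [sig_prim fun a => Lz (n + 1) (-1) a f, T]
  simp only [Lz, sum_mul, ← sum_neg_distrib]
  rw [sum_comm (s := univ)]
  refine sum_congr rfl fun i _ => ?_
  rw [sum_eq_single 0 (fun s _ hs => by simp [hs]) (by simp), sum_comm]
  conv_rhs => rw [sum_comm]
  refine sum_congr rfl fun b _ => ?_
  have e : (((n + 1 : ℕ) : ℤ) - 2 - i - (0 : ℕ)) = -1 + (n + 1 : ℕ) - 1 - i := by push_cast; ring
  rw [e]
  simp only [Nat.cast_zero, if_true, tau, ← sgR_smul (R := ℂ), smul_sum, mul_sum, smul_smul,
    mul_smul_comm, smul_mul_assoc, ← neg_smul, ← H.κ_eta, sum_smul, mul_assoc]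
  rw [sum_comm]

theorem T_const (n : ℕ) :
    T (n + 1) (fun s a t b => if s = 0 ∧ t = 0 then X.η a b • (1 : X.S K) else 0) =
      if n = 1 then (4 * X.ρ) • (1 : X.S K) else 0 := by
  have e0 : ∀ i, ∑ a, ∑ b, κ (n + 1) i 0 a b * X.η a b =
      -∑ b, sg (X.par b) * X.M (n + 1) i (-1) b b := by
    intro i
    rw [sum_comm, ← sum_neg_distrib]
    refine sum_congr rfl fun b _ => ?_
    rw [← mul_neg, ← H.κ_eta, mul_sum]
    refine sum_congr rfl fun a _ => ?_
    by_cases h : X.η a b = 0
    · simp [h]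
    · rw [H.eta_par h]
      linear_combination (-(κ (n + 1) i 0 a b * X.η a b)) * sg_mul_self (K := ℂ) (X.par b)
  have e1 : T (n + 1) (fun s a t b => if s = 0 ∧ t = 0 then X.η a b • (1 : X.S K) else 0) =
      ∑ i ∈ range (n + 1 + 1), if i + 1 = n then
        (-∑ b, sg (X.par b) * X.M (n + 1) i (-1) b b) • (1 : X.S K) else 0 := by
    refine sum_congr rfl fun i _ => ?_
    rw [sum_eq_single 0 (fun s _ hs => by simp [hs]) (by simp), ← e0]
    split_ifs with h
    · simp only [sum_smul]
      refine sum_congr rfl fun a _ => sum_congr rfl fun b _ => ?_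
      rw [if_pos ⟨by simp, by push_cast; omega⟩, smul_smul]
    · refine sum_eq_zero fun a _ => sum_eq_zero fun b _ => ?_
      beta_reduce
      rw [if_neg (fun h' => h (by have := h'.2; push_cast at this; omega)), smul_zero]
  rw [e1]
  rcases n with _ | n
  · simp
  rw [sum_eq_single n (fun i _ hi => if_neg (by omega)) (fun h => by simp at h; omega),
    if_pos rfl]
  rcases n with _ | n
  · rw [if_pos rfl]
    congr 1
    simp only [M_apply, br_succ_zero, br_zero, pow_zero, one_apply_eq, ρ, if_true, sg_par]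
    rw [sum_div, sum_div, ← sum_sub_distrib, mul_sum, ← sum_neg_distrib]
    refine sum_congr rfl fun b _ => ?_
    push_cast
    ring
  · rw [if_neg (by omega), sum_eq_zero, neg_zero, zero_smul]
    intro b _
    by_cases h : X.M (n + 1 + 1 + 1) (n + 1) (-1) b b = 0
    · rw [h, mul_zero]
    · have := (H.M_deg h).1
      omega

variable {F : ℕ → X.S K} (hF : ∀ g, Symm (F g)) (hE : ∀ g, Par false (F g))
  (h0 : ∀ g, z F 0 g = 0)
include hF h0

theorem LL0_dz_F (g : ℕ) (j : ℤ) (a : X.ι) : LL 0 (dz j a (F g)) =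
    -dz (j - 1) a (F g) - if g = 0 ∧ j = 0 then tau X.η a else 0 := by
  have e := h0 g
  rw [z_zero, add_eq_zero_iff_eq_neg] at e
  rw [H.LL0_dz (hF g), e]
  by_cases hg : g = 0
  · simp only [hg, if_true, true_and, dz_neg', dz_quad H.sym fun a b => H.eta_par]
    abel
  · simp [hg]

include hE in
/-- The commutator of `L_{-1}` and `L_n`. -/
theorem LL0_z (n g : ℕ) : LL 0 (z F (n + 1) (g + 1)) = -((n : ℂ) + 1) • z F n (g + 1) := by
  have e1 : LL 0 (F (g + 1)) = 0 := by simpa [z_zero] using h0 (g + 1)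
  have e2 : (LL 0 (LL (n + 1) (F (g + 1))) - LL (n + 1) (LL 0 (F (g + 1))) +
      ((n : ℂ) + 1) • LL n (F (g + 1)) +
      sig fun x => if x.1 = 0 then Lz (n + 1) (-1) x.2 (F (g + 1)) else 0) = 0 :=
    ext' fun l => H.LL_comm n l _ (hF (g + 1))
  rw [e1, LL_zero, sub_zero] at e2
  have e3 : ∀ s a t b, LL 0 (G2 F (g + 1) s a t b) =
      -(G2 F (g + 1) (s - 1) a t b + G2 F (g + 1) s a (t - 1) b) -
      (if g = 0 then (if s = 0 ∧ t = 0 then X.η a b • (1 : X.S K) else 0) else 0) -
      (if s = 0 then tau X.η a * dz t b (F (g + 1)) else 0) -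
      (if t = 0 then dz s a (F (g + 1)) * tau X.η b else 0) := by
    intro s a t b
    simp only [G2, Nat.succ_ne_zero, if_false, Nat.add_sub_cancel, LL_add, LL_sum, H.LL_mul,
      H.LL0_dz (symm_dz (hF g) s a), H.LL0_dz_F hF h0, mul_sub, sub_mul, sum_sub_distrib,
      sum_add_distrib, mul_neg, neg_mul, sum_neg_distrib, dz_sub, dz_neg']
    have a1 : dz t b (if g = 0 ∧ s = 0 then tau X.η a else 0 : X.S K) =
        if g = 0 then (if s = 0 ∧ t = 0 then X.η a b • (1 : X.S K) else 0) else 0 := by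
      by_cases h1 : g = 0 <;> by_cases h2 : s = 0 <;> simp [h1, h2, dz_tau]
    have a2 : ∑ h ∈ antidiagonal (g + 1), dz s a (F h.1) *
        (if h.2 = 0 ∧ t = 0 then tau X.η b else 0) =
        if t = 0 then dz s a (F (g + 1)) * tau X.η b else 0 := by
      rw [sum_eq_single (g + 1, 0) (fun h hh hn => by
        rw [if_neg, mul_zero]
        rintro ⟨h2, -⟩
        exact hn (by ext <;> simp_all)) (by simp)]
      simp
    have a3 : ∑ h ∈ antidiagonal (g + 1), (if h.1 = 0 ∧ s = 0 then tau X.η a else 0) *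
        dz t b (F h.2) = if s = 0 then tau X.η a * dz t b (F (g + 1)) else 0 := by
      rw [sum_eq_single (0, g + 1) (fun h hh hn => by
        rw [if_neg, zero_mul]
        rintro ⟨h2, -⟩
        exact hn (by ext <;> simp_all)) (by simp)]
      simp
    rw [a1, a2, a3]
    abel
  have b1 : T (n + 1) (fun s a t b => if s = 0 then tau X.η a * dz t b (F (g + 1)) else 0) =
      -sig fun x => if x.1 = 0 then Lz (n + 1) (-1) x.2 (F (g + 1)) else 0 := by
    rw [← H.T_tau]
    refine T_congr H _ fun s a t b hab => ?_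
    rw [(H.par_tau a).comm_sg (par_dz (hE _) t b), hab, mul_smul_comm]
    simp
  have b2 : T (n + 1) (fun s a t b => if t = 0 then dz s a (F (g + 1)) * tau X.η b else 0) =
      -sig fun x => if x.1 = 0 then Lz (n + 1) (-1) x.2 (F (g + 1)) else 0 := by
    rw [← H.T_tau, T_swap H _ _ (fun s a t b h => by simp [dz_neg h])
      (fun s a t b h => if_neg h.ne)]
    refine T_congr H _ fun s a t b _ => ?_
    split_ifs <;> simp
  have b3 := T_shift n (G2 F (g + 1)) (fun a t b => by simp [G2, dz_neg])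
    (fun s a t b h => by simp [G2, dz_neg h])
  have b4 : T (n + 1) (fun s a t b => if g = 0 then
      (if s = 0 ∧ t = 0 then X.η a b • (1 : X.S K) else 0) else 0) =
      if g = 0 ∧ n = 1 then (4 * X.ρ) • (1 : X.S K) else 0 := by
    by_cases hg : g = 0
    · simp only [hg, if_true, true_and, H.T_const]
    · simp [hg, T]
  have e4 : LL 0 (T (n + 1) (G2 F (g + 1))) = -(((n : ℂ) + 1) • T n (G2 F (g + 1))) -
      (if g = 0 ∧ n = 1 then (4 * X.ρ) • (1 : X.S K) else 0) +
      (2 : ℂ) • sig fun x => if x.1 = 0 then Lz (n + 1) (-1) x.2 (F (g + 1)) else 0 := by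
    have := T_map (n + 1) (G2 F (g + 1)) (LLm 0).toAddMonoidHom (LL_smulC 0)
    change LL 0 _ = T _ fun s a t b => LL 0 _ at this
    rw [this, ← b3, ← b4, two_smul, ← neg_neg (sig _), ← b1]
    nth_rewrite 2 [b1]
    rw [← b2]
    simp only [e3, T, smul_sub, smul_neg, sum_sub_distrib, sum_neg_distrib]
    abel
  have e5 : LL 0 (if g + 1 = 1 ∧ n + 1 = 1 then X.ρ • (1 : X.S K) else 0) = 0 := by
    split_ifs
    · rw [LL_smulC, LL_one, smul_zero]
    · exact LL_zero 0
  rw [z_eq, LL_add, e5]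
  simp only [z_eq, LL_add, LL_smulC, e4, Nat.succ_ne_zero, if_false, add_zero,
    Nat.add_eq_right]
  rw [add_assoc, add_eq_zero_iff_eq_neg] at e2
  rw [e2]
  split_ifs with h
  · rw [h.2, Nat.cast_one]; module
  · module

end Ok

end Tgt

end Vale.Agent.P269
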