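import Vale.Agent.P269.Deg

/-! Even vector fields as derivations, even matrices and the supertrace. -/

noncomputable section

namespace Vale.Agent.P269.Tgt

open Finset Ser Matrix

variable {X : Tgt} {K : Type} [CommRing K] [Algebra ℂ K]

variable (X K) in
/-- Matrices of series. -/
abbrev Mat : Type := Matrix X.ι X.ι (X.S K)

/-- `δ` is the derivative along an even vector field. -/
structure VT (δ : X.S K → X.S K) : Prop where
  key : ∀ {J : Type} [Fintype J] (a g b : J → X.S K),
    (∀ y : ℕ × X.ι, ∑ j, a j * der y (g j) * tw (X.par y.2) (b j) = 0) →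
      ∑ j, a j * δ (g j) * b j = 0
  par : ∀ {p : Bool} {f : X.S K}, Par p f → Par p (δ f)

namespace VT

omit [Algebra ℂ K]

variable {δ δ' : X.S K → X.S K} (h : VT δ)
include h

theorem map_add (f g : X.S K) : δ (f + g) = δ f + δ g := by
  have := h.key ![1, -1, -1] ![f + g, f, g] ![1, 1, 1] fun y => by
    simp [Fin.sum_univ_three]
  simp only [Fin.sum_univ_three, Matrix.cons_val, one_mul, mul_one, neg_mul] at this
  rw [← sub_eq_zero, ← this]; abel

theorem map_mul (f g : X.S K) : δ (f * g) = f * δ g + δ f * g := by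
  have := h.key ![1, -f, -1] ![f * g, g, f] ![1, 1, g] fun y => by
    simp [Fin.sum_univ_three, der_mul]
  simp only [Fin.sum_univ_three, Matrix.cons_val, one_mul, mul_one, neg_mul] at this
  rw [← sub_eq_zero, ← this]; abel

theorem map_smul {R : Type} [CommRing R] [Algebra R K] (c : R) (f : X.S K) :
    δ (c • f) = c • δ f := by
  have := h.key ![1, -(c • 1)] ![c • f, f] ![1, 1] fun y => by
    simp [Fin.sum_univ_two]
  simpa [Fin.sum_univ_two, add_neg_eq_zero] using this

theorem map_one : δ 1 = 0 := by
  simpa using h.key (J := Unit) (fun _ => 1) (fun _ => 1) (fun _ => 1) fun y => by simp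

/-- The additive map. -/
def hom : X.S K →+ X.S K := AddMonoidHom.mk' δ h.map_add

theorem map_zero : δ 0 = 0 := h.hom.map_zero
theorem map_neg (f : X.S K) : δ (-f) = -δ f := h.hom.map_neg f
theorem map_sub (f g : X.S K) : δ (f - g) = δ f - δ g := h.hom.map_sub f g
theorem map_sum {α : Type} (s : Finset α) (f : α → X.S K) :
    δ (∑ i ∈ s, f i) = ∑ i ∈ s, δ (f i) := _root_.map_sum h.hom f s

theorem map_tw {p : Bool} {f : X.S K} (hf : Par p f) (b : Bool) : δ (tw b f) = tw b (δ f) := by
  rw [hf.tw_eq, (h.par hf).tw_eq, h.map_smul]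

theorem add (h' : VT δ') : VT fun f => δ f + δ' f where
  key a g b e := by
    simp only [mul_add, add_mul, sum_add_distrib, h.key a g b e, h'.key a g b e, add_zero]
  par hf := (h.par hf).add (h'.par hf)

theorem neg : VT fun f => -δ f where
  key a g b e := by simp only [mul_neg, neg_mul, sum_neg_distrib, h.key a g b e, neg_zero]
  par hf := (h.par hf).neg

end VT

omit [Algebra ℂ K] in
theorem vt_zero : VT fun _ : X.S K => 0 := ⟨fun _ _ _ _ => by simp, fun _ => par_zero _⟩

omit [Algebra ℂ K] in
theorem vt_sum {α : Type} (s : Finset α) (δ : α → X.S K → X.S K) (h : ∀ i ∈ s, VT (δ i)) :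
    VT fun f => ∑ i ∈ s, δ i f := by
  classical
  induction s using Finset.induction_on with
  | empty => simpa using vt_zero
  | insert a s ha ih =>
    simp only [sum_insert ha]
    exact (h a (mem_insert_self _ _)).add (ih fun i hi => h i (mem_insert_of_mem hi))

theorem vt_smul (c : ℂ) {δ : X.S K → X.S K} (h : c ≠ 0 → VT δ) : VT fun f => c • δ f := by
  by_cases hc : c = 0
  · simpa [hc] using vt_zero
  · exact ⟨fun a g b e => by
      simp only [mul_smul_comm, smul_mul_assoc, ← smul_sum, (h hc).key a g b e, smul_zero],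
      fun hf => ((h hc).par hf).smul c⟩

omit [Algebra ℂ K] in
theorem key_dz {J : Type} [Fintype J] {a g b : J → X.S K}
    (e : ∀ y : ℕ × X.ι, ∑ j, a j * der y (g j) * tw (X.par y.2) (b j) = 0) (s : ℤ) (c : X.ι) :
    ∑ j, a j * dz s c (g j) * tw (X.par c) (b j) = 0 := by
  unfold dz
  split_ifs
  · exact e (s.toNat, c)
  · simp

omit [Algebra ℂ K] in
theorem vt_dz (s : ℤ) (c : X.ι) {u : X.S K} (hu : Par (X.par c) u) :
    VT fun f => dz s c f * u where
  key a g b e := by
    have := congrArg (· * u) (key_dz e s c)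
    simp only [sum_mul, zero_mul] at this
    rw [← this]
    exact sum_congr rfl fun j _ => by simp only [mul_assoc, hu.comm]
  par hf := ((par_dz hf s c).mul hu).cast (by cases X.par c <;> simp)

theorem Ok.vt_LL (H : X.Ok) (n : ℕ) : VT (LL n : X.S K → X.S K) where
  key a g b e := by
    have e1 : ∀ j c, ∑ i, a i * Lz n j c (g i) * tw (X.par c) (b i) = 0 := by
      intro j c
      simp only [Lz, mul_sum, sum_mul, mul_smul_comm, smul_mul_assoc]
      rw [sum_comm]
      refine sum_eq_zero fun i _ => ?_
      rw [sum_comm]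
      refine sum_eq_zero fun d _ => ?_
      rw [← smul_sum]
      by_cases h : X.M n i j d c = 0
      · rw [h, zero_smul]
      · rw [← H.M_par h, key_dz e, smul_zero]
    have e2 := e1 1 X.one
    simp only [H.par_one, tw_false] at e2
    simp only [LL, mul_sub, sub_mul, sum_sub_distrib, e2, mul_sig, sig_mul, ← sig_sum, e1,
      sig_zero, sub_zero]
  par hf := H.par_LL hf n

/-! ### Matrices -/

/-- Constant matrices. -/
def cm : Matrix X.ι X.ι ℂ →+* Mat X K := (algebraMap ℂ (X.S K)).mapMatrix

theorem cm_apply (N : Matrix X.ι X.ι ℂ) (a b : X.ι) : (cm N : Mat X K) a b = N a b • 1 :=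
  Algebra.algebraMap_eq_smul_one (N a b)

theorem cm_mul_apply (N : Matrix X.ι X.ι ℂ) (A : Mat X K) (a b : X.ι) :
    (cm N * A : Mat X K) a b = ∑ c, N a c • A c b := by
  simp only [Matrix.mul_apply, cm_apply, smul_mul_assoc, one_mul]

theorem mul_cm_apply (N : Matrix X.ι X.ι ℂ) (A : Mat X K) (a b : X.ι) :
    (A * cm N : Mat X K) a b = ∑ c, N c b • A a c := by
  simp only [Matrix.mul_apply, cm_apply, mul_smul_comm, mul_one]

theorem cm_smul (c : ℂ) (N : Matrix X.ι X.ι ℂ) : (cm (c • N) : Mat X K) = c • cm N := by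
  ext a b : 2
  simp only [cm_apply, Matrix.smul_apply, smul_eq_mul, mul_smul]

namespace VT

variable {δ : X.S K → X.S K} (h : VT δ)
include h

omit [Algebra ℂ K] in
theorem mat_key {A Y B A' Y' B' : Mat X K}
    (e : ∀ y : ℕ × X.ι, A * Y.map (der y) * B.map (tw (X.par y.2)) =
      A' * Y'.map (der y) * B'.map (tw (X.par y.2))) :
    A * Y.map δ * B = A' * Y'.map δ * B' := by
  ext c a : 2
  have := h.key (J := (X.ι × X.ι) ⊕ (X.ι × X.ι))
    (Sum.elim (fun u => A c u.2) fun u => -A' c u.2)
    (Sum.elim (fun u => Y u.2 u.1) fun u => Y' u.2 u.1)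
    (Sum.elim (fun u => B u.1 a) fun u => B' u.1 a) fun y => by
      have := congrFun (congrFun (e y) c) a
      simp only [Matrix.mul_apply, map_apply, sum_mul] at this
      simp only [Fintype.sum_sum_type, Fintype.sum_prod_type, Sum.elim_inl, Sum.elim_inr,
        neg_mul, sum_neg_distrib, this, add_neg_cancel]
  simp only [Fintype.sum_sum_type, Fintype.sum_prod_type, Sum.elim_inl, Sum.elim_inr,
    neg_mul, sum_neg_distrib, add_neg_eq_zero] at this
  simpa only [Matrix.mul_apply, map_apply, sum_mul] using this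

omit [Algebra ℂ K] in
theorem mat_mul (A B : Mat X K) : (A * B).map δ = A * B.map δ + A.map δ * B := by
  ext c a : 2
  simp only [Matrix.mul_apply, map_apply, h.map_sum, h.map_mul, Matrix.add_apply,
    sum_add_distrib]

omit [Algebra ℂ K] in
theorem mat_add (A B : Mat X K) : (A + B).map δ = A.map δ + B.map δ := by
  ext c a : 2
  simp only [map_apply, Matrix.add_apply, h.map_add]

omit [Algebra ℂ K] in
theorem mat_sub (A B : Mat X K) : (A - B).map δ = A.map δ - B.map δ := by
  ext c a : 2
  simp only [map_apply, Matrix.sub_apply, h.map_sub]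

omit [Algebra ℂ K] in
theorem mat_zero : (0 : Mat X K).map δ = 0 := by
  ext c a : 2
  simp only [map_apply, Matrix.zero_apply, h.map_zero]

theorem mat_smul (c : ℂ) (A : Mat X K) : (c • A).map δ = c • A.map δ := by
  ext c a : 2
  simp only [map_apply, Matrix.smul_apply, h.map_smul]

theorem mat_cm (N : Matrix X.ι X.ι ℂ) : (cm N : Mat X K).map δ = 0 := by
  ext c a : 2
  simp only [map_apply, cm_apply, h.map_smul, h.map_one, smul_zero, Matrix.zero_apply]

theorem mat_one : (1 : Mat X K).map δ = 0 := by
  simpa using h.mat_cm 1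

end VT

/-- Even matrices. -/
def EM (A : Mat X K) : Prop := ∀ c a, Par (xor (X.par c) (X.par a)) (A c a)

/-- Even vectors. -/
def EV (v : X.ι → X.S K) : Prop := ∀ a, Par (X.par a) (v a)

section even
omit [Algebra ℂ K]

theorem EM.mul {A B : Mat X K} (hA : EM A) (hB : EM B) : EM (A * B) := fun c a =>
  par_sum fun e _ => ((hA c e).mul (hB e a)).cast (by
    cases X.par c <;> cases X.par e <;> cases X.par a <;> rfl)

theorem EM.add {A B : Mat X K} (hA : EM A) (hB : EM B) : EM (A + B) := fun c a =>
  (hA c a).add (hB c a)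

theorem EM.sub {A B : Mat X K} (hA : EM A) (hB : EM B) : EM (A - B) := fun c a =>
  (hA c a).sub (hB c a)

theorem EM.neg {A : Mat X K} (hA : EM A) : EM (-A) := fun c a => (hA c a).neg

theorem em_zero : EM (0 : Mat X K) := fun _ _ => par_zero _

theorem em_one : EM (1 : Mat X K) := fun c a => by
  by_cases h : c = a
  · subst h; simpa using par_one
  · rw [one_apply_ne h]; exact par_zero _

theorem EM.pow {A : Mat X K} (hA : EM A) (n : ℕ) : EM (A ^ n) := by
  induction n with
  | zero => simpa using em_one
  | succ n ih => rw [pow_succ]; exact ih.mul hA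

theorem EM.map {A : Mat X K} (hA : EM A) {δ : X.S K → X.S K} (h : VT δ) : EM (A.map δ) :=
  fun c a => h.par (hA c a)

theorem EM.mulVec {A : Mat X K} (hA : EM A) {v : X.ι → X.S K} (hv : EV v) : EV (A *ᵥ v) :=
  fun c => par_sum fun e _ => ((hA c e).mul (hv e)).cast (by
    cases X.par c <;> cases X.par e <;> rfl)

theorem ext_EV {A B : Mat X K} (h : ∀ v, EV v → A *ᵥ v = B *ᵥ v) : A = B := by
  ext c a : 2
  refine ext' fun l => ?_
  obtain ⟨N, hN⟩ : ∃ N, (N, a) ∉ l := by
    by_contra h0
    push Not at h0
    exact Set.infinite_of_injective_forall_mem (f := fun N : ℕ => (N, a))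
      (fun _ _ e => congrArg Prod.fst e) (s := {x | x ∈ l}) h0 (List.finite_toSet l)
  have := congrFun (congrFun (h (Pi.single a (var (N, a))) fun b => by
    by_cases e : b = a
    · subst e; rw [Pi.single_eq_same]; exact par_var (N, b)
    · rw [Pi.single_eq_of_ne e]; exact par_zero _) c) ((N, a) :: l)
  simpa only [mulVec, dotProduct_single, mul_var_cons _ _ _ hN] using this

end even

theorem EM.smul {A : Mat X K} (hA : EM A) (c : ℂ) : EM (c • A) := fun a b => (hA a b).smul c

theorem em_cm {N : Matrix X.ι X.ι ℂ} (h : ∀ a b, N a b ≠ 0 → X.par a = X.par b) :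
    EM (cm N : Mat X K) := fun a b => by
  rw [cm_apply]
  exact Par.smul' _ fun h0 => par_one.cast (by simp [h a b h0])

/-- The supertrace. -/
def str (A : Mat X K) : X.S K := ∑ a, (sg (X.par a) : ℂ) • A a a

theorem str_add (A B : Mat X K) : str (A + B) = str A + str B := by
  simp only [str, Matrix.add_apply, smul_add, sum_add_distrib]

theorem str_smul (c : ℂ) (A : Mat X K) : str (c • A) = c • str A := by
  simp only [str, Matrix.smul_apply, smul_sum, smul_comm c]

/-- The supertrace as a linear map. -/
def strL : Mat X K →ₗ[ℂ] X.S K where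
  toFun := str
  map_add' := str_add
  map_smul' := str_smul

theorem str_sub (A B : Mat X K) : str (A - B) = str A - str B := strL.map_sub A B
theorem str_neg (A : Mat X K) : str (-A) = -str A := strL.map_neg A
theorem str_zero : str (0 : Mat X K) = 0 := strL.map_zero
theorem str_sum {α : Type} (s : Finset α) (f : α → Mat X K) :
    str (∑ i ∈ s, f i) = ∑ i ∈ s, str (f i) := map_sum strL f s

theorem str_comm {A B : Mat X K} (hA : EM A) (hB : EM B) : str (A * B) = str (B * A) := by
  simp only [str, Matrix.mul_apply, smul_sum]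
  rw [sum_comm]
  refine sum_congr rfl fun b _ => sum_congr rfl fun a _ => ?_
  rw [(hA a b).comm_sg (hB b a), ← sgR_smul (R := ℂ), smul_smul]
  congr 1
  cases X.par a <;> cases X.par b <;> simp

theorem VT.str {δ : X.S K → X.S K} (h : VT δ) (A : Mat X K) : δ (str A) = str (A.map δ) := by
  simp only [Tgt.str, h.map_sum, h.map_smul, map_apply]

theorem EM.par_str {A : Mat X K} (hA : EM A) : Par false (str A) :=
  par_sum fun a _ => ((hA a a).smul _).cast (by simp)

end Vale.Agent.P269.Tgt
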